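import Mathlib
import Vale.Agent.P120.Statements
import Vale.Agent.P120.Pairing

/-!
Auxiliary facts for module Improve: plane algebra, limits of planes, uniform limits.
-/

noncomputable section

open MeasureTheory Metric Set Filter Topology
open scoped ENNReal NNReal RealInnerProductSpace

namespace Vale.Agent.P120.Improve

variable {n d : ℕ}

/-- the linear part of the parametrisation of a plane -/
def lin (L : Plane n d) : Spc n →ₗ[ℝ] Spc d where
  toFun u := ∑ i, u i • L.frame i
  map_add' u v := by simp [add_smul, Finset.sum_add_distrib]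
  map_smul' c u := by simp [Finset.smul_sum, smul_smul]

lemma param_eq (L : Plane n d) (u : Spc n) : L.param u = L.base + lin L u := rfl

lemma inner_frame_lin (L : Plane n d) (i : Fin n) (u : Spc n) : ⟪L.frame i, lin L u⟫ = u i :=
  L.orth.inner_right_fintype (fun i => u i) i

lemma norm_lin (L : Plane n d) (u : Spc n) : ‖lin L u‖ = ‖u‖ := by
  have h : ⟪lin L u, lin L u⟫ = ∑ i, u i * u i := by
    have e : lin L u = ∑ i, u i • L.frame i := rfl
    calc ⟪lin L u, lin L u⟫ = ⟪∑ i, u i • L.frame i, lin L u⟫ := by rw [← e]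
      _ = _ := by simp only [sum_inner, real_inner_smul_left, inner_frame_lin]
  refine (sq_eq_sq₀ (norm_nonneg _) (norm_nonneg _)).1 ?_
  rw [← real_inner_self_eq_norm_sq, h, EuclideanSpace.norm_sq_eq]
  simp [sq]

lemma coord_apply (L : Plane n d) (y : Spc d) (i : Fin n) :
    L.coord y i = ⟪L.frame i, y - L.base⟫ := rfl

lemma coord_sub (L : Plane n d) (x y : Spc d) (i : Fin n) :
    L.coord x i - L.coord y i = ⟪L.frame i, x - y⟫ := by
  simp only [coord_apply, inner_sub_right]; ring

lemma dev_eq (L : Plane n d) (y : Spc d) : L.dev y = (y - L.base) - lin L (L.coord y) := rfl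

lemma param_coord (L : Plane n d) (y : Spc d) : L.param (L.coord y) = y - L.dev y := by
  rw [dev_eq, param_eq]; abel

lemma coord_param (L : Plane n d) (u : Spc n) : L.coord (L.param u) = u := by
  ext i
  rw [coord_apply, param_eq, add_sub_cancel_left, inner_frame_lin]

lemma dev_param (L : Plane n d) (u : Spc n) : L.dev (L.param u) = 0 := by
  rw [dev_eq, coord_param, param_eq]; abel

lemma inner_frame_dev (L : Plane n d) (i : Fin n) (y : Spc d) : ⟪L.frame i, L.dev y⟫ = 0 := by
  rw [dev_eq, inner_sub_right, inner_frame_lin, coord_apply]; ring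

lemma mem_carrier_of_dev_eq_zero {L : Plane n d} {y : Spc d} (h : L.dev y = 0) : y ∈ L.carrier :=
  ⟨L.coord y, by rw [param_coord, h, sub_zero]⟩

lemma dev_sub (L : Plane n d) (x y : Spc d) :
    L.dev x - L.dev y = (x - y) - lin L (L.coord x - L.coord y) := by
  rw [dev_eq, dev_eq, map_sub]; abel

lemma inner_lin_dev (L : Plane n d) (u : Spc n) (y : Spc d) : ⟪lin L u, L.dev y⟫ = 0 := by
  have e : lin L u = ∑ i, u i • L.frame i := rfl
  simp [e, sum_inner, real_inner_smul_left, inner_frame_dev]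

lemma norm_sub_sq (L : Plane n d) (x y : Spc d) :
    ‖x - y‖ ^ 2 = ‖L.dev x - L.dev y‖ ^ 2 + ‖L.coord x - L.coord y‖ ^ 2 := by
  have h : x - y = (L.dev x - L.dev y) + lin L (L.coord x - L.coord y) := by
    rw [dev_sub]; abel
  have ho : ⟪L.dev x - L.dev y, lin L (L.coord x - L.coord y)⟫ = 0 := by
    rw [real_inner_comm, inner_sub_right, inner_lin_dev, inner_lin_dev, sub_zero]
  conv_lhs => rw [h, norm_add_sq_real, ho, norm_lin]
  ring

lemma norm_dev_sub_le (L : Plane n d) (x y : Spc d) : ‖L.dev x - L.dev y‖ ≤ ‖x - y‖ :=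
  (pow_le_pow_iff_left₀ (norm_nonneg _) (norm_nonneg _) two_ne_zero).1 (by
    rw [norm_sub_sq L x y]; linarith [sq_nonneg ‖L.coord x - L.coord y‖])

lemma norm_coord_sub_le (L : Plane n d) (x y : Spc d) : ‖L.coord x - L.coord y‖ ≤ ‖x - y‖ :=
  (pow_le_pow_iff_left₀ (norm_nonneg _) (norm_nonneg _) two_ne_zero).1 (by
    rw [norm_sub_sq L x y]; linarith [sq_nonneg ‖L.dev x - L.dev y‖])

lemma norm_dev_le (L : Plane n d) (y : Spc d) {p : Spc d} (hp : p ∈ L.carrier) :
    ‖L.dev y‖ ≤ ‖y - p‖ := by
  obtain ⟨u, rfl⟩ := hp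
  simpa [dev_param] using norm_dev_sub_le L y (L.param u)

lemma norm_dev_le_norm_add (L : Plane n d) (y : Spc d) : ‖L.dev y‖ ≤ ‖y‖ + ‖L.base‖ :=
  (norm_dev_le L y ⟨0, by simp [param_eq]⟩ : ‖L.dev y‖ ≤ ‖y - L.base‖).trans (norm_sub_le _ _)

@[fun_prop]
lemma continuous_coord (L : Plane n d) : Continuous L.coord := by
  unfold Plane.coord; fun_prop

@[fun_prop]
lemma continuous_dev (L : Plane n d) : Continuous L.dev := by
  unfold Plane.dev; fun_prop

@[fun_prop]
lemma continuous_param (L : Plane n d) : Continuous L.param := by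
  unfold Plane.param; fun_prop

/-- the plane with the same frame whose base point is the foot of the origin -/
def recentre (L : Plane n d) : Plane n d where
  base := L.param (L.coord 0)
  frame := L.frame
  orth := L.orth

lemma norm_recentre_base (L : Plane n d) : ‖(recentre L).base‖ = ‖L.dev 0‖ := by
  simp [recentre, param_coord]

lemma dev_recentre (L : Plane n d) (y : Spc d) : (recentre L).dev y = L.dev y := by
  have h : (recentre L).coord y = L.coord y - L.coord 0 := by
    ext i
    simp only [PiLp.sub_apply, coord_sub]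
    simp [coord_apply, recentre, param_eq, inner_sub_right, inner_add_right, inner_frame_lin]
  rw [dev_eq, dev_eq, h]
  simp only [recentre, param_eq, lin, LinearMap.coe_mk, AddHom.coe_mk]
  simp [sub_smul, Finset.sum_sub_distrib]
  abel

lemma nonempty_plane (h : n ≤ d) : Nonempty (Plane n d) :=
  ⟨⟨0, fun i => EuclideanSpace.basisFun (Fin d) ℝ (Fin.castLE h i),
    (EuclideanSpace.basisFun (Fin d) ℝ).orthonormal.comp _ (Fin.castLE_injective h)⟩⟩

/-- an injective affine image of `ℝ^n` lies in a plane -/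
lemma exists_plane_of_affine (b : Spc d) (T : Spc n →ₗ[ℝ] Spc d) (hT : Function.Injective T) :
    ∃ L : Plane n d, ∀ u, b + T u ∈ L.carrier := by
  have hr : Module.finrank ℝ (LinearMap.range T) = n := by
    rw [LinearMap.finrank_range_of_inj hT]; simp
  let o := (stdOrthonormalBasis ℝ (LinearMap.range T)).reindex (finCongr hr)
  let L : Plane n d := ⟨b, fun i => (o i : Spc d),
    o.orthonormal.comp_linearIsometry (LinearMap.range T).subtypeₗᵢ⟩
  refine ⟨L, fun u => ⟨WithLp.toLp 2 fun i => o.repr ⟨T u, LinearMap.mem_range_self T u⟩ i, ?_⟩⟩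
  have h := congrArg (fun v : LinearMap.range T => (v : Spc d))
    (o.sum_repr ⟨T u, LinearMap.mem_range_self T u⟩)
  simpa [Plane.param, L] using h

section Limit

variable {ι : Type*} {F : Filter ι} {Ls : ι → Plane n d} {P : Plane n d} {z : ι → Spc d} {y : Spc d}

lemma tendsto_coord (hb : Tendsto (fun j => (Ls j).base) F (𝓝 P.base))
    (hf : ∀ i, Tendsto (fun j => (Ls j).frame i) F (𝓝 (P.frame i))) (hz : Tendsto z F (𝓝 y)) :
    Tendsto (fun j => (Ls j).coord (z j)) F (𝓝 (P.coord y)) :=
  ((PiLp.continuous_toLp 2 _).tendsto _).comp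
    (tendsto_pi_nhds.2 fun i => (hf i).inner (hz.sub hb))

lemma tendsto_dev (hb : Tendsto (fun j => (Ls j).base) F (𝓝 P.base))
    (hf : ∀ i, Tendsto (fun j => (Ls j).frame i) F (𝓝 (P.frame i))) (hz : Tendsto z F (𝓝 y)) :
    Tendsto (fun j => (Ls j).dev (z j)) F (𝓝 (P.dev y)) :=
  (hz.sub hb).sub (tendsto_finsetSum _ fun i _ => ((hf i).inner (hz.sub hb)).smul (hf i))

/-- limit plane along an ultrafilter -/
lemma exists_limit_plane (U : Ultrafilter ι) (Ls : ι → Plane n d)
    (hb : Tendsto (fun j => (Ls j).base) U (𝓝 0)) :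
    ∃ P : Plane n d, P.base = 0 ∧ Tendsto (fun j => (Ls j).base) U (𝓝 P.base) ∧
      ∀ i, Tendsto (fun j => (Ls j).frame i) U (𝓝 (P.frame i)) := by
  have hK : ∀ i, ∃ e, Tendsto (fun j => (Ls j).frame i) U (𝓝 e) := by
    intro i
    obtain ⟨e, -, he⟩ := (isCompact_closedBall (0 : Spc d) 1).ultrafilter_le_nhds
      (U.map fun j => (Ls j).frame i) (by
        rw [Ultrafilter.coe_map, le_principal_iff]
        exact Eventually.of_forall (f := (U : Filter ι)) fun j => by
          simp [(Ls j).orth.1 i])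
    exact ⟨e, by simpa [Tendsto] using he⟩
  choose e he using hK
  have ho : Orthonormal ℝ e := by
    rw [orthonormal_iff_ite]
    intro i k
    refine tendsto_nhds_unique ((he i).inner (he k)) ?_
    have hc : (fun j => ⟪(Ls j).frame i, (Ls j).frame k⟫) = fun _ => if i = k then (1 : ℝ) else 0 :=
      funext fun j => orthonormal_iff_ite.1 (Ls j).orth i k
    rw [hc]; exact tendsto_const_nhds
  exact ⟨⟨0, e, ho⟩, rfl, hb, he⟩

end Limit

/-- Pointwise convergence to zero of an equicontinuous family is uniform on compact sets. -/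
lemma eventually_abs_le_of_equicontinuous {X ι : Type*} [PseudoMetricSpace X] {F : Filter ι}
    {K : Set X} (hK : IsCompact K) {f : ι → X → ℝ}
    (hpt : ∀ x ∈ K, Tendsto (fun j => f j x) F (𝓝 0))
    (heq : ∀ ε > 0, ∃ δ > 0, ∀ᶠ j in F, ∀ x ∈ K, ∀ y ∈ K, dist x y < δ → |f j x - f j y| ≤ ε)
    {ε : ℝ} (hε : 0 < ε) : ∀ᶠ j in F, ∀ x ∈ K, |f j x| ≤ ε := by
  obtain ⟨δ, hδ, hev⟩ := heq (ε / 2) (half_pos hε)
  obtain ⟨T, hTK, hT, hcov⟩ := finite_cover_balls_of_compact hK hδ
  have hfin : ∀ᶠ j in F, ∀ y ∈ T, |f j y| ≤ ε / 2 :=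
    (eventually_all_finite hT).2 fun y hy => by
      have := (hpt y (hTK hy)).abs
      rw [abs_zero] at this
      exact (this.eventually (gt_mem_nhds (half_pos hε))).mono fun j hj => le_of_lt hj
  filter_upwards [hev, hfin] with j h1 h2 x hx
  obtain ⟨y, hy, hxy⟩ := mem_iUnion₂.1 (hcov hx)
  have := h1 x hx y (hTK hy) hxy
  have := h2 y hy
  have := abs_sub_abs_le_abs_sub (f j x) (f j y)
  linarith

/-- a continuous compactly supported function is uniformly continuous -/
lemma uniformContinuous_of_cs {α : Type*} [UniformSpace α] {f : α → ℝ} (hf : Continuous f)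
    (hc : HasCompactSupport f) : UniformContinuous f :=
  hf.uniformContinuous_of_tendsto_cocompact hc.is_zero_at_infty

/-- almost every point lies in the support -/
lemma ae_mem_support (μ : Measure (Spc d)) : ∀ᵐ x ∂μ, x ∈ μ.support :=
  Measure.support_mem_ae

/-- Cauchy–Schwarz in the form used for growth bounds -/
lemma two_abs_le {a p : ℝ} (hp : 0 < p) : 2 * |a| ≤ a ^ 2 / p + p := by
  rw [div_add' _ _ _ hp.ne', le_div_iff₀ hp]
  nlinarith [sq_nonneg (|a| - p), sq_abs a]

end Vale.Agent.P120.Improve
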