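import Mathlib
import Vale.Agent.P120.Improve.Planes

/-!
Growth of the deviation from a near-optimal plane along a flat chain of ancestors.
-/

noncomputable section

open MeasureTheory Metric Set Filter Topology
open scoped ENNReal NNReal RealInnerProductSpace

namespace Vale.Agent.P120.Improve

variable {n d : ℕ}

/-- a chain of flat balls at the scales `8^i`, `i ≤ I`, with the smallest at the origin -/
structure Chain (n : ℕ) (μ : Measure (Spc d)) (Λ η : ℝ) (I : ℕ) (z : ℕ → Spc d) : Prop where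
  base : z 0 = 0
  mem : ∀ i ≤ I, z i ∈ μ.support
  step : ∀ i < I, dist (z i) (z (i + 1)) ≤ 2 * 8 ^ (i + 1)
  flat : ∀ i ≤ I, Flat n μ (z i) (Λ * 8 ^ i) (η * 8 ^ i)

/-- the weighted sum of the flatness coefficients of a chain -/
def chainSum (n : ℕ) (μ : Measure (Spc d)) (Λ : ℝ) (I : ℕ) (z : ℕ → Spc d) : ℝ :=
  (∑ i ∈ Finset.range (I + 1), (1/2 : ℝ) ^ i * betaSq n μ Λ (z i) (8 ^ i)) + (1/2 : ℝ) ^ I

lemma Chain.norm_center {μ : Measure (Spc d)} {Λ η : ℝ} {I : ℕ} {z : ℕ → Spc d}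
    (h : Chain n μ Λ η I z) : ∀ i ≤ I, ‖z i‖ ≤ 3 * 8 ^ i := by
  intro i
  induction i with
  | zero => intro; simp [h.base]
  | succ i ih =>
    intro hi
    have h1 := h.step i (Nat.lt_of_succ_le hi)
    have h2 := ih (Nat.le_of_succ_le hi)
    have h3 : ‖z (i + 1)‖ ≤ ‖z i‖ + dist (z i) (z (i + 1)) := by
      rw [dist_eq_norm', add_comm]
      exact norm_le_norm_add_norm_sub' _ _ |>.trans (by rw [add_comm])
    have : (0 : ℝ) < 8 ^ i := by positivity
    rw [pow_succ] at h1 ⊢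
    linarith

lemma devSq_nonneg (μ : Measure (Spc d)) (L : Plane n d) (x : Spc d) (R : ℝ) :
    0 ≤ devSq μ L x R :=
  integral_nonneg fun y => by positivity

lemma integrableOn_dev_sq (μ : Measure (Spc d)) [IsLocallyFiniteMeasure μ] (L : Plane n d)
    (x : Spc d) (R : ℝ) : IntegrableOn (fun y => ‖L.dev y‖ ^ 2) (closedBall x R) μ :=
  ((continuous_dev L).norm.pow 2).continuousOn.integrableOn_compact (isCompact_closedBall x R)

lemma devSq_mono (μ : Measure (Spc d)) [IsLocallyFiniteMeasure μ] (L : Plane n d) {x x' : Spc d}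
    {R R' : ℝ} (h : closedBall x R ⊆ closedBall x' R') : devSq μ L x R ≤ devSq μ L x' R' :=
  setIntegral_mono_set (integrableOn_dev_sq μ L x' R')
    (Eventually.of_forall fun y => by positivity) h.eventuallyLE

lemma devSq_le_of_bound {C D : ℝ} (μ : Measure (Spc d)) [IsLocallyFiniteMeasure μ]
    (hreg : Reg n C D μ) (L : Plane n d) (x : Spc d) {R : ℝ} (hR : 0 < R) {B : ℝ} (hB : 0 ≤ B)
    (h : ∀ y ∈ μ.support ∩ closedBall x R, ‖L.dev y‖ ≤ B) :
    devSq μ L x R ≤ B ^ 2 * (C * 2 ^ n * R ^ n) := by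
  calc devSq μ L x R ≤ ∫ _y in closedBall x R, B ^ 2 ∂μ := by
        refine setIntegral_mono_ae_restrict (integrableOn_dev_sq μ L x R)
          (integrableOn_const measure_closedBall_lt_top.ne) ?_
        filter_upwards [ae_restrict_mem measurableSet_closedBall,
          ae_restrict_of_ae (ae_mem_support μ)] with y h1 h2
        exact pow_le_pow_left₀ (norm_nonneg _) (h y ⟨h2, h1⟩) 2
    _ = μ.real (closedBall x R) * B ^ 2 := by rw [setIntegral_const, smul_eq_mul]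
    _ ≤ C * 2 ^ n * R ^ n * B ^ 2 :=
        mul_le_mul_of_nonneg_right (hreg.closedBall_real_le x hR) (sq_nonneg B)
    _ = _ := by ring

lemma betaSq_nonneg (μ : Measure (Spc d)) (Λ : ℝ) (x : Spc d) {t : ℝ} (ht : 0 < t) :
    0 ≤ betaSq n μ Λ x t :=
  div_nonneg (Real.iInf_nonneg fun L => devSq_nonneg μ L _ _) (by positivity)

lemma betaSq_le (μ : Measure (Spc d)) (Λ : ℝ) (x : Spc d) {t : ℝ} (ht : 0 < t) (L : Plane n d) :
    betaSq n μ Λ x t ≤ devSq μ L x (Λ * t) / t ^ (n + 2) := by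
  refine div_le_div_of_nonneg_right (ciInf_le ⟨0, ?_⟩ L) (by positivity)
  rintro _ ⟨L', rfl⟩
  exact devSq_nonneg μ L' _ _

lemma exists_near_optimal (hnd : n ≤ d) (μ : Measure (Spc d)) (Λ : ℝ) (x : Spc d) {t e : ℝ}
    (ht : 0 < t) (he : 0 < e) :
    ∃ L : Plane n d, devSq μ L x (Λ * t) ≤ t ^ (n + 2) * (betaSq n μ Λ x t + e) := by
  haveI := nonempty_plane (n := n) (d := d) hnd
  have h : (⨅ L : Plane n d, devSq μ L x (Λ * t)) < t ^ (n + 2) * (betaSq n μ Λ x t + e) := by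
    rw [betaSq, mul_add, mul_div_cancel₀ _ (by positivity)]
    linarith [mul_pos (show (0:ℝ) < t ^ (n + 2) by positivity) he]
  obtain ⟨L, hL⟩ := exists_lt_of_ciInf_lt h
  exact ⟨L, hL.le⟩

lemma chainSum_pos (μ : Measure (Spc d)) (Λ : ℝ) (I : ℕ) (z : ℕ → Spc d) :
    0 < chainSum n μ Λ I z :=
  add_pos_of_nonneg_of_pos
    (Finset.sum_nonneg fun i _ => mul_nonneg (by positivity) (betaSq_nonneg μ Λ _ (by positivity)))
    (by positivity)

lemma betaSq_le_chainSum (μ : Measure (Spc d)) (Λ : ℝ) (I : ℕ) (z : ℕ → Spc d) {i : ℕ}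
    (hi : i ≤ I) : betaSq n μ Λ (z i) (8 ^ i) + (1/2 : ℝ) ^ I ≤ 2 * 2 ^ i * chainSum n μ Λ I z := by
  have hnn : ∀ j ∈ Finset.range (I + 1), 0 ≤ (1/2 : ℝ) ^ j * betaSq n μ Λ (z j) (8 ^ j) :=
    fun j _ => mul_nonneg (by positivity) (betaSq_nonneg μ Λ _ (by positivity))
  have h1 : (1/2 : ℝ) ^ i * betaSq n μ Λ (z i) (8 ^ i) ≤ chainSum n μ Λ I z := by
    refine (Finset.single_le_sum hnn (Finset.mem_range.2 (Nat.lt_succ_of_le hi))).trans ?_
    simp only [chainSum]; linarith [show (0:ℝ) < (1/2 : ℝ) ^ I by positivity]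
  have h2 : betaSq n μ Λ (z i) (8 ^ i) ≤ 2 ^ i * chainSum n μ Λ I z := by
    have := mul_le_mul_of_nonneg_left h1 (show (0:ℝ) ≤ 2 ^ i by positivity)
    rwa [← mul_assoc, ← mul_pow, mul_one_div, div_self two_ne_zero, one_pow, one_mul] at this
  have h3 : (1/2 : ℝ) ^ I ≤ 2 ^ i * chainSum n μ Λ I z := by
    refine le_trans ?_ (le_mul_of_one_le_left (chainSum_pos μ Λ I z).le (one_le_pow₀ one_le_two))
    simp only [chainSum]; linarith [Finset.sum_nonneg hnn]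
  linarith

lemma Chain.zero_mem {μ : Measure (Spc d)} {Λ η : ℝ} {I : ℕ} {z : ℕ → Spc d}
    (h : Chain n μ Λ η I z) : (0 : Spc d) ∈ μ.support :=
  h.base ▸ h.mem 0 (Nat.zero_le _)

lemma Chain.subset_ball {μ : Measure (Spc d)} {Λ η : ℝ} (hΛ : 4 ≤ Λ) {I : ℕ} {z : ℕ → Spc d}
    (h : Chain n μ Λ η I z) {i : ℕ} (hi : i ≤ I) :
    closedBall (0 : Spc d) (8 ^ i) ⊆ closedBall (z i) (Λ * 8 ^ i) := by
  intro y hy
  rw [mem_closedBall, dist_zero_right] at hy
  rw [mem_closedBall, dist_eq_norm]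
  have : (4 : ℝ) * 8 ^ i ≤ Λ * 8 ^ i := by gcongr
  linarith [norm_sub_le y (z i), h.norm_center i hi]

section

variable {C D Λ η : ℝ} {μ : Measure (Spc d)} [IsLocallyFiniteMeasure μ] {I : ℕ} {z : ℕ → Spc d}

lemma chainSum_le (hreg : Reg n C D μ) (hΛ : 0 < Λ) (hη : 0 ≤ η) (hch : Chain n μ Λ η I z) :
    chainSum n μ Λ I z ≤ 2 * (C * 2 ^ n * Λ ^ n) * η ^ 2 + (1/2 : ℝ) ^ I := by
  have hC := hreg.nonneg
  have hβ : ∀ i ≤ I, betaSq n μ Λ (z i) (8 ^ i) ≤ C * 2 ^ n * Λ ^ n * η ^ 2 := by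
    intro i hi
    obtain ⟨P, hP⟩ := hch.flat i hi
    refine (betaSq_le μ Λ _ (by positivity) P).trans ?_
    have := devSq_le_of_bound μ hreg P (z i) (R := Λ * 8 ^ i) (by positivity) (by positivity) hP
    rw [div_le_iff₀ (by positivity)]
    refine this.trans (le_of_eq ?_)
    simp only [mul_pow, pow_add]; ring
  refine add_le_add ?_ le_rfl
  calc ∑ i ∈ Finset.range (I + 1), (1/2 : ℝ) ^ i * betaSq n μ Λ (z i) (8 ^ i)
      ≤ ∑ i ∈ Finset.range (I + 1), (1/2 : ℝ) ^ i * (C * 2 ^ n * Λ ^ n * η ^ 2) :=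
        Finset.sum_le_sum fun i hi => mul_le_mul_of_nonneg_left
          (hβ i (Nat.le_of_lt_succ (Finset.mem_range.1 hi))) (by positivity)
    _ = (∑ i ∈ Finset.range (I + 1), (1/2 : ℝ) ^ i) * (C * 2 ^ n * Λ ^ n * η ^ 2) := by
        rw [Finset.sum_mul]
    _ ≤ _ := by
        rw [mul_assoc 2]
        exact mul_le_mul_of_nonneg_right (sum_geometric_two_le _) (by positivity)

/-- near-optimal planes of all scales of the chain -/
def NearOpt (n : ℕ) (μ : Measure (Spc d)) (Λ : ℝ) (I : ℕ) (z : ℕ → Spc d) (L : ℕ → Plane n d) :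
    Prop :=
  ∀ i ≤ I, devSq μ (L i) (z i) (Λ * 8 ^ i) ≤
    (8 ^ i) ^ (n + 2) * (2 * 2 ^ i * chainSum n μ Λ I z)

omit [IsLocallyFiniteMeasure μ] in
lemma exists_nearOpt (hnd : n ≤ d) : ∃ L, NearOpt n μ Λ I z L := by
  haveI := nonempty_plane (n := n) (d := d) hnd
  choose! L hL using fun i (_ : i ≤ I) => exists_near_optimal hnd μ Λ (z i)
    (show (0:ℝ) < 8 ^ i by positivity) (show (0:ℝ) < (1/2 : ℝ) ^ I by positivity)
  exact ⟨L, fun i hi => (hL i hi).trans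
    (mul_le_mul_of_nonneg_left (betaSq_le_chainSum μ Λ I z hi) (by positivity))⟩

/-- the stability inequality of module PlaneStab, with a fixed constant -/
def Stab (n : ℕ) (μ : Measure (Spc d)) (D G : ℝ) : Prop :=
  ∀ z ∈ μ.support, ∀ r : ℝ, 0 < r → r ≤ D → ∀ (L L' : Plane n d) (y : Spc d),
    ‖L.dev y - L'.dev y‖ ≤
      G * (1 + dist y z / r) * Real.sqrt ((devSq μ L z r + devSq μ L' z r) / r ^ n)

/-- the drift constant -/
def driftA (n : ℕ) (G : ℝ) : ℝ := G * 16 * (4 * 8 ^ n + 4)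

lemma drift {G : ℝ} (hG : 0 ≤ G) (hst : Stab n μ D G) (hΛ : 4 ≤ Λ) (hch : Chain n μ Λ η I z)
    (hID : (8 : ℝ) ^ I ≤ D) {L : ℕ → Plane n d} (hL : NearOpt n μ Λ I z L) :
    ∀ i ≤ I, ∀ y, ‖(L 0).dev y - (L i).dev y‖ ≤
      driftA n G * (4 * 8 ^ i + ‖y‖) * 2 ^ i * Real.sqrt (chainSum n μ Λ I z) := by
  set S := chainSum n μ Λ I z
  have hSpos : 0 < S := chainSum_pos μ Λ I z
  have hA : 0 ≤ driftA n G := by unfold driftA; positivity
  intro i
  induction i with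
  | zero => intro _ y; simp only [sub_self, norm_zero]; positivity
  | succ i ih =>
    intro hi y
    have hi' : i < I := Nat.lt_of_succ_le hi
    have h1 : devSq μ (L i) (z i) (8 ^ i) ≤ (8 ^ i) ^ (n + 2) * (2 * 2 ^ i * S) :=
      (devSq_mono μ _ (closedBall_subset_closedBall (le_mul_of_one_le_left (by positivity)
        (by linarith)))).trans (hL i hi'.le)
    have h2 : devSq μ (L (i + 1)) (z i) (8 ^ i) ≤
        (8 ^ (i + 1)) ^ (n + 2) * (2 * 2 ^ (i + 1) * S) := by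
      refine (devSq_mono μ _ (closedBall_subset_closedBall' ?_)).trans (hL (i + 1) hi)
      have := hch.step i hi'
      have : (4 : ℝ) * 8 ^ (i + 1) ≤ Λ * 8 ^ (i + 1) := by gcongr
      have : (0 : ℝ) < 8 ^ i := by positivity
      rw [pow_succ] at *
      linarith
    have hP : (0 : ℝ) ≤ ((8 : ℝ) ^ i) ^ n * (8 ^ i) ^ 2 * S := by positivity
    have h3 : (devSq μ (L i) (z i) (8 ^ i) + devSq μ (L (i + 1)) (z i) (8 ^ i)) / (8 ^ i) ^ n ≤
        (16 * (4 * 8 ^ n + 4) * (8 ^ i * 2 ^ i * Real.sqrt S)) ^ 2 := by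
      rw [div_le_iff₀ (by positivity)]
      have e1 : ((8 : ℝ) ^ (i + 1)) ^ (n + 2) = 8 ^ n * 64 * (((8:ℝ) ^ i) ^ n * (8 ^ i) ^ 2) := by
        rw [pow_succ (8:ℝ) i, mul_pow, pow_add ((8:ℝ)^i), pow_add (8:ℝ)]; ring
      have e2 : (2 : ℝ) ^ i ≤ (2 ^ i) ^ 2 := le_self_pow₀ (one_le_pow₀ one_le_two) two_ne_zero
      have hQ : (2 + 256 * 8 ^ n : ℝ) ≤ (16 * (4 * 8 ^ n + 4)) ^ 2 := by
        nlinarith [show (1:ℝ) ≤ 8 ^ n from one_le_pow₀ (by norm_num)]
      calc devSq μ (L i) (z i) (8 ^ i) + devSq μ (L (i + 1)) (z i) (8 ^ i)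
          ≤ (8 ^ i) ^ (n + 2) * (2 * 2 ^ i * S) + (8 ^ (i + 1)) ^ (n + 2) * (2 * 2 ^ (i + 1) * S) :=
            add_le_add h1 h2
        _ = (((8:ℝ) ^ i) ^ n * (8 ^ i) ^ 2 * S) * ((2 + 256 * 8 ^ n) * 2 ^ i) := by
            rw [e1, pow_add ((8:ℝ)^i), pow_succ (2:ℝ)]; ring
        _ ≤ (((8:ℝ) ^ i) ^ n * (8 ^ i) ^ 2 * S) *
              ((16 * (4 * 8 ^ n + 4)) ^ 2 * (2 ^ i) ^ 2) :=
            mul_le_mul_of_nonneg_left (mul_le_mul hQ e2 (by positivity) (sq_nonneg _)) hP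
        _ = ((16 * (4 * 8 ^ n + 4)) ^ 2 * (((8:ℝ) ^ i) ^ 2 * (2 ^ i) ^ 2 * Real.sqrt S ^ 2)) *
              ((8:ℝ) ^ i) ^ n := by rw [Real.sq_sqrt hSpos.le]; ring
        _ = _ := by ring
    have hd : dist y (z i) ≤ ‖y‖ + 3 * 8 ^ i := by
      rw [dist_eq_norm]; linarith [norm_sub_le y (z i), hch.norm_center i hi'.le]
    have h4 : ‖(L i).dev y - (L (i + 1)).dev y‖ ≤
        driftA n G * (4 * 8 ^ i + ‖y‖) * 2 ^ i * Real.sqrt S := by
      refine (hst (z i) (hch.mem i hi'.le) (8 ^ i) (by positivity)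
        ((pow_le_pow_right₀ (by norm_num) hi'.le).trans hID) _ _ y).trans ?_
      calc G * (1 + dist y (z i) / 8 ^ i) * Real.sqrt _
          ≤ G * (1 + dist y (z i) / 8 ^ i) *
              (16 * (4 * 8 ^ n + 4) * (8 ^ i * 2 ^ i * Real.sqrt S)) :=
            mul_le_mul_of_nonneg_left ((Real.sqrt_le_sqrt h3).trans_eq
              (Real.sqrt_sq (by positivity))) (by positivity)
        _ = driftA n G * (8 ^ i + dist y (z i)) * 2 ^ i * Real.sqrt S := by
            rw [driftA]; field_simp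
        _ ≤ _ := by
            refine mul_le_mul_of_nonneg_right (mul_le_mul_of_nonneg_right
              (mul_le_mul_of_nonneg_left ?_ hA) (by positivity)) (Real.sqrt_nonneg S)
            linarith
    have h5 := ih hi'.le y
    have h6 := norm_sub_le_norm_sub_add_norm_sub ((L 0).dev y) ((L i).dev y) ((L (i + 1)).dev y)
    have h7 : driftA n G * (4 * 8 ^ i + ‖y‖) * 2 ^ i * Real.sqrt S * 2 ≤
        driftA n G * (4 * 8 ^ (i + 1) + ‖y‖) * 2 ^ (i + 1) * Real.sqrt S := by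
      rw [pow_succ (2:ℝ), pow_succ (8:ℝ)]
      calc driftA n G * (4 * 8 ^ i + ‖y‖) * 2 ^ i * Real.sqrt S * 2
          = driftA n G * (4 * 8 ^ i + ‖y‖) * (2 ^ i * 2) * Real.sqrt S := by ring
        _ ≤ _ := by
            refine mul_le_mul_of_nonneg_right (mul_le_mul_of_nonneg_right
              (mul_le_mul_of_nonneg_left ?_ hA) (by positivity)) (Real.sqrt_nonneg S)
            linarith [show (0:ℝ) < 8 ^ i by positivity]
    linarith

/-- the constant of qualitative flatness -/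
def flatB (n : ℕ) (C G : ℝ) : ℝ := 2 + G * 3 * (C * 2 ^ n + 3)

lemma qual_flat {G : ℝ} (hG : 0 ≤ G) (hreg : Reg n C D μ) (hst : Stab n μ D G) (hΛ : 4 ≤ Λ)
    (hη : 0 ≤ η) (hch : Chain n μ Λ η I z) (hID : (8 : ℝ) ^ I ≤ D) {L : ℕ → Plane n d}
    (hL : NearOpt n μ Λ I z L) :
    ∀ i ≤ I, ∀ y ∈ μ.support ∩ closedBall 0 (8 ^ i),
      ‖(L 0).dev y‖ ≤ flatB n C G * 64 ^ i * (η + Real.sqrt (chainSum n μ Λ I z)) := by
  intro i hi y hy
  set S := chainSum n μ Λ I z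
  have hSpos : 0 < S := chainSum_pos μ Λ I z
  set c := C * 2 ^ n with hc
  have hc0 : 1 ≤ c := one_le_mul_of_one_le_of_one_le hreg.one_le (one_le_pow₀ one_le_two)
  obtain ⟨P, hP⟩ := hch.flat i hi
  have h5 : (1 : ℝ) ≤ 8 ^ i := one_le_pow₀ (by norm_num)
  have h2 : devSq μ (L 0) 0 1 ≤ 2 * S := by
    have := (devSq_mono μ (L 0) (x := (0 : Spc d)) (R := 1) (by
      rw [hch.base, pow_zero, mul_one]; exact closedBall_subset_closedBall (by linarith))).trans
      (hL 0 (Nat.zero_le _))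
    simpa using this
  have h3 : devSq μ P 0 1 ≤ (η * 8 ^ i) ^ 2 * c := by
    refine (devSq_le_of_bound μ hreg P 0 one_pos (by positivity) fun w hw => hP w ⟨hw.1,
      hch.subset_ball hΛ hi (closedBall_subset_closedBall h5 hw.2)⟩).trans (le_of_eq ?_)
    rw [hc]; ring
  have h4 : Real.sqrt ((devSq μ (L 0) 0 1 + devSq μ P 0 1) / 1 ^ n) ≤
      (c + 3) * 8 ^ i * (η + Real.sqrt S) := by
    rw [one_pow, div_one, Real.sqrt_le_iff]
    refine ⟨by positivity, ?_⟩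
    have h6 : c + 2 ≤ (c + 3) ^ 2 := by nlinarith
    have h7 : (1 : ℝ) ≤ (8 ^ i) ^ 2 := one_le_pow₀ h5
    calc devSq μ (L 0) 0 1 + devSq μ P 0 1 ≤ 2 * S + (η * 8 ^ i) ^ 2 * c := add_le_add h2 h3
      _ ≤ ((c + 3) * 8 ^ i) ^ 2 * (η ^ 2 + S) := by
          have a1 : 2 * S ≤ ((c + 3) * 8 ^ i) ^ 2 * S := by
            refine mul_le_mul_of_nonneg_right ?_ hSpos.le
            rw [mul_pow]; nlinarith
          have a2 : (η * 8 ^ i) ^ 2 * c ≤ ((c + 3) * 8 ^ i) ^ 2 * η ^ 2 := by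
            calc (η * 8 ^ i) ^ 2 * c = c * (8 ^ i) ^ 2 * η ^ 2 := by ring
              _ ≤ (c + 3) ^ 2 * (8 ^ i) ^ 2 * η ^ 2 := by gcongr; linarith
              _ = _ := by ring
          linarith
      _ ≤ ((c + 3) * 8 ^ i) ^ 2 * (η + Real.sqrt S) ^ 2 := by
          refine mul_le_mul_of_nonneg_left ?_ (sq_nonneg _)
          nlinarith [Real.sq_sqrt hSpos.le, Real.sqrt_nonneg S]
      _ = _ := by ring
  have h1 : ‖(L 0).dev y - P.dev y‖ ≤ G * 3 * (c + 3) * 64 ^ i * (η + Real.sqrt S) := by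
    refine (hst 0 hch.zero_mem 1 one_pos ((one_le_pow₀ (by norm_num)).trans hID) (L 0) P y).trans ?_
    calc _ ≤ G * (3 * 8 ^ i) * ((c + 3) * 8 ^ i * (η + Real.sqrt S)) := by
          refine mul_le_mul (mul_le_mul_of_nonneg_left ?_ hG) h4 (Real.sqrt_nonneg _) (by positivity)
          have := mem_closedBall.1 hy.2
          rw [div_one]; linarith
      _ = _ := by rw [show (64 : ℝ) ^ i = 8 ^ i * 8 ^ i by rw [← mul_pow]; norm_num]; ring
  have h7 : ‖P.dev y‖ ≤ η * 8 ^ i := hP y ⟨hy.1, hch.subset_ball hΛ hi hy.2⟩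
  have h8 : η * 8 ^ i ≤ 2 * 64 ^ i * (η + Real.sqrt S) := by
    have : (8 : ℝ) ^ i ≤ 64 ^ i := pow_le_pow_left₀ (by norm_num) (by norm_num) _
    nlinarith [Real.sqrt_nonneg S, show (0:ℝ) < 64 ^ i by positivity]
  have := norm_le_norm_add_norm_sub' ((L 0).dev y) (P.dev y)
  rw [flatB, add_mul, add_mul]
  linarith

lemma growth_small {G : ℝ} (hG : 0 ≤ G) (hreg : Reg n C D μ) (hst : Stab n μ D G) (hΛ : 4 ≤ Λ)
    (hch : Chain n μ Λ η I z) (hID : (8 : ℝ) ^ I ≤ D) {L : ℕ → Plane n d}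
    (hL : NearOpt n μ Λ I z L) {x : ℝ} (hx : 1 ≤ x) (hxI : x ≤ 8 ^ I) :
    ∫ y in closedBall 0 x, ‖(L 0).dev y‖ ^ 2 ∂μ ≤
      (4 + 2 * (5 * driftA n G) ^ 2 * (C * 2 ^ n)) * 8 ^ (n + 3) *
        chainSum n μ Λ I z * x ^ (n + 3) := by
  classical
  set S := chainSum n μ Λ I z
  have hSpos : 0 < S := chainSum_pos μ Λ I z
  have hC := hreg.nonneg
  have hA : 0 ≤ driftA n G := by unfold driftA; positivity
  obtain ⟨i, hiI, hi, hi8⟩ : ∃ i ≤ I, x ≤ (8:ℝ) ^ i ∧ (8:ℝ) ^ i ≤ 8 * x := by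
    have hex : ∃ i : ℕ, x ≤ (8 : ℝ) ^ i := ⟨I, hxI⟩
    refine ⟨Nat.find hex, Nat.find_min' hex hxI, Nat.find_spec hex, ?_⟩
    rcases Nat.eq_zero_or_pos (Nat.find hex) with h0 | h0
    · rw [h0, pow_zero]; linarith
    · have := Nat.find_min hex (show Nat.find hex - 1 < Nat.find hex by omega)
      rw [not_le] at this
      rw [show Nat.find hex = Nat.find hex - 1 + 1 by omega, pow_succ]
      linarith
  set b : ℝ := 5 * driftA n G * (8 ^ i * 2 ^ i) * Real.sqrt S with hb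
  have hint := integrableOn_dev_sq μ (L 0) 0 (8 ^ i)
  have hint' := integrableOn_dev_sq μ (L i) 0 (8 ^ i)
  have hbd : ∀ y ∈ closedBall (0 : Spc d) (8 ^ i),
      ‖(L 0).dev y‖ ^ 2 ≤ 2 * ‖(L i).dev y‖ ^ 2 + 2 * b ^ 2 := by
    intro y hy
    have h1 := drift hG hst hΛ hch hID hL i hiI y
    rw [mem_closedBall, dist_zero_right] at hy
    have h2 : driftA n G * (4 * 8 ^ i + ‖y‖) * 2 ^ i * Real.sqrt S ≤ b := by
      calc _ ≤ driftA n G * (5 * 8 ^ i) * 2 ^ i * Real.sqrt S :=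
            mul_le_mul_of_nonneg_right (mul_le_mul_of_nonneg_right
              (mul_le_mul_of_nonneg_left (by linarith) hA) (by positivity)) (Real.sqrt_nonneg S)
        _ = b := by rw [hb]; ring
    have h3 : ‖(L 0).dev y‖ ≤ ‖(L i).dev y‖ + b :=
      (norm_le_norm_add_norm_sub' _ _).trans (add_le_add le_rfl (h1.trans h2))
    nlinarith [sq_nonneg (‖(L i).dev y‖ - b), norm_nonneg ((L 0).dev y)]
  have hb2 : b ^ 2 ≤ (5 * driftA n G) ^ 2 * S * (8 ^ i) ^ 3 := by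
    rw [hb, mul_pow, Real.sq_sqrt hSpos.le, mul_pow (5 * driftA n G), mul_pow ((8:ℝ) ^ i)]
    have : ((2 : ℝ) ^ i) ^ 2 ≤ 8 ^ i := by
      rw [← pow_mul, mul_comm, pow_mul]; exact pow_le_pow_left₀ (by norm_num) (by norm_num) _
    calc _ ≤ (5 * driftA n G) ^ 2 * ((8 ^ i) ^ 2 * 8 ^ i) * S := by gcongr
      _ = _ := by ring
  have h2i : (2 : ℝ) ^ i ≤ 8 ^ i := pow_le_pow_left₀ (by norm_num) (by norm_num) _
  calc ∫ y in closedBall 0 x, ‖(L 0).dev y‖ ^ 2 ∂μ
      ≤ ∫ y in closedBall 0 (8 ^ i), ‖(L 0).dev y‖ ^ 2 ∂μ :=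
        devSq_mono μ (L 0) (closedBall_subset_closedBall hi)
    _ ≤ ∫ y in closedBall 0 (8 ^ i), (2 * ‖(L i).dev y‖ ^ 2 + 2 * b ^ 2) ∂μ :=
        setIntegral_mono_on hint (by
          exact Integrable.add (hint'.const_mul 2)
            (integrableOn_const (C := 2 * b ^ 2) measure_closedBall_lt_top.ne))
          measurableSet_closedBall hbd
    _ = 2 * devSq μ (L i) 0 (8 ^ i) + μ.real (closedBall 0 (8 ^ i)) * (2 * b ^ 2) := by
        rw [integral_add (hint'.const_mul 2) (integrableOn_const measure_closedBall_lt_top.ne),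
          integral_const_mul, setIntegral_const, smul_eq_mul]
        rfl
    _ ≤ 2 * ((8 ^ i) ^ (n + 2) * (2 * 8 ^ i * S)) + C * 2 ^ n * (8 ^ i) ^ n *
          (2 * ((5 * driftA n G) ^ 2 * S * (8 ^ i) ^ 3)) := by
        refine add_le_add (mul_le_mul_of_nonneg_left ?_ zero_le_two)
          (mul_le_mul (hreg.closedBall_real_le 0 (by positivity))
            (mul_le_mul_of_nonneg_left hb2 zero_le_two) (by positivity) (by positivity))
        refine (devSq_mono μ _ (hch.subset_ball hΛ hiI)).trans ((hL i hiI).trans ?_)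
        gcongr
    _ = (4 + 2 * (5 * driftA n G) ^ 2 * (C * 2 ^ n)) * S * (8 ^ i) ^ (n + 3) := by ring
    _ ≤ (4 + 2 * (5 * driftA n G) ^ 2 * (C * 2 ^ n)) * S * (8 * x) ^ (n + 3) :=
        mul_le_mul_of_nonneg_left (pow_le_pow_left₀ (by positivity) hi8 _) (by positivity)
    _ = _ := by ring

end

/-- Growth away from a near-optimal plane, and qualitative flatness. -/
theorem chain_growth (hPS : PlaneStabStmt) (hn : 1 ≤ n) (hnd : n < d) {C Λ : ℝ} (hC : 1 ≤ C)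
    (hΛ : 4 ≤ Λ) : ∃ K : ℝ, 1 ≤ K ∧ ∀ (μ : Measure (Spc d)) [IsLocallyFiniteMeasure μ] (D η : ℝ)
      (I : ℕ) (z : ℕ → Spc d), Reg n C D μ → Chain n μ Λ η I z → (8 : ℝ) ^ I ≤ D → 0 ≤ η → η ≤ 1 →
      chainSum n μ Λ I z ≤ K * η ^ 2 + 2 * (1/2 : ℝ) ^ I ∧
      ∃ L : Plane n d, ‖L.base‖ ≤ K * (η + Real.sqrt (chainSum n μ Λ I z)) ∧
        (∀ x : ℝ, 1 ≤ x → ∫ y in closedBall 0 x, ‖L.dev y‖ ^ 2 ∂μ
          ≤ K * chainSum n μ Λ I z * x ^ (n + 3)) ∧
        ∀ i ≤ I, ∀ y ∈ μ.support ∩ closedBall 0 (8 ^ i),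
          ‖L.dev y‖ ≤ K * 64 ^ i * (η + Real.sqrt (chainSum n μ Λ I z)) := by
  obtain ⟨C', hC'⟩ := hPS n d hn hnd C
  set G : ℝ := max C' 0 with hG
  have hG0 : 0 ≤ G := le_max_right _ _
  set c : ℝ := C * 2 ^ n with hc
  set S1 : ℝ := C * 2 ^ n * Λ ^ n with hS1
  set B : ℝ := flatB n C G with hB
  set Q : ℝ := 1 + B * (4 + 2 * S1) with hQ
  have hS10 : 0 ≤ S1 := by positivity
  have hB0 : 2 ≤ B := by
    have : 0 ≤ G * 3 * (c + 3) := by positivity
    rw [hB, flatB, ← hc]; linarith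
  have hA1 : 0 ≤ (4 + 2 * (5 * driftA n G) ^ 2 * c) * 8 ^ (n + 3) := by positivity
  have hQ1 : 0 ≤ Q ^ 2 * c := by positivity
  set K : ℝ := (4 + 2 * (5 * driftA n G) ^ 2 * c) * 8 ^ (n + 3) + Q ^ 2 * c + B + 2 * S1 with hK
  refine ⟨K, by rw [hK]; linarith, fun μ _ D η I z hreg hch hID hη hη1 => ?_⟩
  have hst : Stab n μ D G := fun z hz r hr hrD L L' y => (hC' μ D hreg z hz r hr hrD L L' y).trans
    (mul_le_mul_of_nonneg_right (mul_le_mul_of_nonneg_right (le_max_left _ _)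
      (by positivity)) (Real.sqrt_nonneg _))
  set S := chainSum n μ Λ I z with hS
  have hSpos : 0 < S := chainSum_pos μ Λ I z
  have hpI : (1/2 : ℝ) ^ I ≤ 1 := pow_le_one₀ (by norm_num) (by norm_num)
  have hpI0 : (0 : ℝ) < (1/2 : ℝ) ^ I := by positivity
  have hSle := chainSum_le hreg (by linarith) hη hch
  have hη2 : η ^ 2 ≤ 1 := pow_le_one₀ hη hη1
  refine ⟨hSle.trans (add_le_add (mul_le_mul_of_nonneg_right (by rw [hK]; linarith) (sq_nonneg η))
    (by linarith)), ?_⟩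
  obtain ⟨L, hL⟩ := exists_nearOpt (μ := μ) (Λ := Λ) (I := I) (z := z) hnd.le
  have hflat := qual_flat hG0 hreg hst hΛ hη hch hID hL
  have hb0 : ‖(L 0).dev 0‖ ≤ B * (η + Real.sqrt S) := by
    simpa using hflat 0 (Nat.zero_le _) 0 ⟨hch.zero_mem, by simp⟩
  refine ⟨recentre (L 0), ?_, fun x hx => ?_, fun i hi y hy => ?_⟩
  · rw [norm_recentre_base]
    exact hb0.trans (mul_le_mul_of_nonneg_right (by rw [hK]; linarith) (by positivity))
  · simp only [dev_recentre]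
    by_cases hxI : x ≤ 8 ^ I
    · refine (growth_small hG0 hreg hst hΛ hch hID hL hx hxI).trans ?_
      refine mul_le_mul_of_nonneg_right (mul_le_mul_of_nonneg_right ?_ hSpos.le) (by positivity)
      rw [hK, ← hc]; linarith
    · rw [not_le] at hxI
      have hS3 : S ≤ 2 * S1 + 1 := by
        calc S ≤ 2 * S1 * η ^ 2 + (1/2 : ℝ) ^ I := hSle
          _ ≤ 2 * S1 * 1 + 1 := add_le_add (mul_le_mul_of_nonneg_left hη2 (by positivity)) hpI
          _ = _ := by ring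
      have hs : Real.sqrt S ≤ 1 + S := by
        nlinarith [Real.sq_sqrt hSpos.le, sq_nonneg (Real.sqrt S - 1)]
      have h4 : ‖(L 0).dev 0‖ ≤ B * (3 + 2 * S1) :=
        hb0.trans (mul_le_mul_of_nonneg_left (by linarith) (by linarith))
      have hdev : ∀ y ∈ closedBall (0 : Spc d) x, ‖(L 0).dev y‖ ≤ Q * x := by
        intro y hy
        rw [mem_closedBall, dist_zero_right] at hy
        have h2 := norm_dev_sub_le (L 0) y 0
        rw [sub_zero] at h2
        have h5 := norm_le_norm_add_norm_sub' ((L 0).dev y) ((L 0).dev 0)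
        have h6 : B * (3 + 2 * S1) ≤ B * (4 + 2 * S1) * x :=
          (mul_le_mul_of_nonneg_left (by linarith) (by linarith)).trans
            (le_mul_of_one_le_right (mul_nonneg (by linarith) (by linarith)) hx)
        have hgoal : ‖(L 0).dev y‖ ≤ x + B * (4 + 2 * S1) * x := by linarith
        calc ‖(L 0).dev y‖ ≤ x + B * (4 + 2 * S1) * x := hgoal
          _ = Q * x := by rw [hQ]; ring
      have hQ0 : 0 ≤ Q := by rw [hQ]; nlinarith
      have h1 : (1 : ℝ) ≤ S * x := by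
        have h2 : (1/2 : ℝ) ^ I ≤ S := by
          have : 0 ≤ ∑ i ∈ Finset.range (I + 1), (1/2 : ℝ) ^ i * betaSq n μ Λ (z i) (8 ^ i) :=
            Finset.sum_nonneg fun j _ => mul_nonneg (by positivity)
              (betaSq_nonneg μ Λ _ (by positivity))
          simp only [hS, chainSum]; linarith
        calc (1 : ℝ) ≤ (1/2 : ℝ) ^ I * 8 ^ I := by
              rw [← mul_pow]; exact one_le_pow₀ (by norm_num)
          _ ≤ S * x := mul_le_mul h2 hxI.le (by positivity) hSpos.le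
      calc ∫ y in closedBall 0 x, ‖(L 0).dev y‖ ^ 2 ∂μ
          ≤ (Q * x) ^ 2 * (C * 2 ^ n * x ^ n) :=
            devSq_le_of_bound μ hreg (L 0) 0 (by linarith) (mul_nonneg hQ0 (by linarith))
              fun y hy => hdev y hy.2
        _ = Q ^ 2 * c * x ^ (n + 2) := by rw [hc, pow_add]; ring
        _ ≤ Q ^ 2 * c * x ^ (n + 2) * (S * x) := le_mul_of_one_le_right (by positivity) h1
        _ = Q ^ 2 * c * S * x ^ (n + 3) := by ring
        _ ≤ _ := mul_le_mul_of_nonneg_right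
            (mul_le_mul_of_nonneg_right (by rw [hK]; linarith) hSpos.le) (by positivity)
  · rw [dev_recentre]
    refine (hflat i hi y hy).trans ?_
    refine mul_le_mul_of_nonneg_right (mul_le_mul_of_nonneg_right ?_ (by positivity)) (by positivity)
    rw [hK]; linarith

end Vale.Agent.P120.Improve
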