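import Mathlib
import Vale.Agent.P120.Improve.Planes
import Vale.Agent.P120.EnergyBasic

/-!
The blow-up sequence of module Improve and its limit measure.
-/

noncomputable section

open MeasureTheory Metric Set Filter Topology
open scoped ENNReal NNReal RealInnerProductSpace

namespace Vale.Agent.P120.Improve

variable {n d : ℕ}

/-- flattening sequence with small oscillation -/
structure Blow (n : ℕ) (C K : ℝ) (μ : ℕ → Measure (Spc d)) (D M δ N : ℕ → ℝ)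
    (L : ℕ → Plane n d) : Prop where
  lf : ∀ j, IsLocallyFiniteMeasure (μ j)
  reg : ∀ j, Reg n C (D j) (μ j)
  rb : ∀ j, RB n C (μ j)
  mem : ∀ j, (0 : Spc d) ∈ (μ j).support
  D_top : Tendsto D atTop atTop
  M_top : Tendsto M atTop atTop
  N_pos : ∀ j, 0 < N j
  N_zero : Tendsto N atTop (𝓝 0)
  base : Tendsto (fun j => (L j).base) atTop (𝓝 0)
  growth : ∀ j, ∀ x : ℝ, 1 ≤ x →
    ∫ y in closedBall 0 x, ‖(L j).dev y‖ ^ 2 ∂(μ j) ≤ K * N j ^ 2 * x ^ (n + 3)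
  flat : ∀ R ε : ℝ, 0 < ε → ∀ᶠ j in atTop,
    ∀ y ∈ (μ j).support ∩ closedBall 0 R, ‖(L j).dev y‖ ≤ ε
  osc : ∀ j, oscSq n (μ j) (M j) 0 1 ≤ ENNReal.ofReal (δ j)
  δ_nonneg : ∀ j, 0 ≤ δ j
  δ_small : Tendsto (fun j => δ j / N j ^ 2) atTop (𝓝 0)

lemma Blow.δ_zero {C K : ℝ} {μ : ℕ → Measure (Spc d)} {D M δ N : ℕ → ℝ} {L : ℕ → Plane n d}
    (h : Blow n C K μ D M δ N L) : Tendsto δ atTop (𝓝 0) := by
  have := h.δ_small.mul (h.N_zero.pow 2)
  rw [zero_mul] at this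
  refine this.congr fun j => ?_
  rw [div_mul_cancel₀ _ (pow_ne_zero _ (h.N_pos j).ne')]

/-- subtract a multiple of `cut 0 1` to make the mean zero -/
def corr (μ : Measure (Spc d)) (ψ : Spc d → ℝ) (y : Spc d) : ℝ :=
  ψ y - ((∫ x, ψ x ∂μ) / ∫ x, cut 0 1 x ∂μ) * cut 0 1 y

lemma integral_cut_ge {C D : ℝ} {μ : Measure (Spc d)} [IsLocallyFiniteMeasure μ]
    (h : Reg n C D μ) (h0 : (0 : Spc d) ∈ μ.support) (hD : 1 ≤ D) :
    C⁻¹ ≤ ∫ x, cut 0 1 x ∂μ := by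
  have hi : Integrable (cut (0 : Spc d) 1) μ :=
    (continuous_cut 0 1).integrable_of_hasCompactSupport (hasCompactSupport_cut 0 one_pos)
  calc C⁻¹ = C⁻¹ * 1 ^ n := by rw [one_pow, mul_one]
    _ ≤ μ.real (ball 0 1) := h.le_ball_real h0 one_pos hD
    _ = ∫ _x in ball (0 : Spc d) 1, (1 : ℝ) ∂μ := by rw [setIntegral_const, smul_eq_mul, mul_one]
    _ = ∫ x in ball (0 : Spc d) 1, cut 0 1 x ∂μ :=
        setIntegral_congr_fun measurableSet_ball fun x hx => (cut_eq_one one_pos (mem_ball.1 hx).le).symm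
    _ ≤ _ := setIntegral_le_integral hi (Eventually.of_forall (cut_nonneg 0 1))

lemma adm_corr {C D : ℝ} {μ : Measure (Spc d)} [IsLocallyFiniteMeasure μ] (h : Reg n C D μ)
    (h0 : (0 : Spc d) ∈ μ.support) (hD : 1 ≤ D) {K : ℝ≥0} {ψ : Spc d → ℝ} (hK : LipschitzWith K ψ)
    {R : ℝ} (hR : 2 ≤ R) (hsupp : tsupport ψ ⊆ closedBall 0 R) :
    Adm μ 0 R (corr μ ψ) := by
  have hC : 0 < C⁻¹ := inv_pos.2 (zero_lt_one.trans_le h.one_le)
  have hcs : HasCompactSupport ψ :=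
    IsCompact.of_isClosed_subset (isCompact_closedBall _ _) (isClosed_tsupport _) hsupp
  set c := (∫ x, ψ x ∂μ) / ∫ x, cut 0 1 x ∂μ
  refine ⟨⟨_, hK.sub ((lipschitzWith_smul c).comp (lipschitz_cut 0 one_pos))⟩, ?_, ?_⟩
  · refine closure_minimal (fun y hy => ?_) isClosed_closedBall
    by_contra hy'
    rw [mem_closedBall, not_le] at hy'
    refine hy ?_
    have h1 : ψ y = 0 := image_eq_zero_of_notMem_tsupport fun hm => by
      have := mem_closedBall.1 (hsupp hm); linarith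
    simp [corr, h1, cut_eq_zero one_pos (show 2 * (1:ℝ) ≤ dist y 0 by linarith)]
  · have hi : Integrable (fun y => cut (0 : Spc d) 1 y) μ :=
      (continuous_cut 0 1).integrable_of_hasCompactSupport (hasCompactSupport_cut 0 one_pos)
    simp only [corr]
    rw [integral_sub (hK.continuous.integrable_of_hasCompactSupport hcs) (hi.const_mul _),
      integral_const_mul, div_mul_cancel₀ _ (hC.trans_le (integral_cut_ge h h0 hD)).ne', sub_self]

lemma lipschitz_corr {μ : Measure (Spc d)} {K : ℝ≥0} {ψ : Spc d → ℝ} (hK : LipschitzWith K ψ)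
    (hc : |(∫ x, ψ x ∂μ) / ∫ x, cut 0 1 x ∂μ| ≤ 1) : LipschitzWith (K + 1) (corr μ ψ) := by
  refine LipschitzWith.of_dist_le_mul fun x y => ?_
  set c := (∫ x, ψ x ∂μ) / ∫ x, cut 0 1 x ∂μ
  have h1 := hK.dist_le_mul x y
  have h2 := (lipschitz_cut (0 : Spc d) one_pos).dist_le_mul x y
  rw [inv_one, Real.toNNReal_one, NNReal.coe_one, one_mul] at h2
  simp only [corr, Real.dist_eq] at *
  rw [NNReal.coe_add, NNReal.coe_one, add_mul, one_mul]
  calc |ψ x - c * cut 0 1 x - (ψ y - c * cut 0 1 y)|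
      = |(ψ x - ψ y) - c * (cut 0 1 x - cut 0 1 y)| := by ring_nf
    _ ≤ |ψ x - ψ y| + |c| * |cut 0 1 x - cut 0 1 y| := (abs_sub _ _).trans_eq (by rw [abs_mul])
    _ ≤ K * dist x y + 1 * dist x y := by gcongr
    _ = _ := by rw [one_mul]

section Limit

variable {C K C' : ℝ} {μ : ℕ → Measure (Spc d)} {D M δ N : ℕ → ℝ} {L : ℕ → Plane n d}
  {U : Ultrafilter ℕ} {ν : Measure (Spc d)}

/-- the coefficient of the correction tends to zero -/
lemma Blow.tendsto_coef (hlim : IsLimit n U μ ν) (hI : (∫ x, cut 0 1 x ∂ν) ≠ 0) {ψ : Spc d → ℝ}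
    (hψc : Continuous ψ) (hψs : HasCompactSupport ψ) (hmean : ∫ x, ψ x ∂ν = 0) :
    Tendsto (fun j => (∫ x, ψ x ∂(μ j)) / ∫ x, cut 0 1 x ∂(μ j)) U (𝓝 0) := by
  have := (hlim.integral ψ hψc hψs).div
    (hlim.integral _ (continuous_cut 0 1) (hasCompactSupport_cut 0 one_pos)) hI
  rwa [hmean, zero_div] at this

lemma Blow.eventually_D (hU : (U : Filter ℕ) ≤ atTop) (hB : Blow n C K μ D M δ N L) (a : ℝ) :
    ∀ᶠ j in U, a ≤ D j := hU (hB.D_top.eventually (eventually_ge_atTop a))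

/-- the corrected sequence -/
lemma Blow.corr_spec (hU : (U : Filter ℕ) ≤ atTop) (hB : Blow n C K μ D M δ N L)
    (hν : ∀ D', Reg n C' D' ν) [IsLocallyFiniteMeasure ν] (h0 : (0 : Spc d) ∈ ν.support)
    (hlim : IsLimit n U μ ν) {Kψ : ℝ≥0} {ψ : Spc d → ℝ} (hK : LipschitzWith Kψ ψ) {R : ℝ}
    (hR : 2 ≤ R) (hψ : Adm ν 0 R ψ) :
    Tendsto (fun j => (∫ x, ψ x ∂(μ j)) / ∫ x, cut 0 1 x ∂(μ j)) U (𝓝 0) ∧
    (∀ᶠ j in U, Adm (μ j) 0 R (corr (μ j) ψ) ∧ LipschitzWith (Kψ + 1) (corr (μ j) ψ)) ∧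
      (∀ x, Tendsto (fun j => corr (μ j) ψ x) U (𝓝 (ψ x))) := by
  have hI : (∫ x, cut 0 1 x ∂ν) ≠ 0 :=
    ((inv_pos.2 (zero_lt_one.trans_le (hν 1).one_le)).trans_le
      (integral_cut_ge (hν 1) h0 le_rfl)).ne'
  have hcs : HasCompactSupport ψ :=
    IsCompact.of_isClosed_subset (isCompact_closedBall _ _) (isClosed_tsupport _) hψ.supp
  have hc := Blow.tendsto_coef hlim hI hK.continuous hcs hψ.mean
  refine ⟨hc, ?_, fun x => ?_⟩
  · have h1 := (hc.abs).eventually (ge_mem_nhds (show |(0:ℝ)| < 1 by simp))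
    filter_upwards [h1, Blow.eventually_D hU hB 1] with j hj hD
    haveI := hB.lf j
    exact ⟨adm_corr (hB.reg j) (hB.mem j) hD hK hR hψ.supp, lipschitz_corr hK hj⟩
  · simpa [corr] using (hc.mul_const (cut 0 1 x)).const_sub (ψ x)

/-- pairings along the sequence vanish at the rate of the oscillation -/
lemma Blow.pairing_bound (hU : (U : Filter ℕ) ≤ atTop) (hB : Blow n C K μ D M δ N L) (hn : 1 ≤ n)
    {φ : ℕ → Spc d → ℝ} {R : ℝ} (hR : 0 < R) {Kφ : ℝ≥0}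
    (hφ : ∀ᶠ j in U, Adm (μ j) 0 R (φ j) ∧ LipschitzWith Kφ (φ j)) :
    ∃ A, 0 ≤ A ∧ ∀ᶠ j in U, (En n (μ j) (φ j)).toReal ≤ A ∧
      ‖pairing n (μ j) (φ j)‖ ^ 2 ≤ δ j * A := by
  set A := 2 * (2 ^ n * C + 16 * (2 ^ (n + 1) * C)) * (C * 2 ^ n) * (Kφ : ℝ) ^ 2 * R ^ (n + 1)
  have hC := (hB.reg 0).nonneg
  refine ⟨A, by positivity, ?_⟩
  filter_upwards [hφ, hU (hB.M_top.eventually (eventually_ge_atTop R))] with j hj hM
  haveI := hB.lf j
  have hE := En_le_of_lipschitz (hB.reg j).upper hn hj.2 hR hj.1.supp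
  have hE' : (En n (μ j) (φ j)).toReal ≤ A :=
    ENNReal.toReal_le_of_le_ofReal (by positivity) hE
  refine ⟨hE', ?_⟩
  have hadm : Adm (μ j) 0 (M j * 1) (φ j) :=
    hj.1.mono (closedBall_subset_closedBall (by rw [mul_one]; exact hM))
  refine (norm_pairing_sq_le (hB.reg j).upper hn one_pos (hB.δ_nonneg j) (hB.osc j) hadm).trans ?_
  rw [one_pow, mul_one]
  exact mul_le_mul_of_nonneg_left hE' (hB.δ_nonneg j)

lemma Blow.reflectionless (hU : (U : Filter ℕ) ≤ atTop) (hB : Blow n C K μ D M δ N L) (hn : 1 ≤ n)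
    (hν : ∀ D', Reg n C' D' ν) [IsLocallyFiniteMeasure ν] (h0 : (0 : Spc d) ∈ ν.support)
    (hlim : IsLimit n U μ ν) : Reflectionless n ν := by
  intro x R φ hφ
  set R' := ‖x‖ + |R| + 2 with hR'
  have hR2 : 2 ≤ R' := by rw [hR']; linarith [norm_nonneg x, abs_nonneg R]
  have hψ : Adm ν 0 R' φ := hφ.mono (closedBall_subset_closedBall' (by
    rw [hR', dist_zero_right]; linarith [le_abs_self R]))
  obtain ⟨Kψ, hK⟩ := hψ.lip
  obtain ⟨-, h1, h2⟩ := hB.corr_spec hU hν h0 hlim hK hR2 hψ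
  have h3 := (hlim.pairing _ φ R' (Kψ + 1) h1 hψ (hK.weaken (le_add_of_nonneg_right zero_le)) h2)
  obtain ⟨A, -, h4⟩ := hB.pairing_bound hU hn (show 0 < R' by linarith) h1
  have h5 : Tendsto (fun j => ‖pairing n (μ j) (corr (μ j) φ)‖ ^ 2) U (𝓝 0) := by
    refine squeeze_zero' (Eventually.of_forall fun j => by positivity) (h4.mono fun j hj => hj.2) ?_
    have := (hB.δ_zero.mono_left hU).mul_const A
    rwa [zero_mul] at this
  have := tendsto_nhds_unique (h3.norm.pow 2) h5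
  simpa using this

lemma Blow.support_subset (hU : (U : Filter ℕ) ≤ atTop) (hB : Blow n C K μ D M δ N L)
    (hlim : IsLimit n U μ ν) {P : Plane n d}
    (hb : Tendsto (fun j => (L j).base) U (𝓝 P.base))
    (hf : ∀ i, Tendsto (fun j => (L j).frame i) U (𝓝 (P.frame i))) : ν.support ⊆ P.carrier := by
  intro y hy
  refine mem_carrier_of_dev_eq_zero (norm_le_zero_iff.1 ?_)
  obtain ⟨z, hz, hzy⟩ := hlim.supp_approx y hy
  refine le_of_forall_pos_le_add fun ε hε => ?_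
  rw [zero_add]
  refine le_of_tendsto (tendsto_dev hb hf hzy).norm ?_
  filter_upwards [hz, hU (hB.flat (‖y‖ + 1) ε hε),
    hzy.norm.eventually (ge_mem_nhds (lt_add_one ‖y‖))] with j h1 h2 h3
  exact h2 _ ⟨h1, by rwa [mem_closedBall, dist_zero_right]⟩

end Limit

end Vale.Agent.P120.Improve
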