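import Mathlib
import Vale.Agent.P120.Improve.Planes
import Vale.Agent.P120.EnergyBasic
import Vale.Agent.P120.Liouville.Kernel

/-!
An affine coordinate with quadratic growth control: local energy and the tail of its pairing.
-/

noncomputable section

open MeasureTheory Metric Set Filter Topology
open scoped ENNReal NNReal RealInnerProductSpace

namespace Vale.Agent.P120.Improve

variable {n d : ℕ}

/-- an affine function -/
def aff (u : Spc d) (b : ℝ) (y : Spc d) : ℝ := ⟪u, y⟫ - b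

@[fun_prop]
lemma continuous_aff (u : Spc d) (b : ℝ) : Continuous (aff u b) := by unfold aff; fun_prop

/-- quadratic growth with size `N` -/
def SqGrowth (n : ℕ) (K N : ℝ) (μ : Measure (Spc d)) (g : Spc d → ℝ) : Prop :=
  ∀ x : ℝ, 1 ≤ x → ∫ y in closedBall 0 x, g y ^ 2 ∂μ ≤ K * N ^ 2 * x ^ (n + 3)

variable {C D K N : ℝ} {μ : Measure (Spc d)} [IsLocallyFiniteMeasure μ] {u : Spc d} {b : ℝ}

lemma integrableOn_aff (u : Spc d) (b : ℝ) (x : ℝ) :
    IntegrableOn (fun y => |aff u b y|) (closedBall 0 x) μ :=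
  (continuous_aff u b).abs.continuousOn.integrableOn_compact (isCompact_closedBall _ x)

/-- weighted Cauchy–Schwarz -/
lemma abs_integral_le (hreg : Reg n C D μ) (hN : 0 < N) (hg : SqGrowth n K N μ (aff u b))
    {x p : ℝ} (hx : 1 ≤ x) (hp : 0 < p) :
    ∫ y in closedBall 0 x, |aff u b y| ∂μ ≤
      N * (K * x ^ (n + 3) / p + p * (C * 2 ^ n * x ^ n)) / 2 := by
  have hi : IntegrableOn (fun y => aff u b y ^ 2) (closedBall 0 x) μ :=
    ((continuous_aff u b).pow 2).continuousOn.integrableOn_compact (isCompact_closedBall _ x)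
  have h1 : ∫ y in closedBall 0 x, |aff u b y| ∂μ ≤
      ∫ y in closedBall 0 x, ((1 / (2 * (p * N))) * aff u b y ^ 2 + p * N / 2) ∂μ := by
    refine setIntegral_mono_on (integrableOn_aff u b x)
      (by
        exact Integrable.add (hi.const_mul _)
          (integrableOn_const (C := p * N / 2) measure_closedBall_lt_top.ne))
      measurableSet_closedBall fun y _ => ?_
    have := two_abs_le (a := aff u b y) (mul_pos hp hN)
    calc |aff u b y| ≤ (aff u b y ^ 2 / (p * N) + p * N) / 2 := by linarith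
      _ = _ := by field_simp
  refine h1.trans ?_
  rw [integral_add (hi.const_mul _)
    (integrableOn_const (C := p * N / 2) measure_closedBall_lt_top.ne), integral_const_mul,
    setIntegral_const, smul_eq_mul]
  calc (1 / (2 * (p * N))) * ∫ y in closedBall 0 x, aff u b y ^ 2 ∂μ
        + μ.real (closedBall 0 x) * (p * N / 2)
      ≤ (1 / (2 * (p * N))) * (K * N ^ 2 * x ^ (n + 3)) + C * 2 ^ n * x ^ n * (p * N / 2) := by
        gcongr
        · exact hg x hx
        · exact hreg.closedBall_real_le 0 (by linarith)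
    _ = _ := by field_simp

lemma tailAvg_le (hreg : Reg n C D μ) (hK : 0 ≤ K) (hN : 0 < N)
    (hg : SqGrowth n K N μ (aff u b)) {R : ℝ} (hR : 1 ≤ R) :
    0 ≤ tailAvg n μ 0 R (aff u b) ∧ tailAvg n μ 0 R (aff u b) ≤
      4 * (K * 4 ^ (n + 3) * R ^ 3 + C * 2 ^ n * 4 ^ n) * N := by
  have hC := hreg.nonneg
  set Q := K * 4 ^ (n + 3) * R ^ 3 + C * 2 ^ n * 4 ^ n with hQ
  set f : ℕ → ℝ := fun j => ((4 : ℝ) ^ j)⁻¹ * (((2 : ℝ) ^ j * R) ^ n)⁻¹ *
    ∫ y in closedBall 0 ((2 : ℝ) ^ (j + 2) * R), |aff u b y| ∂μ with hf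
  have hf0 : ∀ j, 0 ≤ f j := fun j =>
    mul_nonneg (by positivity) (integral_nonneg fun y => abs_nonneg _)
  have hfle : ∀ j, f j ≤ Q * N * (3/4 : ℝ) ^ j := by
    intro j
    have hX : (1 : ℝ) ≤ 2 ^ (j + 2) * R := one_le_mul_of_one_le_of_one_le (one_le_pow₀ one_le_two) hR
    have h := abs_integral_le hreg hN hg hX (show (0:ℝ) < 3 ^ j by positivity)
    refine (mul_le_mul_of_nonneg_left h (by positivity)).trans ?_
    have e23 : (2/3 : ℝ) ^ j ≤ (3/4 : ℝ) ^ j := pow_le_pow_left₀ (by norm_num) (by norm_num) _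
    calc ((4 : ℝ) ^ j)⁻¹ * (((2 : ℝ) ^ j * R) ^ n)⁻¹ *
          (N * (K * (2 ^ (j + 2) * R) ^ (n + 3) / 3 ^ j
            + 3 ^ j * (C * 2 ^ n * (2 ^ (j + 2) * R) ^ n)) / 2)
        = N / 2 * (K * 4 ^ (n + 3) * R ^ 3 * (2/3 : ℝ) ^ j + C * 2 ^ n * 4 ^ n * (3/4 : ℝ) ^ j) := by
          have hR0 : R ≠ 0 := by linarith
          have e : (2 : ℝ) ^ (j + 2) * R = 4 * (2 ^ j * R) := by rw [pow_add]; ring
          rw [e, mul_pow (4:ℝ) _ (n + 3), mul_pow (4:ℝ) _ n, pow_add ((2:ℝ) ^ j * R) n 3,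
            mul_pow ((2:ℝ) ^ j) R 3, div_pow, div_pow]
          have e8 : ((2 : ℝ) ^ j) ^ 3 = 4 ^ j * 2 ^ j := by
            rw [← mul_pow, ← pow_mul, mul_comm, pow_mul]; norm_num
          rw [e8]
          field_simp
      _ ≤ N / 2 * (K * 4 ^ (n + 3) * R ^ 3 * (3/4 : ℝ) ^ j
            + C * 2 ^ n * 4 ^ n * (3/4 : ℝ) ^ j) :=
          mul_le_mul_of_nonneg_left (add_le_add (mul_le_mul_of_nonneg_left e23 (by positivity))
            le_rfl) (by positivity)
      _ = Q / 2 * N * (3/4 : ℝ) ^ j := by rw [hQ]; ring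
      _ ≤ _ := by
          have : 0 ≤ Q := by positivity
          gcongr; linarith
  have hs : Summable fun j => Q * N * (3/4 : ℝ) ^ j :=
    (summable_geometric_of_lt_one (by norm_num) (by norm_num)).mul_left _
  refine ⟨tsum_nonneg hf0, ((hs.of_nonneg_of_le hf0 hfle).tsum_le_tsum hfle hs).trans_eq ?_⟩
  rw [tsum_mul_left, tsum_geometric_of_lt_one (by norm_num) (by norm_num)]
  ring

lemma En_const_mul (c : ℝ) {φ : Spc d → ℝ} (hφ : Measurable φ) :
    En n μ (fun y => c * φ y) = ENNReal.ofReal (c ^ 2) * En n μ φ := by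
  rw [En, En, ← lintegral_const_mul _ (measurable_En_integrand hφ)]
  congr 1; funext p
  rw [← ENNReal.ofReal_mul (sq_nonneg c)]
  congr 1; ring

/-- the local energy of an affine coordinate is of order `N²` -/
lemma energy_le (hE : EnergyStmt) (hn : 1 ≤ n) (hnd : n < d) (C K : ℝ) {R : ℝ} (hR : 1 ≤ R) :
    ∃ Q, 0 ≤ Q ∧ ∀ (μ : Measure (Spc d)) [IsLocallyFiniteMeasure μ] (D N M δ : ℝ) (u : Spc d)
      (b : ℝ), Reg n C D μ → (0 : Spc d) ∈ μ.support → R ≤ D → 2 * R ≤ M → 0 < N → ‖u‖ ≤ 1 →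
      SqGrowth n K N μ (aff u b) → oscSq n μ M 0 1 ≤ ENNReal.ofReal δ → 0 ≤ δ → δ ≤ N ^ 2 →
      En n μ (fun y => cut 0 R y * aff u b y) ≤ ENNReal.ofReal (Q * N ^ 2) := by
  obtain ⟨C', hC'⟩ := hE n d hn hnd C
  set C1 := max C' 0
  set C0 := max C 0
  set K0 := max K 0
  set T := 4 * (K0 * 4 ^ (n + 3) * R ^ 3 + C0 * 2 ^ n * 4 ^ n)
  set Q := C1 * (R⁻¹ * (K0 * (4 * R) ^ (n + 3)) + R ^ n / R * T ^ 2 + 1) +
    K0 * C0 * (2 * (2 ^ n * C0 + 16 * (2 ^ (n + 1) * C0)) * (C0 * 2 ^ n) * (2 * R) ^ (n + 1))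
  refine ⟨Q, by positivity, fun μ _ D N M δ u b hreg h0 hRD hM hN hu hg hosc hδ hδN => ?_⟩
  have hC := hreg.one_le
  have hC00 : C0 = C := max_eq_left (by linarith)
  have hR0 : 0 < R := by linarith
  have hgK : SqGrowth n K0 N μ (aff u b) := fun x hx =>
    (hg x hx).trans (by gcongr; exact le_max_left _ _)
  rcases eq_or_ne u 0 with rfl | hu0
  · have hcut := En_le_of_lipschitz hreg.upper hn (lipschitz_cut (0 : Spc d) hR0)
      (show 0 < 2 * R by linarith) (tsupport_cut 0 hR0)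
    have e : (fun y => cut (0 : Spc d) R y * aff (0 : Spc d) b y) = fun y => (-b) * cut 0 R y := by
      funext y; simp [aff]; ring
    have hb : b ^ 2 ≤ K0 * C * N ^ 2 := by
      have h1 := hgK 1 le_rfl
      have h2 : (fun y => aff (0 : Spc d) b y ^ 2) = fun _ => b ^ 2 := by funext y; simp [aff]
      rw [h2, setIntegral_const, smul_eq_mul, one_pow, mul_one] at h1
      have h3 : C⁻¹ ≤ μ.real (closedBall 0 1) := by
        have := hreg.le_ball_real h0 one_pos (hR.trans hRD)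
        rw [one_pow, mul_one] at this
        exact this.trans (measureReal_mono ball_subset_closedBall measure_closedBall_lt_top.ne)
      have h4 := (mul_le_mul_of_nonneg_right h3 (sq_nonneg b)).trans h1
      rw [inv_mul_le_iff₀ (by linarith)] at h4
      linarith
    rw [e, En_const_mul _ (continuous_cut 0 R).measurable]
    refine (mul_le_mul' le_rfl hcut).trans ?_
    rw [← ENNReal.ofReal_mul (sq_nonneg _)]
    refine ENNReal.ofReal_le_ofReal ?_
    rw [Real.coe_toNNReal _ (by positivity), neg_sq]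
    have hr1 : (R⁻¹) ^ 2 ≤ 1 := pow_le_one₀ (by positivity) (inv_le_one_of_one_le₀ hR)
    calc b ^ 2 * (2 * (2 ^ n * C + 16 * (2 ^ (n + 1) * C)) * (C * 2 ^ n) * (R⁻¹) ^ 2 * (2 * R) ^ (n + 1))
        ≤ (K0 * C * N ^ 2) *
          (2 * (2 ^ n * C + 16 * (2 ^ (n + 1) * C)) * (C * 2 ^ n) * 1 * (2 * R) ^ (n + 1)) := by
          gcongr
      _ = (K0 * C0 * (2 * (2 ^ n * C0 + 16 * (2 ^ (n + 1) * C0)) * (C0 * 2 ^ n) *
            (2 * R) ^ (n + 1))) * N ^ 2 := by rw [hC00]; ring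
      _ ≤ _ := mul_le_mul_of_nonneg_right (le_add_of_nonneg_left (by positivity)) (sq_nonneg N)
  · set s := ‖u‖
    have hs : 0 < s := norm_pos_iff.2 hu0
    have e : (fun y => cut (0 : Spc d) R y * aff u b y) =
        fun y => s * (cut 0 R y * (⟪s⁻¹ • u, y⟫ - b / s)) := by
      funext y
      simp only [aff, real_inner_smul_left]; field_simp
    have hg' : ∀ y, ⟪s⁻¹ • u, y⟫ - b / s = s⁻¹ * aff u b y := fun y => by
      simp only [aff, real_inner_smul_left]; field_simp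
    have hosc' : oscSq n μ 2 0 R ≤ ENNReal.ofReal (δ / R ^ (n + 1)) := by
      refine (oscSq_le_of_subset hR0 one_pos (M' := M)
        (closedBall_subset_closedBall (by rw [mul_one]; exact hM))).trans ?_
      refine (mul_le_mul' le_rfl hosc).trans_eq ?_
      rw [← ENNReal.ofReal_mul (by positivity), one_pow, one_div_mul_eq_div]
    have hv : ‖s⁻¹ • u‖ = 1 := by
      rw [norm_smul, norm_inv, Real.norm_eq_abs, abs_of_pos hs, inv_mul_cancel₀ hs.ne']
    have hmain := hC' μ D hreg 0 h0 R hR0 hRD (s⁻¹ • u) (b / s) (δ / R ^ (n + 1)) hv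
      (by positivity) hosc'
    have hm : Measurable fun y => cut (0 : Spc d) R y * (⟪s⁻¹ • u, y⟫ - b / s) := by fun_prop
    rw [e, En_const_mul s hm]
    refine (mul_le_mul' le_rfl hmain).trans ?_
    rw [← ENNReal.ofReal_mul (sq_nonneg _)]
    refine ENNReal.ofReal_le_ofReal ?_
    have hI : ∫ y in closedBall (0 : Spc d) (4 * R), (⟪s⁻¹ • u, y⟫ - b / s) ^ 2 ∂μ =
        s⁻¹ ^ 2 * ∫ y in closedBall (0 : Spc d) (4 * R), aff u b y ^ 2 ∂μ := by
      rw [← integral_const_mul]; congr 1; funext y; rw [hg', mul_pow]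
    have hT : tailAvg n μ 0 R (fun y => ⟪s⁻¹ • u, y⟫ - b / s) =
        s⁻¹ * tailAvg n μ 0 R (aff u b) := by
      simp only [tailAvg, hg', abs_mul, abs_of_pos (inv_pos.2 hs), integral_const_mul]
      rw [← tsum_mul_left]; congr 1; funext j; ring
    obtain ⟨hT0, hT1⟩ := tailAvg_le hreg (le_max_right K 0) hN hgK hR
    have hT2 : tailAvg n μ 0 R (aff u b) ≤ T * N := by
      refine hT1.trans (le_of_eq ?_); simp only [T, hC00]; ring
    rw [hI, hT]
    have hin : R⁻¹ * (s⁻¹ ^ 2 * ∫ y in closedBall (0 : Spc d) (4 * R), aff u b y ^ 2 ∂μ)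
        + R ^ n / R * (s⁻¹ * tailAvg n μ 0 R (aff u b)) ^ 2 + δ / R ^ (n + 1) * R ^ (n + 1)
        ≤ s⁻¹ ^ 2 * ((R⁻¹ * (K0 * (4 * R) ^ (n + 3)) + R ^ n / R * T ^ 2 + 1) * N ^ 2) := by
      rw [div_mul_cancel₀ _ (by positivity)]
      have h1 := hgK (4 * R) (by linarith)
      have h2 : (tailAvg n μ 0 R (aff u b)) ^ 2 ≤ (T * N) ^ 2 := pow_le_pow_left₀ hT0 hT2 2
      have h3 : δ ≤ s⁻¹ ^ 2 * N ^ 2 :=
        hδN.trans (le_mul_of_one_le_left (sq_nonneg _) (one_le_pow₀ ((one_le_inv₀ hs).2 hu)))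
      calc _ ≤ R⁻¹ * (s⁻¹ ^ 2 * (K0 * N ^ 2 * (4 * R) ^ (n + 3)))
            + R ^ n / R * (s⁻¹ ^ 2 * (T * N) ^ 2) + s⁻¹ ^ 2 * N ^ 2 := by
            rw [mul_pow s⁻¹]; gcongr
        _ = _ := by ring
    refine (mul_le_mul_of_nonneg_left (mul_le_mul (le_max_left C' 0) hin ?_ (le_max_right _ _))
      (sq_nonneg s)).trans ?_
    · have : 0 ≤ ∫ y in closedBall (0 : Spc d) (4 * R), aff u b y ^ 2 ∂μ :=
        integral_nonneg fun y => sq_nonneg _
      positivity
    · calc s ^ 2 * (C1 * (s⁻¹ ^ 2 * ((R⁻¹ * (K0 * (4 * R) ^ (n + 3)) + R ^ n / R * T ^ 2 + 1) * N ^ 2)))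
          = (C1 * (R⁻¹ * (K0 * (4 * R) ^ (n + 3)) + R ^ n / R * T ^ 2 + 1)) * N ^ 2 := by
            field_simp
        _ ≤ _ := mul_le_mul_of_nonneg_right (le_add_of_nonneg_right (by positivity)) (sq_nonneg N)

/-- the weighted tail of `|g|` -/
lemma lintegral_aff_far (hreg : Reg n C D μ) (hK : 0 ≤ K) (hN : 0 < N)
    (hg : SqGrowth n K N μ (aff u b)) {L : ℝ} (hL : 1 ≤ L) :
    ∫⁻ y in (ball (0 : Spc d) L)ᶜ, ENNReal.ofReal (|aff u b y| / ‖y‖ ^ (n + 2)) ∂μ ≤
      ENNReal.ofReal (4 * (K * 2 ^ (n + 3) + C * 2 ^ n * 2 ^ n) * N / Real.sqrt L) := by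
  have hC := hreg.nonneg
  have hL0 : 0 < L := by linarith
  set Q := K * 2 ^ (n + 3) + C * 2 ^ n * 2 ^ n
  set G : ℕ → Spc d → ℝ≥0∞ := fun j => (closedBall (0 : Spc d) (2 ^ (j + 1) * L)).indicator
    fun y => ENNReal.ofReal (((2 ^ j * L) ^ (n + 2))⁻¹) * ENNReal.ofReal |aff u b y|
  have hpt : ∀ y ∈ (ball (0 : Spc d) L)ᶜ,
      ENNReal.ofReal (|aff u b y| / ‖y‖ ^ (n + 2)) ≤ ∑' j, G j y := by
    intro y hy
    have hd : L ≤ ‖y‖ := by simpa [mem_ball, not_lt] using hy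
    obtain ⟨j, hj1, hj2⟩ := exists_nat_pow_near ((one_le_div hL0).mpr hd) (one_lt_two (α := ℝ))
    refine le_trans ?_ (ENNReal.le_tsum j)
    rw [le_div_iff₀ hL0] at hj1
    rw [div_lt_iff₀ hL0] at hj2
    simp only [G]
    rw [indicator_of_mem (by rw [mem_closedBall, dist_zero_right]; linarith),
      ← ENNReal.ofReal_mul (by positivity), div_eq_inv_mul]
    refine ENNReal.ofReal_le_ofReal (mul_le_mul_of_nonneg_right ?_ (abs_nonneg _))
    exact inv_anti₀ (by positivity) (pow_le_pow_left₀ (by positivity) hj1 _)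
  refine (setLIntegral_mono' measurableSet_ball.compl hpt).trans ?_
  refine (setLIntegral_le_lintegral _ _).trans ?_
  rw [lintegral_tsum fun j => ((by fun_prop : Measurable fun y =>
    ENNReal.ofReal (((2 ^ j * L) ^ (n + 2))⁻¹) * ENNReal.ofReal |aff u b y|).indicator
      measurableSet_closedBall).aemeasurable]
  have hsq : 0 < Real.sqrt L := Real.sqrt_pos.2 hL0
  calc ∑' j, ∫⁻ y, G j y ∂μ ≤ ∑' j : ℕ, ENNReal.ofReal (Q * N / Real.sqrt L * (3/4 : ℝ) ^ j) := by
        refine ENNReal.tsum_le_tsum fun j => ?_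
        simp only [G]
        rw [lintegral_indicator measurableSet_closedBall, lintegral_const_mul _ (by fun_prop),
          ← ofReal_integral_eq_lintegral_ofReal (integrableOn_aff u b _)
            (Eventually.of_forall fun y => abs_nonneg _), ← ENNReal.ofReal_mul (by positivity)]
        refine ENNReal.ofReal_le_ofReal ?_
        have hX : (1 : ℝ) ≤ 2 ^ (j + 1) * L :=
          one_le_mul_of_one_le_of_one_le (one_le_pow₀ one_le_two) hL
        refine (mul_le_mul_of_nonneg_left (abs_integral_le hreg hN hg hX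
          (show (0:ℝ) < L * Real.sqrt L * 3 ^ j by positivity)) (by positivity)).trans ?_
        calc ((2 ^ j * L) ^ (n + 2))⁻¹ * (N * (K * (2 ^ (j + 1) * L) ^ (n + 3) / (L * Real.sqrt L * 3 ^ j)
              + L * Real.sqrt L * 3 ^ j * (C * 2 ^ n * (2 ^ (j + 1) * L) ^ n)) / 2)
            = N / 2 * (K * 2 ^ (n + 3) * (2/3 : ℝ) ^ j / Real.sqrt L
              + C * 2 ^ n * 2 ^ n * (3/4 : ℝ) ^ j * (Real.sqrt L / L)) := by
              have e : (2 : ℝ) ^ (j + 1) * L = 2 * (2 ^ j * L) := by rw [pow_succ]; ring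
              have e4 : (4 : ℝ) ^ j = (2 ^ j) ^ 2 := by rw [← pow_mul, mul_comm, pow_mul]; norm_num
              rw [e, mul_pow (2:ℝ) _ (n + 3), mul_pow (2:ℝ) _ n, pow_add ((2:ℝ) ^ j * L) n 3,
                pow_add ((2:ℝ) ^ j * L) n 2, mul_pow ((2:ℝ) ^ j) L 3, mul_pow ((2:ℝ) ^ j) L 2,
                div_pow, div_pow, e4]
              field_simp
          _ ≤ N / 2 * (K * 2 ^ (n + 3) * (3/4 : ℝ) ^ j / Real.sqrt L
              + C * 2 ^ n * 2 ^ n * (3/4 : ℝ) ^ j * (Real.sqrt L / L)) := by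
              refine mul_le_mul_of_nonneg_left (add_le_add (div_le_div_of_nonneg_right
                (mul_le_mul_of_nonneg_left (pow_le_pow_left₀ (by norm_num) (by norm_num) _)
                  (by positivity)) hsq.le) le_rfl) (by positivity)
          _ = Q / 2 * N / Real.sqrt L * (3/4 : ℝ) ^ j := by
              rw [Real.sqrt_div_self', one_div]; ring
          _ ≤ _ := by
              have : 0 ≤ Q := by positivity
              gcongr; linarith
    _ = _ := by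
        rw [← ENNReal.ofReal_tsum_of_nonneg (fun j => by positivity)
          ((summable_geometric_of_lt_one (by norm_num) (by norm_num)).mul_left _), tsum_mul_left,
          tsum_geometric_of_lt_one (by norm_num) (by norm_num)]
        congr 1
        ring

/-- the scalar pairing kernel of an affine coordinate -/
def ker (n : ℕ) (z : Spc d) : ℝ := (‖z‖ ^ (n + 1))⁻¹

lemma inner_smul_riesz (u : Spc d) (b c : ℝ) (p : Spc d × Spc d) :
    ⟪u, c • riesz n (p.1 - p.2)⟫ = c * ((aff u b p.1 - aff u b p.2) * ker n (p.1 - p.2)) := by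
  rw [real_inner_smul_right, inner_riesz, inner_sub_right, aff, aff, ker, div_eq_mul_inv]
  ring

/-- the scalar window integrand -/
def tailF (n : ℕ) (u : Spc d) (b : ℝ) (φ v : Spc d → ℝ) (p : Spc d × Spc d) : ℝ :=
  φ p.1 * v p.2 * ((aff u b p.1 - aff u b p.2) * ker n (p.1 - p.2))

lemma cut_diff_bounds (L L' : ℝ) (hL : 0 < L) (hL' : L ≤ L') (y : Spc d) :
    |cut 0 L' y - cut 0 L y| ≤ 1 ∧
      (cut 0 L' y - cut 0 L y ≠ 0 → L < ‖y‖ ∧ ‖y‖ < 2 * L') := by
  refine ⟨abs_le.mpr ⟨by linarith [cut_le_one (0 : Spc d) L y, cut_nonneg (0 : Spc d) L' y],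
    by linarith [cut_nonneg (0 : Spc d) L y, cut_le_one (0 : Spc d) L' y]⟩, fun hy => ⟨?_, ?_⟩⟩
  · by_contra hc; rw [not_lt] at hc
    exact hy (by rw [cut_eq_one hL (x := y) (by simpa using hc),
      cut_eq_one (hL.trans_le hL') (x := y) (by simpa using hc.trans hL'), sub_self])
  · by_contra hc; rw [not_lt] at hc
    exact hy (by rw [cut_eq_zero hL (x := y) (by simp; linarith),
      cut_eq_zero (hL.trans_le hL') (x := y) (by simp; linarith), sub_self])

lemma abs_aff_sub_mul_ker_le (n : ℕ) (u : Spc d) (b : ℝ) {x y : Spc d} {r : ℝ} (hr : 0 < r)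
    (hxy : r ≤ ‖x - y‖) : |(aff u b x - aff u b y) * ker n (x - y)| ≤ ‖u‖ * (r ^ n)⁻¹ := by
  have hd0 : 0 < ‖x - y‖ := hr.trans_le hxy
  have hdd : |aff u b x - aff u b y| ≤ ‖u‖ * ‖x - y‖ := by
    simp only [aff, sub_sub_sub_cancel_right, ← inner_sub_right]
    exact abs_real_inner_le_norm _ _
  rw [abs_mul, ker, abs_of_nonneg (show (0:ℝ) ≤ (‖x - y‖ ^ (n + 1))⁻¹ by positivity)]
  calc |aff u b x - aff u b y| * (‖x - y‖ ^ (n + 1))⁻¹
      ≤ ‖u‖ * ‖x - y‖ * (‖x - y‖ ^ (n + 1))⁻¹ := mul_le_mul_of_nonneg_right hdd (by positivity)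
    _ = ‖u‖ * (‖x - y‖ ^ n)⁻¹ := by rw [pow_succ]; field_simp
    _ ≤ _ := mul_le_mul_of_nonneg_left
        (inv_anti₀ (by positivity) (pow_le_pow_left₀ hr.le hxy _)) (norm_nonneg _)

lemma integrable_tailF (u : Spc d) (b : ℝ) {φ : Spc d → ℝ} {ρ B : ℝ} (hφc : Continuous φ)
    (hφs : tsupport φ ⊆ closedBall 0 ρ) (hB : ∀ x, |φ x| ≤ B) {L L' : ℝ} (hL : 0 < L)
    (hρL : 2 * ρ ≤ L) (hL' : L ≤ L') :
    Integrable (tailF n u b φ (fun y => cut 0 L' y - cut 0 L y)) (μ.prod μ) := by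
  have hB0 : 0 ≤ B := (abs_nonneg _).trans (hB 0)
  have hFm : Measurable (tailF n u b φ (fun y => cut 0 L' y - cut 0 L y)) := by
    unfold tailF ker; fun_prop
  set S : Set (Spc d × Spc d) := closedBall (0 : Spc d) ρ ×ˢ closedBall (0 : Spc d) (2 * L')
  have hS : (μ.prod μ) S ≠ ⊤ := by
    rw [Measure.prod_prod]
    exact ENNReal.mul_ne_top measure_closedBall_lt_top.ne measure_closedBall_lt_top.ne
  have hgi : Integrable (S.indicator fun _ => B * (‖u‖ * (((L / 2) ^ n)⁻¹))) (μ.prod μ) :=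
    (integrable_indicator_iff (measurableSet_closedBall.prod measurableSet_closedBall)).mpr
      (integrableOn_const hS)
  refine hgi.mono' hFm.aestronglyMeasurable (Eventually.of_forall fun p => ?_)
  by_cases hp : φ p.1 * (cut 0 L' p.2 - cut 0 L p.2) = 0
  · simp only [tailF, hp, zero_mul, norm_zero]; exact indicator_nonneg (fun _ _ => by positivity) p
  · obtain ⟨h1, h2⟩ := mul_ne_zero_iff.1 hp
    have g1 : ‖p.1‖ ≤ ρ := by simpa using hφs (subset_tsupport φ h1)
    obtain ⟨hv1, hv0⟩ := cut_diff_bounds L L' hL hL' p.2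
    obtain ⟨g2, g3⟩ := hv0 h2
    rw [indicator_of_mem (show p ∈ S from ⟨by simpa using g1, by simpa using g3.le⟩)]
    have hd : L / 2 ≤ ‖p.1 - p.2‖ := by linarith [norm_sub_norm_le p.2 p.1, norm_sub_rev p.2 p.1]
    rw [tailF, Real.norm_eq_abs, abs_mul, abs_mul (φ p.1)]
    refine mul_le_mul ?_ (abs_aff_sub_mul_ker_le n u b (half_pos hL) hd) (abs_nonneg _) hB0
    exact (mul_le_mul (hB _) hv1 (abs_nonneg _) hB0).trans_eq (mul_one B)

lemma inner_pairW_sub (hn : 1 ≤ n) (h : UpperReg n C μ) (u : Spc d) (b : ℝ) {φ : Spc d → ℝ}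
    {Kφ : ℝ≥0} (hKφ : LipschitzWith Kφ φ) {ρ B : ℝ} (hφs : tsupport φ ⊆ closedBall 0 ρ)
    (hB : ∀ x, |φ x| ≤ B) {L L' : ℝ} (hL : 0 < L) (hρL : 2 * ρ ≤ L) (hL' : L ≤ L') :
    ⟪u, pairW n μ (cut 0 L') φ⟫ - ⟪u, pairW n μ (cut 0 L) φ⟫ =
      ∫ p, tailF n u b φ (fun y => cut 0 L' y - cut 0 L y) p ∂(μ.prod μ) := by
  have hint : ∀ L0, 0 < L0 → Integrable (fun p : Spc d × Spc d =>
      (cut 0 L0 p.1 * cut 0 L0 p.2 * (φ p.1 - φ p.2)) • riesz n (p.1 - p.2)) (μ.prod μ) := by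
    intro L0 hL0'
    refine integrable_pairKernel h hn hKφ (W := fun p => cut 0 L0 p.1 * cut 0 L0 p.2)
      (by fun_prop) (a := 0) (show 0 < 2 * L0 by positivity) (fun p hp => ?_) (B := 1) (fun p => ?_)
    · rw [mem_prod, not_and_or] at hp
      rcases hp with hp | hp <;>
        simp [cut_eq_zero hL0' (le_of_lt (not_le.1 fun h => hp (mem_closedBall.2 h)))]
    · rw [abs_of_nonneg (mul_nonneg (cut_nonneg _ _ _) (cut_nonneg _ _ _))]
      exact mul_le_one₀ (cut_le_one _ _ _) (cut_nonneg _ _ _) (cut_le_one _ _ _)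
  set F := tailF n u b φ (fun y => cut 0 L' y - cut 0 L y)
  have hFi : Integrable F (μ.prod μ) := integrable_tailF u b hKφ.continuous hφs hB hL hρL hL'
  have hφ0 : ∀ x, φ x ≠ 0 → cut 0 L x = 1 ∧ cut 0 L' x = 1 := by
    intro x hx
    have hm : ‖x‖ ≤ ρ := by simpa using hφs (subset_tsupport φ hx)
    have := norm_nonneg x
    exact ⟨cut_eq_one hL (by simp; linarith), cut_eq_one (hL.trans_le hL') (by simp; linarith)⟩
  simp only [pairW, real_inner_smul_right]
  rw [← integral_inner (hint L' (hL.trans_le hL')), ← integral_inner (hint L hL),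
    ← mul_sub, ← integral_sub ((hint L' (hL.trans_le hL')).const_inner u)
      ((hint L hL).const_inner u)]
  have hsw : ∫ p, F p.swap ∂(μ.prod μ) = ∫ p, F p ∂(μ.prod μ) := integral_prod_swap F
  have hFs : Integrable (fun p => F p.swap) (μ.prod μ) := hFi.swap
  have hpt : ∀ p : Spc d × Spc d,
      ⟪u, (cut 0 L' p.1 * cut 0 L' p.2 * (φ p.1 - φ p.2)) • riesz n (p.1 - p.2)⟫ -
      ⟪u, (cut 0 L p.1 * cut 0 L p.2 * (φ p.1 - φ p.2)) • riesz n (p.1 - p.2)⟫ =
        F p + F p.swap := by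
    intro p
    simp only [inner_smul_riesz u b, F, tailF, Prod.fst_swap, Prod.snd_swap]
    have a1 : φ p.1 * (cut 0 L' p.1 * cut 0 L' p.2 - cut 0 L p.1 * cut 0 L p.2) =
        φ p.1 * (cut 0 L' p.2 - cut 0 L p.2) := by
      by_cases hx : φ p.1 = 0
      · simp [hx]
      · rw [(hφ0 _ hx).1, (hφ0 _ hx).2, one_mul, one_mul]
    have a2 : φ p.2 * (cut 0 L' p.1 * cut 0 L' p.2 - cut 0 L p.1 * cut 0 L p.2) =
        φ p.2 * (cut 0 L' p.1 - cut 0 L p.1) := by
      by_cases hx : φ p.2 = 0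
      · simp [hx]
      · rw [(hφ0 _ hx).1, (hφ0 _ hx).2, mul_one, mul_one]
    have hk : ker n (p.2 - p.1) = ker n (p.1 - p.2) := by simp only [ker, norm_sub_rev p.2 p.1]
    rw [hk]
    linear_combination ((aff u b p.1 - aff u b p.2) * ker n (p.1 - p.2)) * a1
      - ((aff u b p.1 - aff u b p.2) * ker n (p.1 - p.2)) * a2
  rw [integral_congr_ae (Eventually.of_forall hpt), integral_add hFi hFs, hsw]
  ring

lemma inner_tailF_le (u : Spc d) (b : ℝ) {φ : Spc d → ℝ} {ρ B : ℝ} (hφc : Continuous φ)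
    (hρ : 0 ≤ ρ) (hφs : tsupport φ ⊆ closedBall 0 ρ) (hmean : ∫ x, φ x ∂μ = 0) (hB : ∀ x, |φ x| ≤ B)
    {G0 E0 : ℝ} (hG : ∫ x in closedBall 0 ρ, |aff u b x| ∂μ ≤ G0)
    (hE : μ.real (closedBall (0 : Spc d) ρ) ≤ E0) {y : Spc d} (hy : 2 * ρ ≤ ‖y‖) (hy0 : 0 < ‖y‖)
    {c : ℝ} (hc : |c| ≤ 1) (v : Spc d → ℝ) (hv : v y = c) :
    ‖∫ x, tailF n u b φ v (x, y) ∂μ‖ ≤ B * (2 ^ (n + 2) * G0) * (‖y‖ ^ (n + 1))⁻¹
      + B * (2 ^ (n + 2) * ((n + 1) * ρ * E0)) * (|aff u b y| / ‖y‖ ^ (n + 2)) := by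
  have hB0 : 0 ≤ B := (abs_nonneg _).trans (hB 0)
  have hcs : HasCompactSupport φ :=
    IsCompact.of_isClosed_subset (isCompact_closedBall _ _) (isClosed_tsupport _) hφs
  have hiφ : Integrable φ μ := hφc.integrable_of_hasCompactSupport hcs
  have hiφg : Integrable (fun x => φ x * aff u b x) μ :=
    (hφc.mul (continuous_aff u b)).integrable_of_hasCompactSupport hcs.mul_right
  set k0 := (‖y‖ ^ (n + 1))⁻¹ with hk0
  have hρ' : ∀ x, φ x ≠ 0 → ‖x‖ ≤ ρ := fun x hx => by simpa using hφs (subset_tsupport φ hx)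
  have hk : ∀ x, φ x ≠ 0 → |ker n (x - y)| ≤ 2 ^ (n + 2) * k0 ∧
      |ker n (x - y) - k0| ≤ (n + 1) * ρ * 2 ^ (n + 2) / ‖y‖ ^ (n + 2) := by
    intro x hx
    have g1 := hρ' x hx
    have hxy : ‖y‖ / 2 ≤ ‖x - y‖ := by linarith [norm_sub_norm_le y x, norm_sub_rev y x]
    constructor
    · rw [ker, abs_of_nonneg (show (0:ℝ) ≤ (‖x - y‖ ^ (n + 1))⁻¹ by positivity)]
      calc (‖x - y‖ ^ (n + 1))⁻¹ ≤ ((‖y‖ / 2) ^ (n + 1))⁻¹ :=
            inv_anti₀ (by positivity) (pow_le_pow_left₀ (by positivity) hxy _)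
        _ = 2 ^ (n + 1) * k0 := by rw [hk0, div_pow, inv_div, div_eq_mul_inv]
        _ ≤ _ := mul_le_mul_of_nonneg_right
            (pow_le_pow_right₀ one_le_two (by omega)) (by positivity)
    · refine (Liouville.inv_pow_sub_le (by linarith) hy0 (show 0 < ‖y‖ / 2 by linarith) hxy
        (by linarith) (n + 1)).trans ?_
      have h3 : |‖x - y‖ - ‖y‖| ≤ ρ := by
        refine le_trans ?_ g1
        have := abs_norm_sub_norm_le (x - y) (-y)
        simpa using this
      calc ((n + 1 : ℕ) : ℝ) * |‖x - y‖ - ‖y‖| / (‖y‖ / 2) ^ (n + 1 + 1)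
          ≤ ((n + 1 : ℕ) : ℝ) * ρ / (‖y‖ / 2) ^ (n + 1 + 1) :=
            div_le_div_of_nonneg_right (mul_le_mul_of_nonneg_left h3 (by positivity)) (by positivity)
        _ = _ := by push_cast; rw [div_pow, div_div_eq_mul_div]
  set e0 := (n + 1) * ρ * 2 ^ (n + 2) / ‖y‖ ^ (n + 2)
  have p1 : ∀ x, |φ x * aff u b x * ker n (x - y)| ≤ |φ x * aff u b x| * (2 ^ (n + 2) * k0) := by
    intro x
    by_cases hx : φ x = 0
    · simp [hx]
    · rw [abs_mul _ (ker n (x - y))]; exact mul_le_mul_of_nonneg_left (hk x hx).1 (abs_nonneg _)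
  have p2 : ∀ x, |φ x * (ker n (x - y) - k0)| ≤ |φ x| * e0 := by
    intro x
    by_cases hx : φ x = 0
    · simp [hx]
    · rw [abs_mul]; exact mul_le_mul_of_nonneg_left (hk x hx).2 (abs_nonneg _)
  have hkm : Measurable fun x : Spc d => ker n (x - y) := by unfold ker; fun_prop
  have i1 : Integrable (fun x => φ x * aff u b x * ker n (x - y)) μ :=
    (hiφg.abs.mul_const (2 ^ (n + 2) * k0)).mono'
      ((hφc.mul (continuous_aff u b)).measurable.mul hkm).aestronglyMeasurable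
      (Eventually.of_forall p1)
  have i2 : Integrable (fun x => φ x * (ker n (x - y) - k0)) μ :=
    (hiφ.abs.mul_const e0).mono' (hφc.measurable.mul (hkm.sub_const k0)).aestronglyMeasurable
      (Eventually.of_forall p2)
  have heq : ∫ x, tailF n u b φ v (x, y) ∂μ = c * ((∫ x, φ x * aff u b x * ker n (x - y) ∂μ)
      - aff u b y * ∫ x, φ x * (ker n (x - y) - k0) ∂μ) := by
    have e : (fun x => tailF n u b φ v (x, y)) = fun x => c * ((φ x * aff u b x * ker n (x - y)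
        - aff u b y * (φ x * (ker n (x - y) - k0))) - aff u b y * k0 * φ x) := by
      funext x; simp only [tailF, hv]; ring
    have i3 : Integrable (fun x => φ x * aff u b x * ker n (x - y)
        - aff u b y * (φ x * (ker n (x - y) - k0))) μ := i1.sub (i2.const_mul _)
    rw [e, integral_const_mul, integral_sub i3 (hiφ.const_mul _),
      integral_sub i1 (i2.const_mul _), integral_const_mul, integral_const_mul, hmean, mul_zero,
      sub_zero]
  have hmG : ∫ x, |φ x * aff u b x| ∂μ ≤ B * G0 := by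
    refine le_trans ?_ (mul_le_mul_of_nonneg_left hG hB0)
    rw [← integral_const_mul, ← integral_indicator measurableSet_closedBall]
    refine integral_mono hiφg.abs ((integrable_indicator_iff measurableSet_closedBall).2
      ((integrableOn_aff u b ρ).const_mul B)) fun x => ?_
    by_cases hx : φ x = 0
    · simp only [hx, zero_mul, abs_zero]; exact indicator_nonneg (fun _ _ => by positivity) x
    · rw [indicator_of_mem (by simpa using hρ' x hx), abs_mul]
      exact mul_le_mul_of_nonneg_right (hB x) (abs_nonneg _)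
  have hmE : ∫ x, |φ x| ∂μ ≤ B * E0 := by
    have h1 : ∫ x, |φ x| ∂μ ≤ ∫ _x in closedBall (0 : Spc d) ρ, B ∂μ := by
      rw [← integral_indicator measurableSet_closedBall]
      refine integral_mono hiφ.abs ((integrable_indicator_iff measurableSet_closedBall).2
        (integrableOn_const measure_closedBall_lt_top.ne)) fun x => ?_
      by_cases hx : φ x = 0
      · simp only [hx, abs_zero]; exact indicator_nonneg (fun _ _ => hB0) x
      · rw [indicator_of_mem (by simpa using hρ' x hx)]; exact hB x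
    rw [setIntegral_const, smul_eq_mul] at h1
    exact h1.trans (by rw [mul_comm B]; exact mul_le_mul_of_nonneg_right hE hB0)
  have b1 : |∫ x, φ x * aff u b x * ker n (x - y) ∂μ| ≤ B * G0 * (2 ^ (n + 2) * k0) := by
    refine le_trans ?_ (mul_le_mul_of_nonneg_right hmG (by positivity))
    rw [← integral_mul_const]
    exact abs_integral_le_integral_abs.trans (integral_mono i1.abs (hiφg.abs.mul_const _) p1)
  have b2 : |∫ x, φ x * (ker n (x - y) - k0) ∂μ| ≤ B * E0 * e0 := by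
    refine le_trans ?_ (mul_le_mul_of_nonneg_right hmE (by positivity))
    rw [← integral_mul_const]
    exact abs_integral_le_integral_abs.trans (integral_mono i2.abs (hiφ.abs.mul_const _) p2)
  rw [heq, Real.norm_eq_abs, abs_mul]
  refine (mul_le_of_le_one_left (abs_nonneg _) hc).trans ((abs_sub _ _).trans ?_)
  rw [abs_mul]
  calc _ ≤ B * G0 * (2 ^ (n + 2) * k0) + |aff u b y| * (B * E0 * e0) :=
        add_le_add b1 (mul_le_mul_of_nonneg_left b2 (abs_nonneg _))
    _ = _ := by simp only [e0, hk0]; ring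

/-- the window error for an affine coordinate is `O(N L^{-1/2})` -/
lemma tail_le (hn : 1 ≤ n) (C K : ℝ) {ρ : ℝ} (hρ : 1 ≤ ρ) :
    ∃ Q, 0 ≤ Q ∧ ∀ (μ : Measure (Spc d)) [IsLocallyFiniteMeasure μ] (D N : ℝ) (u : Spc d) (b : ℝ),
      Reg n C D μ → 0 < N → SqGrowth n K N μ (aff u b) → ∀ (φ : Spc d → ℝ) (B : ℝ),
      Adm μ 0 ρ φ → (∀ x, |φ x| ≤ B) → ∀ L, 2 * ρ ≤ L →
        |⟪u, pairing n μ φ⟫ - ⟪u, pairW n μ (cut 0 L) φ⟫| ≤ N * B * Q / Real.sqrt L := by
  set C0 := max C 0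
  set K0 := max K 0
  set G0 := (K0 * ρ ^ (n + 3) + C0 * 2 ^ n * ρ ^ n) / 2
  set E0 := C0 * 2 ^ n * ρ ^ n
  set Q := 2 ^ (n + 2) * (G0 * (2 ^ (n + 1) * C0)
    + (n + 1) * ρ * E0 * (4 * (K0 * 2 ^ (n + 3) + C0 * 2 ^ n * 2 ^ n)))
  refine ⟨Q, by positivity, fun μ _ D N u b hreg hN hg φ B hadm hB L hL => ?_⟩
  have hC := hreg.one_le
  have hC00 : C0 = C := max_eq_left (by linarith)
  have hg0 : SqGrowth n K0 N μ (aff u b) := fun x hx =>
    (hg x hx).trans (mul_le_mul_of_nonneg_right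
      (mul_le_mul_of_nonneg_right (le_max_left _ _) (sq_nonneg N)) (by positivity))
  have hB0 : 0 ≤ B := (abs_nonneg _).trans (hB 0)
  have hL0 : 1 ≤ L := by linarith
  obtain ⟨Kφ, hKφ⟩ := hadm.lip
  have hlim : Tendsto (fun L' => |⟪u, pairL n μ L' φ⟫ - ⟪u, pairW n μ (cut 0 L) φ⟫|) atTop
      (𝓝 |⟪u, pairing n μ φ⟫ - ⟪u, pairW n μ (cut 0 L) φ⟫|) :=
    ((tendsto_const_nhds.inner (tendsto_pairL hreg.upper hn hadm)).sub_const _).abs
  refine le_of_tendsto hlim ?_
  filter_upwards [eventually_ge_atTop L] with L' hL'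
  rw [pairL_eq_pairW, inner_pairW_sub hn hreg.upper u b hKφ hadm.supp hB (show 0 < L by linarith) hL hL',
    integral_prod_symm _ (integrable_tailF u b hKφ.continuous hadm.supp hB (show 0 < L by linarith) hL hL')]
  set v : Spc d → ℝ := fun y => cut 0 L' y - cut 0 L y
  set a1 := B * N * (2 ^ (n + 2) * G0)
  set a2 := B * (2 ^ (n + 2) * ((n + 1) * ρ * E0))
  have hbd : ∀ y, ‖∫ x, tailF n u b φ v (x, y) ∂μ‖ₑ ≤ (ball (0 : Spc d) L)ᶜ.indicator
      (fun y => ENNReal.ofReal a1 * ENNReal.ofReal ((dist y 0 ^ (n + 1))⁻¹)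
        + ENNReal.ofReal a2 * ENNReal.ofReal (|aff u b y| / ‖y‖ ^ (n + 2))) y := by
    intro y
    obtain ⟨hv1, hv0⟩ := cut_diff_bounds L L' (show 0 < L by linarith) hL' y
    by_cases hy : v y = 0
    · simp [tailF, hy]
    obtain ⟨g2, -⟩ := hv0 hy
    rw [indicator_of_mem (by simp [g2.le]), dist_zero_right, ← ENNReal.ofReal_mul (by positivity),
      ← ENNReal.ofReal_mul (by positivity), ← ENNReal.ofReal_add (by positivity) (by positivity),
      ← ofReal_norm]
    refine ENNReal.ofReal_le_ofReal ?_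
    have hGb : ∫ x in closedBall 0 ρ, |aff u b x| ∂μ ≤ N * G0 := by
      refine (abs_integral_le hreg hN hg0 hρ one_pos).trans (le_of_eq ?_)
      simp only [G0, hC00]; ring
    have hEb : μ.real (closedBall (0 : Spc d) ρ) ≤ E0 := by
      simp only [E0, hC00]; exact hreg.closedBall_real_le 0 (by linarith)
    refine (inner_tailF_le u b hKφ.continuous (by linarith) hadm.supp hadm.mean hB hGb hEb (by linarith)
      (by linarith) hv1 v rfl).trans (le_of_eq ?_)
    simp only [a1, a2]; ring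
  have hbound : ∫⁻ y, ‖∫ x, tailF n u b φ v (x, y) ∂μ‖ₑ ∂μ ≤
      ENNReal.ofReal (a1 * (2 ^ (n + 1) * C0 / Real.sqrt L)
        + a2 * (4 * (K0 * 2 ^ (n + 3) + C0 * 2 ^ n * 2 ^ n) * N / Real.sqrt L)) := by
    refine (lintegral_mono hbd).trans ?_
    rw [lintegral_indicator measurableSet_ball.compl, lintegral_add_left (by fun_prop),
      lintegral_const_mul _ (by fun_prop), lintegral_const_mul _ (by fun_prop),
      ENNReal.ofReal_add (by positivity) (by positivity), ENNReal.ofReal_mul (p := a1) (by positivity),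
      ENNReal.ofReal_mul (p := a2) (by positivity)]
    refine add_le_add (mul_le_mul' le_rfl ?_) (mul_le_mul' le_rfl ?_)
    · refine (hreg.upper.lintegral_far 0 (show 0 < L by linarith)).trans
        (ENNReal.ofReal_le_ofReal ?_)
      rw [hC00]
      exact div_le_div_of_nonneg_left (by positivity) (Real.sqrt_pos.2 (by linarith))
        ((Real.sqrt_le_iff).2 ⟨by linarith, by nlinarith⟩)
    · rw [hC00]; exact lintegral_aff_far hreg (le_max_right K 0) hN hg0 hL0
  calc |∫ y, ∫ x, tailF n u b φ v (x, y) ∂μ ∂μ| ≤ (∫⁻ y, ‖∫ x, tailF n u b φ v (x, y) ∂μ‖ₑ ∂μ).toReal := by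
        simpa [ofReal_norm, Real.enorm_eq_ofReal_abs] using norm_integral_le_lintegral_norm (μ := μ)
          fun y => ∫ x, tailF n u b φ v (x, y) ∂μ
    _ ≤ _ := ENNReal.toReal_le_of_le_ofReal (by positivity) hbound
    _ = _ := by simp only [a1, a2, Q]; ring

end Vale.Agent.P120.Improve
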