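import Mathlib
import Vale.Agent.P120.Improve.Scalar

/-!
Weak limit in `L²` of a normalised affine coordinate along an ultrafilter.
-/

noncomputable section

open MeasureTheory Metric Set Filter Topology
open scoped ENNReal NNReal RealInnerProductSpace

namespace Vale.Agent.P120.Improve

variable {n d : ℕ}

lemma norm_toLp_eq_sqrt {X : Type*} [MeasurableSpace X] {m : Measure X} {f : X → ℝ}
    (hf : MemLp f 2 m) : ‖hf.toLp f‖ = Real.sqrt (∫ x, f x ^ 2 ∂m) := by
  rw [norm_eq_sqrt_real_inner, L2.inner_def]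
  congr 1
  refine integral_congr_ae ?_
  filter_upwards [hf.coeFn_toLp] with x hx
  rw [hx, RCLike.inner_apply, conj_trivial, sq]

lemma abs_integral_mul_le_sqrt {X : Type*} [MeasurableSpace X] {m : Measure X} {f g : X → ℝ}
    (hf : MemLp f 2 m) (hg : MemLp g 2 m) :
    |∫ x, f x * g x ∂m| ≤ Real.sqrt (∫ x, f x ^ 2 ∂m) * Real.sqrt (∫ x, g x ^ 2 ∂m) := by
  rw [← norm_toLp_eq_sqrt hf, ← norm_toLp_eq_sqrt hg]
  refine le_of_eq_of_le ?_ (abs_real_inner_le_norm (hf.toLp f) (hg.toLp g))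
  rw [L2.inner_def]
  congr 1
  refine integral_congr_ae ?_
  filter_upwards [hf.coeFn_toLp, hg.coeFn_toLp] with x hx hy
  rw [hx, hy, RCLike.inner_apply, conj_trivial, mul_comm]

/-- continuous compactly supported functions -/
def ccFun (d : ℕ) : Submodule ℝ (Spc d → ℝ) where
  carrier := {f | Continuous f ∧ HasCompactSupport f}
  add_mem' := fun ha hb => ⟨ha.1.add hb.1, ha.2.add hb.2⟩
  zero_mem' := ⟨continuous_const, HasCompactSupport.zero⟩
  smul_mem' := fun c f hf => ⟨hf.1.const_smul c, hf.2.smul_left (f := fun _ => c)⟩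

lemma ccFun_memLp {μ : Measure (Spc d)} [IsLocallyFiniteMeasure μ] (f : ccFun d) :
    MemLp (f : Spc d → ℝ) 2 μ :=
  f.2.1.memLp_of_hasCompactSupport f.2.2

/-- the inclusion into `L²` -/
def ccToLp (μ : Measure (Spc d)) [IsLocallyFiniteMeasure μ] : ccFun d →ₗ[ℝ] Lp ℝ 2 μ where
  toFun f := (ccFun_memLp f).toLp f
  map_add' f g := MemLp.toLp_add (ccFun_memLp f) (ccFun_memLp g)
  map_smul' c f := MemLp.toLp_const_smul c (ccFun_memLp f)

lemma denseRange_ccToLp (μ : Measure (Spc d)) [IsLocallyFiniteMeasure μ] :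
    DenseRange (ccToLp μ) := by
  intro f
  rw [Metric.mem_closure_iff]
  intro ε hε
  obtain ⟨g, hgs, hge, hgc, hgm⟩ := (Lp.memLp f).exists_hasCompactSupport_eLpNorm_sub_le
    ENNReal.ofNat_ne_top (ε := ENNReal.ofReal (ε / 2)) (by simp [hε])
  refine ⟨_, ⟨⟨g, hgc, hgs⟩, rfl⟩, ?_⟩
  rw [Lp.dist_def]
  refine lt_of_le_of_lt (ENNReal.toReal_le_of_le_ofReal (b := ε / 2) (by linarith) (le_trans (le_of_eq ?_) hge))
    (by linarith)
  exact eLpNorm_congr_ae (EventuallyEq.rfl.sub (ccFun_memLp ⟨g, hgc, hgs⟩).coeFn_toLp)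

/-- the weight -/
def wt (n : ℕ) (y : Spc d) : ℝ := ((1 + ‖y‖) ^ (n + 3))⁻¹

lemma wt_pos (n : ℕ) (y : Spc d) : 0 < wt n y := by unfold wt; positivity

@[fun_prop]
lemma continuous_wt (n : ℕ) : Continuous (wt n : Spc d → ℝ) := by
  unfold wt
  exact Continuous.inv₀ (by fun_prop) fun y => by positivity

lemma weighted_bound {C D K N : ℝ} {μ : Measure (Spc d)} [IsLocallyFiniteMeasure μ] (hK : 0 ≤ K)
    {u : Spc d} {b : ℝ} (hg : SqGrowth n K N μ (aff u b)) (_h : Reg n C D μ) :
    Integrable (fun y => (wt n y * aff u b y) ^ 2) μ ∧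
      ∫ y, (wt n y * aff u b y) ^ 2 ∂μ ≤ 2 * 2 ^ (n + 3) * K * N ^ 2 := by
  set G : ℕ → Spc d → ℝ≥0∞ := fun k => (closedBall (0 : Spc d) (2 ^ (k + 1))).indicator
    fun y => ENNReal.ofReal ((((2:ℝ) ^ k) ^ (n + 3))⁻¹ ^ 2) * ENNReal.ofReal (aff u b y ^ 2)
  have hpt : ∀ y, ENNReal.ofReal ((wt n y * aff u b y) ^ 2) ≤ ∑' k, G k y := by
    intro y
    obtain ⟨k, hk1, hk2⟩ : ∃ k : ℕ, (2:ℝ) ^ k ≤ 1 + ‖y‖ ∧ ‖y‖ ≤ 2 ^ (k + 1) := by
      obtain ⟨k, h1, h2⟩ := exists_nat_pow_near (show (1:ℝ) ≤ 1 + ‖y‖ by linarith [norm_nonneg y])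
        (one_lt_two (α := ℝ))
      exact ⟨k, h1, by linarith⟩
    refine le_trans ?_ (ENNReal.le_tsum k)
    simp only [G]
    rw [indicator_of_mem (by simpa using hk2), ← ENNReal.ofReal_mul (by positivity), mul_pow]
    refine ENNReal.ofReal_le_ofReal (mul_le_mul_of_nonneg_right ?_ (sq_nonneg _))
    exact pow_le_pow_left₀ (wt_pos n y).le
      (inv_anti₀ (by positivity) (pow_le_pow_left₀ (by positivity) hk1 _)) 2
  have hm : Measurable fun y : Spc d => ENNReal.ofReal (aff u b y ^ 2) := by fun_prop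
  have hle : ∫⁻ y, ENNReal.ofReal ((wt n y * aff u b y) ^ 2) ∂μ ≤
      ENNReal.ofReal (2 * 2 ^ (n + 3) * K * N ^ 2) := by
    refine (lintegral_mono hpt).trans ?_
    rw [lintegral_tsum fun k => ((hm.const_mul _).indicator measurableSet_closedBall).aemeasurable]
    calc ∑' k, ∫⁻ y, G k y ∂μ ≤ ∑' k : ℕ, ENNReal.ofReal (2 ^ (n + 3) * K * N ^ 2 * (1/2 : ℝ) ^ k) := by
          refine ENNReal.tsum_le_tsum fun k => ?_
          simp only [G]
          rw [lintegral_indicator measurableSet_closedBall, lintegral_const_mul _ hm,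
            ← ofReal_integral_eq_lintegral_ofReal
              (show IntegrableOn (fun y => aff u b y ^ 2) _ μ from
                ((continuous_aff u b).pow 2).continuousOn.integrableOn_compact (isCompact_closedBall _ _))
              (Eventually.of_forall fun y => sq_nonneg _), ← ENNReal.ofReal_mul (by positivity)]
          refine ENNReal.ofReal_le_ofReal ?_
          refine (mul_le_mul_of_nonneg_left (hg _ (one_le_pow₀ one_le_two)) (by positivity)).trans ?_
          calc (((2:ℝ) ^ k) ^ (n + 3))⁻¹ ^ 2 * (K * N ^ 2 * (2 ^ (k + 1)) ^ (n + 3))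
              = 2 ^ (n + 3) * K * N ^ 2 * (((2:ℝ) ^ k) ^ (n + 3))⁻¹ := by
                rw [pow_succ (2:ℝ) k, mul_pow ((2:ℝ) ^ k)]; field_simp
            _ ≤ _ := by
                refine mul_le_mul_of_nonneg_left ?_ (by positivity)
                rw [one_div, inv_pow]
                exact inv_anti₀ (by positivity) (le_self_pow₀ (one_le_pow₀ one_le_two) (by omega))
      _ = _ := by
          rw [← ENNReal.ofReal_tsum_of_nonneg (fun k => by positivity)
            (summable_geometric_two.mul_left _), tsum_mul_left, tsum_geometric_two]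
          congr 1; ring
  have hc : Continuous fun y : Spc d => (wt n y * aff u b y) ^ 2 := by fun_prop
  have hint : Integrable (fun y => (wt n y * aff u b y) ^ 2) μ := by
    refine ⟨hc.aestronglyMeasurable, ?_⟩
    rw [hasFiniteIntegral_iff_ofReal (Eventually.of_forall fun y => sq_nonneg _)]
    exact hle.trans_lt ENNReal.ofReal_lt_top
  refine ⟨hint, ?_⟩
  rw [integral_eq_lintegral_of_nonneg_ae (Eventually.of_forall fun y => sq_nonneg _)
    hc.aestronglyMeasurable]
  exact ENNReal.toReal_le_of_le_ofReal (by positivity) hle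

/-- pairing of a test function against a normalised coordinate -/
lemma abs_integral_cc_le {K N : ℝ} {μ : Measure (Spc d)} [IsLocallyFiniteMeasure μ] {u : Spc d}
    {b : ℝ} (hN : 0 < N) (hg : SqGrowth n K N μ (aff u b)) {ψ : Spc d → ℝ} (hψ : Continuous ψ)
    (hψs : HasCompactSupport ψ) {X : ℝ} (hX : 1 ≤ X) (h0 : ∀ y, X < ‖y‖ → ψ y = 0) :
    |∫ y, ψ y * (aff u b y / N) ∂μ| ≤
      Real.sqrt (∫ y, ψ y ^ 2 ∂μ) * Real.sqrt (K * X ^ (n + 3)) := by
  set f := (closedBall (0 : Spc d) X).indicator fun y => aff u b y / N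
  have hfm : MemLp f 2 μ := by
    rw [memLp_indicator_iff_restrict measurableSet_closedBall]
    refine (memLp_two_iff_integrable_sq (by fun_prop : Continuous fun y => aff u b y / N).aestronglyMeasurable).2 ?_
    exact (by fun_prop : Continuous fun y => (aff u b y / N) ^ 2).continuousOn.integrableOn_compact
      (isCompact_closedBall _ _)
  have e : ∫ y, ψ y * (aff u b y / N) ∂μ = ∫ y, ψ y * f y ∂μ := by
    congr 1; funext y
    by_cases hy : X < ‖y‖
    · simp [h0 y hy]
    · simp only [f]; rw [indicator_of_mem (by simpa using not_lt.1 hy)]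
  rw [e]
  refine (abs_integral_mul_le_sqrt (hψ.memLp_of_hasCompactSupport hψs) hfm).trans
    (mul_le_mul_of_nonneg_left (Real.sqrt_le_sqrt ?_) (Real.sqrt_nonneg _))
  have e2 : (fun y => f y ^ 2) =
      (closedBall (0 : Spc d) X).indicator fun y => (1 / N ^ 2) * aff u b y ^ 2 := by
    funext y
    by_cases hy : y ∈ closedBall (0 : Spc d) X
    · simp only [f, indicator_of_mem hy]; ring
    · simp [f, indicator_of_notMem hy]
  rw [e2, integral_indicator measurableSet_closedBall, integral_const_mul, one_div_mul_eq_div,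
    div_le_iff₀ (by positivity)]
  exact (hg X hX).trans_eq (by ring)

lemma tendsto_sqrt_sq {U : Ultrafilter ℕ} {μ : ℕ → Measure (Spc d)} {ν : Measure (Spc d)}
    (hlim : IsLimit n U μ ν) {ψ : Spc d → ℝ} (hψc : Continuous ψ) (hψs : HasCompactSupport ψ) :
    Tendsto (fun j => Real.sqrt (∫ y, ψ y ^ 2 ∂(μ j))) U (𝓝 (Real.sqrt (∫ y, ψ y ^ 2 ∂ν))) := by
  have h2 : HasCompactSupport fun y => ψ y ^ 2 :=
    hψs.comp_left (g := fun x : ℝ => x ^ 2) (zero_pow two_ne_zero)
  exact (Real.continuous_sqrt.tendsto _).comp (hlim.integral (fun y => ψ y ^ 2) (hψc.pow 2) h2)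

/-- A weak limit of uniformly bounded functionals on test functions, as a function in `L²`. -/
lemma exists_dual_rep {U : Ultrafilter ℕ} {ν : Measure (Spc d)} [IsLocallyFiniteMeasure ν]
    {s q : ℕ → ccFun d → ℝ} {Q : ℝ}
    (hadd : ∀ j φ φ', s j (φ + φ') = s j φ + s j φ')
    (hsmul : ∀ j (c : ℝ) φ, s j (c • φ) = c * s j φ)
    (hbd : ∀ j φ, |s j φ| ≤ q j φ)
    (hq : ∀ φ, Tendsto (fun j => q j φ) U (𝓝 (Q * ‖ccToLp ν φ‖))) :
    ∃ F : Lp ℝ 2 ν, ∀ φ : ccFun d,
      Tendsto (fun j => s j φ) U (𝓝 (∫ y, (φ : Spc d → ℝ) y * F y ∂ν)) := by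
  have hconv : ∀ φ, ∃ t, Tendsto (fun j => s j φ) U (𝓝 t) := by
    intro φ
    obtain ⟨t, -, ht⟩ := (isCompact_Icc (a := -(Q * ‖ccToLp ν φ‖ + 1)) (b := Q * ‖ccToLp ν φ‖ + 1)
      ).ultrafilter_le_nhds (U.map fun j => s j φ) (by
        rw [Ultrafilter.coe_map, le_principal_iff, Filter.mem_map]
        filter_upwards [(hq φ).eventually (ge_mem_nhds (lt_add_one _))] with j hj
        exact abs_le.1 ((hbd j φ).trans hj))
    exact ⟨t, by simpa [Tendsto] using ht⟩
  choose T0 hT0 using hconv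
  let T : ccFun d →ₗ[ℝ] ℝ :=
    { toFun := T0
      map_add' := fun φ φ' => tendsto_nhds_unique (hT0 _)
        (((hT0 φ).add (hT0 φ')).congr fun j => (hadd j φ φ').symm)
      map_smul' := fun c φ => tendsto_nhds_unique (hT0 _)
        (((hT0 φ).const_mul c).congr fun j => (hsmul j c φ).symm) }
  have hTb : ∀ φ, ‖T φ‖ ≤ Q * ‖ccToLp ν φ‖ := fun φ =>
    le_of_tendsto_of_tendsto (hT0 φ).abs (hq φ) (Eventually.of_forall fun j => hbd j φ)
  refine ⟨(InnerProductSpace.toDual ℝ (Lp ℝ 2 ν)).symm (T.extendOfNorm (ccToLp ν)), fun φ => ?_⟩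
  have h1 : T0 φ = inner ℝ ((InnerProductSpace.toDual ℝ (Lp ℝ 2 ν)).symm
      (T.extendOfNorm (ccToLp ν))) (ccToLp ν φ) := by
    rw [InnerProductSpace.toDual_symm_apply,
      LinearMap.extendOfNorm_eq (f := T) (denseRange_ccToLp ν) ⟨Q, hTb⟩ φ]
    rfl
  convert hT0 φ using 2
  rw [h1, L2.inner_def]
  refine integral_congr_ae ?_
  filter_upwards [(ccFun_memLp (μ := ν) φ).coeFn_toLp] with x hx
  simp only [ccToLp, LinearMap.coe_mk, AddHom.coe_mk, hx, RCLike.inner_apply, conj_trivial]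

/-- Existence and representation of the weak limit in `L²` of the limit measure. -/
lemma weak_rep {C K : ℝ} {μ : ℕ → Measure (Spc d)} {D N : ℕ → ℝ} {u : ℕ → Spc d} {b : ℕ → ℝ}
    {U : Ultrafilter ℕ} {ν : Measure (Spc d)} [IsLocallyFiniteMeasure ν]
    (hlf : ∀ j, IsLocallyFiniteMeasure (μ j)) (hreg : ∀ j, Reg n C (D j) (μ j))
    (hK : 0 ≤ K) (hN : ∀ j, 0 < N j) (hg : ∀ j, SqGrowth n K (N j) (μ j) (aff (u j) (b j)))
    (hlim : IsLimit n U μ ν) :
    ∃ G : Spc d → ℝ, StronglyMeasurable G ∧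
      (∀ R : ℝ, MemLp ((closedBall (0 : Spc d) R).indicator G) 2 ν) ∧
      ∀ ψ : Spc d → ℝ, Continuous ψ → HasCompactSupport ψ →
        Tendsto (fun j => ∫ y, ψ y * (aff (u j) (b j) y / N j) ∂(μ j)) U
          (𝓝 (∫ y, ψ y * G y ∂ν)) := by
  set f : ℕ → Spc d → ℝ := fun j y => wt n y * aff (u j) (b j) y / N j
  have hfc : ∀ j, Continuous (f j) := fun j => by simp only [f]; fun_prop
  obtain ⟨F, hF⟩ := exists_dual_rep (ν := ν) (U := U)
    (s := fun j φ => ∫ y, (φ : Spc d → ℝ) y * f j y ∂(μ j))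
    (q := fun j φ => Real.sqrt (2 * 2 ^ (n + 3) * K) *
      Real.sqrt (∫ y, (φ : Spc d → ℝ) y ^ 2 ∂(μ j)))
    (Q := Real.sqrt (2 * 2 ^ (n + 3) * K))
    (fun j φ φ' => by
      have := hlf j
      refine (integral_congr_ae (Eventually.of_forall fun y => ?_)).trans (integral_add
        ((φ.2.1.mul (hfc j)).integrable_of_hasCompactSupport φ.2.2.mul_right)
        ((φ'.2.1.mul (hfc j)).integrable_of_hasCompactSupport φ'.2.2.mul_right))
      simp [add_mul])
    (fun j c φ => by
      rw [← integral_const_mul]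
      exact integral_congr_ae (Eventually.of_forall fun y => by simp [mul_assoc]))
    (fun j φ => by
      have := hlf j
      obtain ⟨hi, hle⟩ := weighted_bound hK (hg j) (hreg j)
      have hm : MemLp (f j) 2 (μ j) :=
        (memLp_two_iff_integrable_sq (hfc j).aestronglyMeasurable).2 (by
          simpa [f, div_pow] using hi.div_const (N j ^ 2))
      refine (abs_integral_mul_le_sqrt (ccFun_memLp φ) hm).trans ?_
      rw [mul_comm]
      refine mul_le_mul_of_nonneg_right (Real.sqrt_le_sqrt ?_) (Real.sqrt_nonneg _)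
      simp only [f, div_pow]
      rw [integral_div, div_le_iff₀ (by have := hN j; positivity)]
      exact hle)
    (fun φ => by
      rw [show ‖ccToLp ν φ‖ = Real.sqrt (∫ y, (φ : Spc d → ℝ) y ^ 2 ∂ν) from
        norm_toLp_eq_sqrt (ccFun_memLp φ)]
      exact (tendsto_sqrt_sq hlim φ.2.1 φ.2.2).const_mul _)
  set G : Spc d → ℝ := fun y => F y / wt n y
  have hGm : StronglyMeasurable G :=
    ((Lp.stronglyMeasurable F).measurable.div (continuous_wt n).measurable).stronglyMeasurable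
  refine ⟨G, hGm, fun R => ?_, fun ψ hψ hψs => ?_⟩
  · refine MemLp.of_le_mul (c := (1 + max R 0) ^ (n + 3)) (Lp.memLp F)
      (hGm.indicator measurableSet_closedBall).aestronglyMeasurable (Eventually.of_forall fun y => ?_)
    by_cases hy : y ∈ closedBall (0 : Spc d) R
    · rw [indicator_of_mem hy, Real.norm_eq_abs, Real.norm_eq_abs]
      simp only [G, wt, div_inv_eq_mul]
      rw [abs_mul, abs_of_nonneg (show (0:ℝ) ≤ (1 + ‖y‖) ^ (n + 3) by positivity), mul_comm]
      refine mul_le_mul_of_nonneg_right (pow_le_pow_left₀ (by positivity) ?_ _) (abs_nonneg _)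
      rw [mem_closedBall, dist_zero_right] at hy
      linarith [le_max_left R 0]
    · rw [indicator_of_notMem hy, norm_zero]; positivity
  · have h := hF ⟨fun y => ψ y / wt n y, hψ.div (continuous_wt n) fun y => (wt_pos n y).ne',
      (hψs.mul_right : HasCompactSupport fun y => ψ y * (wt n y)⁻¹)⟩
    have e : (fun y => ψ y * G y) = fun y => ψ y / wt n y * F y := by
      funext y; simp only [G]; ring
    rw [e]
    refine h.congr fun j => integral_congr_ae (Eventually.of_forall fun y => ?_)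
    have := (wt_pos n y).ne'
    simp only [f]
    field_simp

/-- Approximation in `L²` by test functions vanishing outside a larger ball. -/
lemma exists_cc_approx {ν : Measure (Spc d)} [IsLocallyFiniteMeasure ν] {G : Spc d → ℝ} {R : ℝ}
    (hR : 0 < R) (hG : MemLp ((closedBall (0 : Spc d) R).indicator G) 2 ν) {e : ℝ} (he : 0 < e) :
    ∃ ψ : Spc d → ℝ, Continuous ψ ∧ HasCompactSupport ψ ∧ (∀ y, 2 * R < ‖y‖ → ψ y = 0) ∧
      Real.sqrt (∫ y, ((closedBall (0 : Spc d) R).indicator G y - ψ y) ^ 2 ∂ν) ≤ e ∧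
      Real.sqrt (∫ y, ψ y ^ 2 ∂ν) ≤
        Real.sqrt (∫ y, (closedBall (0 : Spc d) R).indicator G y ^ 2 ∂ν) + e := by
  set H := (closedBall (0 : Spc d) R).indicator G
  obtain ⟨g, hgs, hge, hgc, hgm⟩ := hG.exists_hasCompactSupport_eLpNorm_sub_le
    ENNReal.ofNat_ne_top (ε := ENNReal.ofReal e) (by simp [he])
  set ψ : Spc d → ℝ := fun y => cut 0 R y * g y
  have hψc : Continuous ψ := (continuous_cut 0 R).mul hgc
  have hψs : HasCompactSupport ψ := hgs.mul_left
  have hψm : MemLp ψ 2 ν := hψc.memLp_of_hasCompactSupport hψs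
  have hdiff : Real.sqrt (∫ y, (H y - ψ y) ^ 2 ∂ν) ≤ e := by
    have hm : MemLp (fun y => H y - g y) 2 ν := hG.sub hgm
    have h1 : Real.sqrt (∫ y, (H y - g y) ^ 2 ∂ν) ≤ e := by
      rw [← norm_toLp_eq_sqrt hm, Lp.norm_toLp]
      exact ENNReal.toReal_le_of_le_ofReal he.le hge
    refine le_trans (Real.sqrt_le_sqrt ?_) h1
    refine integral_mono (hG.sub hψm).integrable_sq hm.integrable_sq fun y => ?_
    simp only [ψ]
    by_cases hy : y ∈ closedBall (0 : Spc d) R
    · rw [cut_eq_one hR (mem_closedBall.1 hy), one_mul]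
    · simp only [H, indicator_of_notMem hy, zero_sub, neg_sq, mul_pow]
      exact mul_le_of_le_one_left (sq_nonneg _) (pow_le_one₀ (cut_nonneg _ _ _) (cut_le_one _ _ _))
  refine ⟨ψ, hψc, hψs, fun y hy => ?_, hdiff, ?_⟩
  · simp only [ψ]
    rw [cut_eq_zero hR (by rw [dist_zero_right]; exact hy.le), zero_mul]
  · rw [← norm_toLp_eq_sqrt hψm, ← norm_toLp_eq_sqrt hG]
    have h2 := norm_le_norm_add_norm_sub' (hψm.toLp ψ) (hG.toLp H)
    have h3 : ‖hG.toLp H - hψm.toLp ψ‖ ≤ e := by
      rw [← MemLp.toLp_sub, norm_toLp_eq_sqrt]; exact hdiff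
    rw [norm_sub_rev] at h2
    linarith

/-- Growth of a weak limit. -/
lemma weak_growth {K : ℝ} {μ : ℕ → Measure (Spc d)} {N : ℕ → ℝ} {u : ℕ → Spc d} {b : ℕ → ℝ}
    {U : Ultrafilter ℕ} {ν : Measure (Spc d)} [IsLocallyFiniteMeasure ν]
    (hlf : ∀ j, IsLocallyFiniteMeasure (μ j))
    (hK : 0 ≤ K) (hN : ∀ j, 0 < N j) (hg : ∀ j, SqGrowth n K (N j) (μ j) (aff (u j) (b j)))
    (hlim : IsLimit n U μ ν) {G : Spc d → ℝ}
    (hGB : ∀ R : ℝ, MemLp ((closedBall (0 : Spc d) R).indicator G) 2 ν)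
    (hmain : ∀ ψ : Spc d → ℝ, Continuous ψ → HasCompactSupport ψ →
      Tendsto (fun j => ∫ y, ψ y * (aff (u j) (b j) y / N j) ∂(μ j)) U
        (𝓝 (∫ y, ψ y * G y ∂ν))) {R : ℝ} (hR : 1 ≤ R) :
    ∫ y, (closedBall (0 : Spc d) R).indicator G y ^ 2 ∂ν ≤ K * (2 * R) ^ (n + 3) := by
  set H := (closedBall (0 : Spc d) R).indicator G with hH
  set H2 := (closedBall (0 : Spc d) (2 * R)).indicator G with hH2
  set a := ∫ y, H y ^ 2 ∂ν
  set k := Real.sqrt (K * (2 * R) ^ (n + 3))
  set m2 := Real.sqrt (∫ y, H2 y ^ 2 ∂ν)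
  have ha : 0 ≤ a := integral_nonneg fun y => sq_nonneg _
  have key : ∀ e > 0, a ≤ (Real.sqrt a + e) * k + e * m2 := by
    intro e he
    obtain ⟨ψ, hψc, hψs, hψ0, hdiff, hψn⟩ := exists_cc_approx (by linarith) (hGB R) he
    rw [← hH] at hdiff hψn
    have hψm : MemLp ψ 2 ν := hψc.memLp_of_hasCompactSupport hψs
    have h1 : |∫ y, ψ y * G y ∂ν| ≤ Real.sqrt (∫ y, ψ y ^ 2 ∂ν) * k := by
      refine le_of_tendsto_of_tendsto (hmain ψ hψc hψs).abs
        ((tendsto_sqrt_sq hlim hψc hψs).mul_const k)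
        (Eventually.of_forall fun j => ?_)
      have := hlf j
      exact abs_integral_cc_le (hN j) (hg j) hψc hψs (by linarith) hψ0
    have e1 : ∫ y, ψ y * G y ∂ν = ∫ y, ψ y * H2 y ∂ν := by
      refine integral_congr_ae (Eventually.of_forall fun y => ?_)
      by_cases hy : 2 * R < ‖y‖
      · simp [hψ0 y hy]
      · simp only [hH2]; rw [indicator_of_mem (by simpa using not_lt.1 hy)]
    have e2 : a = ∫ y, H y * H2 y ∂ν := by
      refine integral_congr_ae (Eventually.of_forall fun y => ?_)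
      by_cases hy : y ∈ closedBall (0 : Spc d) R
      · simp only [hH, hH2]
        rw [indicator_of_mem hy, indicator_of_mem (closedBall_subset_closedBall (by linarith) hy), sq]
      · simp [hH, indicator_of_notMem hy]
    have h2 : |∫ y, (H y - ψ y) * H2 y ∂ν| ≤ e * m2 :=
      (abs_integral_mul_le_sqrt ((hGB R).sub hψm) (hGB (2 * R))).trans
        (mul_le_mul_of_nonneg_right hdiff (Real.sqrt_nonneg _))
    have e3 : ∫ y, (H y - ψ y) * H2 y ∂ν = a - ∫ y, ψ y * H2 y ∂ν := by
      rw [e2]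
      refine (integral_congr_ae (Eventually.of_forall fun y => ?_)).trans
        (integral_sub (f := fun y => H y * H2 y) (g := fun y => ψ y * H2 y)
          ((hGB R).integrable_mul (hGB (2 * R))) (hψm.integrable_mul (hGB (2 * R))))
      simp [sub_mul]
    rw [e3, ← e1] at h2
    have h3 := abs_le.1 h2
    have h4 := (le_abs_self _).trans (h1.trans
      (mul_le_mul_of_nonneg_right hψn (Real.sqrt_nonneg _)))
    linarith
  have hlim' : a ≤ Real.sqrt a * k := by
    have hc : Tendsto (fun e => (Real.sqrt a + e) * k + e * m2) (𝓝[>] 0) (𝓝 (Real.sqrt a * k)) := by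
      have : Continuous fun e => (Real.sqrt a + e) * k + e * m2 := by fun_prop
      exact tendsto_nhdsWithin_of_tendsto_nhds (this.tendsto' 0 _ (by ring))
    exact ge_of_tendsto hc (eventually_nhdsWithin_of_forall key)
  have hk : 0 ≤ K * (2 * R) ^ (n + 3) := by positivity
  rcases eq_or_lt_of_le ha with h0 | h0
  · rw [← h0]; exact hk
  · have : Real.sqrt a ≤ k := by
      have hs := Real.sqrt_pos.2 h0
      nlinarith [Real.mul_self_sqrt ha]
    exact (Real.sqrt_le_sqrt_iff hk).1 this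

/-- The weak limit of normalised affine coordinates. -/
theorem weak_limit {C K θ : ℝ} {μ : ℕ → Measure (Spc d)} {D N : ℕ → ℝ} {u : ℕ → Spc d} {b : ℕ → ℝ}
    {U : Ultrafilter ℕ} {ν : Measure (Spc d)} [IsLocallyFiniteMeasure ν]
    (hlf : ∀ j, IsLocallyFiniteMeasure (μ j)) (hreg : ∀ j, Reg n C (D j) (μ j))
    (hK : 0 ≤ K) (hN : ∀ j, 0 < N j) (hg : ∀ j, SqGrowth n K (N j) (μ j) (aff (u j) (b j)))
    (hlim : IsLimit n U μ ν) (P : Plane n d) (hP : P.base = 0) (hθ : 0 < θ)
    (hν : ν = ENNReal.ofReal θ • Measure.map P.param volume) :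
    ∃ (A : Spc n → ℝ) (C1 : ℝ), AEStronglyMeasurable A volume ∧
      (∀ R : ℝ, 1 ≤ R → IntegrableOn (fun x => A x ^ 2) (ball 0 R) ∧
        ∫ x in ball 0 R, A x ^ 2 ≤ C1 * R ^ (n + 3)) ∧
      (∀ R : ℝ, IntegrableOn A (closedBall 0 R)) ∧
      ∀ ψ : Spc d → ℝ, Continuous ψ → HasCompactSupport ψ →
        Tendsto (fun j => ∫ y, ψ y * (aff (u j) (b j) y / N j) ∂(μ j)) U
          (𝓝 (θ * ∫ x, ψ (P.param x) * A x)) := by
  obtain ⟨G, hGm, hGB, hmain⟩ := weak_rep hlf hreg hK hN hg hlim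
  have hgrow := fun (R : ℝ) (hR : 1 ≤ R) => weak_growth hlf hK hN hg hlim hGB hmain hR
  -- transfer to the plane
  have hpc : Continuous P.param := continuous_param P
  have hint_map : ∀ f : Spc d → ℝ, StronglyMeasurable f →
      ∫ y, f y ∂ν = θ * ∫ x, f (P.param x) := by
    intro f hf
    rw [hν, integral_smul_measure, integral_map hpc.aemeasurable hf.aestronglyMeasurable,
      ENNReal.toReal_ofReal hθ.le, smul_eq_mul]
  have hnp : ∀ x, ‖P.param x‖ = ‖x‖ := fun x => by rw [param_eq, hP, zero_add, norm_lin]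
  have hA2 : ∀ R : ℝ, IntegrableOn (fun x => G (P.param x) ^ 2) (closedBall 0 R) := by
    intro R
    have h1 := (hGB R).integrable_sq
    rw [hν, integrable_smul_measure (by simp [hθ]) ENNReal.ofReal_ne_top,
      integrable_map_measure
        ((hGm.indicator measurableSet_closedBall).measurable.pow_const 2).aestronglyMeasurable
        hpc.aemeasurable] at h1
    rw [← integrable_indicator_iff measurableSet_closedBall]
    refine h1.congr (Eventually.of_forall fun x => ?_)
    by_cases hx : x ∈ closedBall (0 : Spc n) R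
    · rw [indicator_of_mem hx]
      simp only [Function.comp_apply]
      rw [indicator_of_mem (show P.param x ∈ closedBall (0 : Spc d) R by simpa [hnp] using hx)]
    · rw [indicator_of_notMem hx]
      simp only [Function.comp_apply]
      rw [indicator_of_notMem (show P.param x ∉ closedBall (0 : Spc d) R by simpa [hnp] using hx)]
      simp
  refine ⟨fun x => G (P.param x), K * 2 ^ (n + 3) / θ,
    (hGm.comp_measurable hpc.measurable).aestronglyMeasurable, fun R hR => ⟨(hA2 R).mono_set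
      ball_subset_closedBall, ?_⟩, fun R => ?_, fun ψ hψ hψs => ?_⟩
  · refine (setIntegral_mono_set (hA2 R) (Eventually.of_forall fun x => sq_nonneg _)
      ball_subset_closedBall.eventuallyLE).trans ?_
    have h1 := hgrow R hR
    rw [hint_map _ ((hGm.indicator measurableSet_closedBall).measurable.pow_const 2).stronglyMeasurable] at h1
    rw [← integral_indicator measurableSet_closedBall, div_mul_eq_mul_div, le_div_iff₀ hθ, mul_comm]
    refine le_trans (le_of_eq ?_) (h1.trans_eq (by ring))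
    congr 2; funext x
    by_cases hx : x ∈ closedBall (0 : Spc n) R
    · rw [indicator_of_mem hx, indicator_of_mem (show P.param x ∈ closedBall (0 : Spc d) R by
        simpa [hnp] using hx)]
    · rw [indicator_of_notMem hx, indicator_of_notMem (show P.param x ∉ closedBall (0 : Spc d) R by
        simpa [hnp] using hx)]
      simp
  · have hm : MemLp (fun x => G (P.param x)) 2 (volume.restrict (closedBall (0 : Spc n) R)) :=
      (memLp_two_iff_integrable_sq (hGm.comp_measurable hpc.measurable).aestronglyMeasurable).2 (hA2 R)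
    haveI : Fact ((volume : Measure (Spc n)) (closedBall 0 R) < ⊤) := ⟨measure_closedBall_lt_top⟩
    exact hm.integrable one_le_two
  · have h1 := hmain ψ hψ hψs
    rwa [hint_map (fun y => ψ y * G y) (hψ.stronglyMeasurable.mul hGm)] at h1

end Vale.Agent.P120.Improve
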