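import Mathlib
import Vale.Agent.P120.Improve.Weak

/-!
Weak convergence against potentials of a continuous compactly supported kernel.
-/

noncomputable section

open MeasureTheory Metric Set Filter Topology
open scoped ENNReal NNReal RealInnerProductSpace

namespace Vale.Agent.P120.Improve

variable {n d : ℕ}

lemma continuous_potential {μ : Measure (Spc d)} [IsLocallyFiniteMeasure μ]
    {k : Spc d × Spc d → ℝ} (hk : Continuous k) {X : ℝ}
    (h0 : ∀ x y : Spc d, X < ‖y‖ → k (x, y) = 0) :
    Continuous fun x => ∫ y, k (x, y) ∂μ := by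
  refine continuousOn_univ.1 (continuousOn_integral_of_compact_support
    (f := fun x y => k (x, y)) (isCompact_closedBall (0 : Spc d) X) hk.continuousOn
    fun x y _ hy => h0 x y ?_)
  simpa [mem_closedBall] using hy

/-- double weak convergence -/
theorem far_limit {C K θ : ℝ} {μ : ℕ → Measure (Spc d)} {D N : ℕ → ℝ} {u : ℕ → Spc d} {b : ℕ → ℝ}
    {U : Ultrafilter ℕ} {ν : Measure (Spc d)} [IsLocallyFiniteMeasure ν]
    (hlf : ∀ j, IsLocallyFiniteMeasure (μ j)) (hreg : ∀ j, Reg n C (D j) (μ j))
    (hN : ∀ j, 0 < N j) (hg : ∀ j, SqGrowth n K (N j) (μ j) (aff (u j) (b j)))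
    (hlim : IsLimit n U μ ν) {P : Plane n d} {A : Spc n → ℝ}
    (hweak : ∀ ψ : Spc d → ℝ, Continuous ψ → HasCompactSupport ψ →
      Tendsto (fun j => ∫ y, ψ y * (aff (u j) (b j) y / N j) ∂(μ j)) U
        (𝓝 (θ * ∫ x, ψ (P.param x) * A x)))
    {k : Spc d × Spc d → ℝ} (hk : Continuous k) {X : ℝ} (hX : 1 ≤ X)
    (h1 : ∀ x y : Spc d, X < ‖x‖ → k (x, y) = 0) (h2 : ∀ x y : Spc d, X < ‖y‖ → k (x, y) = 0) :
    Tendsto (fun j => ∫ x, aff (u j) (b j) x / N j * ∫ y, k (x, y) ∂(μ j) ∂(μ j)) U
      (𝓝 (θ * ∫ x, (∫ y, k (P.param x, y) ∂ν) * A x)) := by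
  set Ψ : Spc d → ℝ := fun x => ∫ y, k (x, y) ∂ν
  have hΨc : Continuous Ψ := continuous_potential hk h2
  have hΨ0 : ∀ x, X < ‖x‖ → Ψ x = 0 := fun x hx => by simp [Ψ, h1 x _ hx]
  have hΨs : HasCompactSupport Ψ := HasCompactSupport.intro (isCompact_closedBall (0 : Spc d) X)
    fun x hx => hΨ0 x (by simpa [mem_closedBall] using hx)
  have hw := hweak Ψ hΨc hΨs
  have hks : HasCompactSupport k := HasCompactSupport.intro
    ((isCompact_closedBall (0 : Spc d) X).prod (isCompact_closedBall (0 : Spc d) X))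
    fun p hp => by
      rw [mem_prod, not_and_or] at hp
      rcases hp with hp | hp
      · exact h1 p.1 p.2 (by simpa [mem_closedBall] using hp)
      · exact h2 p.1 p.2 (by simpa [mem_closedBall] using hp)
  set f : ℕ → Spc d → ℝ := fun j x => (∫ y, k (x, y) ∂(μ j)) - Ψ x
  have hC := (hreg 0).nonneg
  set E0 := C * 2 ^ n * X ^ n
  have hE0 : 0 ≤ E0 := by positivity
  have hpt : ∀ x ∈ closedBall (0 : Spc d) X, Tendsto (fun j => f j x) U (𝓝 0) := by
    intro x _
    have hs : HasCompactSupport fun y => k (x, y) :=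
      HasCompactSupport.intro (isCompact_closedBall (0 : Spc d) X)
        fun y hy => h2 x y (by simpa [mem_closedBall] using hy)
    have := (hlim.integral (fun y => k (x, y)) (by fun_prop) hs).sub_const (Ψ x)
    simpa [f, Ψ] using this
  have heq : ∀ ε > 0, ∃ δ > 0, ∀ᶠ j in (U : Filter ℕ), ∀ x ∈ closedBall (0 : Spc d) X,
      ∀ y ∈ closedBall (0 : Spc d) X, dist x y < δ → |f j x - f j y| ≤ ε := by
    intro ε hε
    obtain ⟨δ1, hδ1, hu1⟩ := Metric.uniformContinuous_iff.1 (uniformContinuous_of_cs hk hks)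
      (ε / 2 / (E0 + 1)) (by positivity)
    obtain ⟨δ2, hδ2, hu2⟩ := Metric.uniformContinuous_iff.1 (uniformContinuous_of_cs hΨc hΨs)
      (ε / 2) (half_pos hε)
    refine ⟨min δ1 δ2, lt_min hδ1 hδ2, Eventually.of_forall fun j x _ y _ hxy => ?_⟩
    have := hlf j
    have hsx : ∀ x : Spc d, HasCompactSupport fun z => k (x, z) := fun x =>
      HasCompactSupport.intro (isCompact_closedBall (0 : Spc d) X)
        fun y hy => h2 x y (by simpa [mem_closedBall] using hy)
    have hi : ∀ x : Spc d, Integrable (fun z => k (x, z)) (μ j) := fun x =>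
      (by fun_prop : Continuous fun z => k (x, z)).integrable_of_hasCompactSupport (hsx x)
    have e1 : |(∫ z, k (x, z) ∂(μ j)) - ∫ z, k (y, z) ∂(μ j)| ≤ ε / 2 := by
      rw [← integral_sub (hi x) (hi y)]
      have e2 : ∫ z, (k (x, z) - k (y, z)) ∂(μ j) =
          ∫ z in closedBall (0 : Spc d) X, (k (x, z) - k (y, z)) ∂(μ j) := by
        refine (setIntegral_eq_integral_of_forall_compl_eq_zero fun z hz => ?_).symm
        rw [h2 x z (by simpa [mem_closedBall] using hz), h2 y z (by simpa [mem_closedBall] using hz),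
          sub_self]
      rw [e2, ← Real.norm_eq_abs]
      refine (norm_setIntegral_le_of_norm_le_const (C := ε / 2 / (E0 + 1))
        measure_closedBall_lt_top fun z _ => ?_).trans ?_
      · rw [Real.norm_eq_abs, ← Real.dist_eq]
        refine (hu1 ?_).le
        rw [Prod.dist_eq, dist_self]
        simp only [max_lt_iff]
        exact ⟨hxy.trans_le (min_le_left _ _), hδ1⟩
      · refine (mul_le_mul_of_nonneg_left ((hreg j).closedBall_real_le 0 (by linarith))
          (by positivity)).trans ?_
        rw [div_mul_eq_mul_div, div_le_iff₀ (by positivity)]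
        exact mul_le_mul_of_nonneg_left (by linarith) (by positivity)
    have e3 : |Ψ x - Ψ y| ≤ ε / 2 := by
      rw [← Real.dist_eq]; exact (hu2 (hxy.trans_le (min_le_right _ _))).le
    simp only [f]
    rw [sub_sub_sub_comm]
    exact (abs_sub _ _).trans (by linarith)
  set G0 := (K * X ^ (n + 3) + C * 2 ^ n * X ^ n) / 2
  have hdiff : Tendsto (fun j => (∫ x, aff (u j) (b j) x / N j * ∫ y, k (x, y) ∂(μ j) ∂(μ j))
      - ∫ x, Ψ x * (aff (u j) (b j) x / N j) ∂(μ j)) U (𝓝 0) := by
    refine Metric.tendsto_nhds.2 fun ε hε => ?_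
    have hε' : 0 < ε / (2 * (|G0| + 1)) := by positivity
    filter_upwards [eventually_abs_le_of_equicontinuous (isCompact_closedBall (0 : Spc d) X)
      hpt heq hε'] with j hj
    have := hlf j
    have hc1 : Continuous fun x => ∫ y, k (x, y) ∂(μ j) := continuous_potential hk h2
    have hcs1 : HasCompactSupport fun x => aff (u j) (b j) x / N j * ∫ y, k (x, y) ∂(μ j) :=
      HasCompactSupport.intro (isCompact_closedBall (0 : Spc d) X) fun x hx => by
        simp [h1 x _ (show X < ‖x‖ by simpa [mem_closedBall] using hx)]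
    have hcs2 : HasCompactSupport fun x => Ψ x * (aff (u j) (b j) x / N j) := hΨs.mul_right
    rw [Real.dist_eq, sub_zero, ← integral_sub
      ((by fun_prop : Continuous _).integrable_of_hasCompactSupport hcs1)
      ((by fun_prop : Continuous _).integrable_of_hasCompactSupport hcs2)]
    have e : ∀ x, aff (u j) (b j) x / N j * (∫ y, k (x, y) ∂(μ j))
        - Ψ x * (aff (u j) (b j) x / N j) = aff (u j) (b j) x / N j * f j x := fun x => by
      simp only [f]; ring
    rw [integral_congr_ae (Eventually.of_forall e),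
      ← setIntegral_eq_integral_of_forall_compl_eq_zero (s := closedBall (0 : Spc d) X) fun x hx => by
        have hx' : X < ‖x‖ := by simpa [mem_closedBall] using hx
        simp [f, h1 x _ hx', hΨ0 x hx']]
    have hb : ‖∫ x in closedBall (0 : Spc d) X, aff (u j) (b j) x / N j * f j x ∂(μ j)‖ ≤
        ∫ x in closedBall (0 : Spc d) X, |aff (u j) (b j) x| * (ε / (2 * (|G0| + 1)) / N j) ∂(μ j) := by
      refine norm_integral_le_of_norm_le ((integrableOn_aff (u j) (b j) X).mul_const _)
        ((ae_restrict_mem measurableSet_closedBall).mono fun x hx => ?_)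
      rw [Real.norm_eq_abs, abs_mul, abs_div, abs_of_pos (hN j), div_mul_eq_mul_div, ← mul_div_assoc]
      exact div_le_div_of_nonneg_right (mul_le_mul_of_nonneg_left (hj x hx) (abs_nonneg _)) (hN j).le
    rw [integral_mul_const] at hb
    refine lt_of_le_of_lt (hb.trans (mul_le_mul_of_nonneg_right
      (abs_integral_le (hreg j) (hN j) (hg j) hX one_pos) (by have := hN j; positivity))) ?_
    have hN0 := (hN j).ne'
    calc N j * (K * X ^ (n + 3) / 1 + 1 * (C * 2 ^ n * X ^ n)) / 2 *
          (ε / (2 * (|G0| + 1)) / N j) = ε * (G0 / (2 * (|G0| + 1))) := by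
          simp only [G0]; field_simp
      _ < ε * 1 := by
          refine mul_lt_mul_of_pos_left ?_ hε
          rw [div_lt_one (by positivity)]
          linarith [le_abs_self G0, abs_nonneg G0]
      _ = ε := mul_one ε
  have := hdiff.add hw
  rw [zero_add] at this
  exact this.congr fun j => by ring

end Vale.Agent.P120.Improve
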