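import Mathlib
import Vale.Agent.P120.Improve.Scalar
import Vale.Agent.P120.FlatConstCalc
import Vale.Agent.P120.Liouville.Approx

/-!
The windowed, smoothly truncated scalar kernel tends to the half Laplacian.
-/

noncomputable section

open MeasureTheory Metric Set Filter Topology Module
open scoped ENNReal NNReal RealInnerProductSpace

namespace Vale.Agent.P120.Improve

variable {n d : ℕ}

/-- the smoothly truncated scalar kernel -/
def kr (n : ℕ) (r : ℝ) (z : Spc d) : ℝ := ramp (‖z‖ / r) * ker n z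

lemma kr_neg (r : ℝ) (z : Spc d) : kr n r (-z) = kr n r z := by simp [kr, ker]

lemma kr_sub_comm (r : ℝ) (x y : Spc d) : kr n r (x - y) = kr n r (y - x) := by
  rw [← kr_neg, neg_sub]

lemma kr_bounds (r : ℝ) (z : Spc d) : 0 ≤ kr n r z ∧ kr n r z ≤ ker n z :=
  ⟨mul_nonneg (ramp_nonneg _) (by unfold ker; positivity),
    mul_le_of_le_one_left (by unfold ker; positivity) (ramp_le_one _)⟩

lemma kr_eq_zero {r : ℝ} (hr : 0 < r) {z : Spc d} (hz : ‖z‖ ≤ r) : kr n r z = 0 := by
  rw [kr, ramp_eq_zero ((div_le_one hr).2 hz), zero_mul]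

lemma kr_eq_ker {r : ℝ} (hr : 0 < r) {z : Spc d} (hz : 2 * r ≤ ‖z‖) : kr n r z = ker n z := by
  rw [kr, ramp_eq_one ((le_div_iff₀ hr).2 hz), one_mul]

lemma continuous_kr {r : ℝ} (hr : 0 < r) : Continuous (kr n r : Spc d → ℝ) := by
  refine continuous_iff_continuousAt.2 fun z => ?_
  rcases eq_or_ne z 0 with rfl | hz
  · refine (continuousAt_const (y := (0 : ℝ))).congr ?_
    filter_upwards [closedBall_mem_nhds (0 : Spc d) hr] with w hw
    exact (kr_eq_zero hr (by simpa using hw)).symm
  · exact (by fun_prop : Continuous fun z : Spc d => ramp (‖z‖ / r)).continuousAt.mul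
      ((continuous_norm.pow _).continuousAt.inv₀ (pow_ne_zero _ (norm_ne_zero_iff.2 hz)))

/-- the windowed truncated operator -/
def Gop (h : Spc n → ℝ) (L r : ℝ) (x : Spc n) : ℝ :=
  ∫ z, cut 0 L x * cut 0 L z * (h x - h z) * kr n r (x - z)

variable {h : Spc n → ℝ} {R Lp B : ℝ}

lemma integrable_Gop (hc : Continuous h) {L r : ℝ} (hL : 0 < L) (hr : 0 < r) (x : Spc n) :
    Integrable fun z => cut 0 L x * cut 0 L z * (h x - h z) * kr n r (x - z) := by
  have hk := continuous_kr (n := n) (d := n) hr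
  refine (by fun_prop : Continuous _).integrable_of_hasCompactSupport ?_
  refine HasCompactSupport.intro (isCompact_closedBall (0 : Spc n) (2 * L)) fun z hz => ?_
  rw [mem_closedBall, not_le] at hz
  simp [cut_eq_zero hL hz.le]

lemma measurable_Gop (hc : Continuous h) {r : ℝ} (hr : 0 < r) (L : ℝ) :
    StronglyMeasurable (Gop h L r) := by
  have hk := continuous_kr (n := n) (d := n) hr
  exact (by fun_prop : Continuous fun p : Spc n × Spc n =>
    cut 0 L p.1 * cut 0 L p.2 * (h p.1 - h p.2) * kr n r (p.1 - p.2)).stronglyMeasurable.integral_prod_right'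

lemma Gop_eq (hc : Continuous h) {L r : ℝ} (hL : 0 < L) (hr : 0 < r) (x : Spc n) :
    Gop h L r x = ∫ w, (1/2 : ℝ) * (cut 0 L x * kr n r w *
      (cut 0 L (x + w) * (h x - h (x + w)) + cut 0 L (x - w) * (h x - h (x - w)))) := by
  set F : Spc n → ℝ := fun w => cut 0 L x * kr n r w * (cut 0 L (x + w) * (h x - h (x + w)))
  have hi : Integrable F := by
    refine ((integrable_Gop hc hL hr x).comp_add_left x).congr (Eventually.of_forall fun w => ?_)
    simp only [F, sub_add_cancel_left, kr_neg]; ring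
  have h1 : Gop h L r x = ∫ w, F w := by
    rw [Gop, ← integral_add_left_eq_self _ x]
    refine integral_congr_ae (Eventually.of_forall fun w => ?_)
    simp only [F, sub_add_cancel_left, kr_neg]; ring
  have hi2 : Integrable fun w => F (-w) := hi.comp_neg
  have h3 : ∫ w, (F w + F (-w)) = 2 * Gop h L r x := by
    rw [integral_add hi hi2, integral_neg_eq_self F volume, h1]; ring
  rw [integral_const_mul]
  have e : (fun w => cut 0 L x * kr n r w *
      (cut 0 L (x + w) * (h x - h (x + w)) + cut 0 L (x - w) * (h x - h (x - w)))) =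
      fun w => F w + F (-w) := by
    funext w; simp only [F, kr_neg, sub_eq_add_neg]; ring
  rw [e, h3]; ring

lemma abs_sym_le (ht : FlatAux.Test h R Lp B) {L r : ℝ} {x : Spc n} (hx : ‖x‖ + 1 ≤ L) (w : Spc n) :
    |(1/2 : ℝ) * (cut 0 L x * kr n r w *
      (cut 0 L (x + w) * (h x - h (x + w)) + cut 0 L (x - w) * (h x - h (x - w))))| ≤
        max (2 * Lp) (4 * B) * Liouville.ker0 w := by
  obtain ⟨hk0, hk1⟩ := kr_bounds (n := n) r w
  have hL : 0 < L := by linarith [norm_nonneg x]
  set S := cut 0 L (x + w) * (h x - h (x + w)) + cut 0 L (x - w) * (h x - h (x - w))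
  have hS : |S| ≤ max (2 * Lp) (4 * B) * min (‖w‖ ^ 2) 1 := by
    rcases le_or_gt ‖w‖ 1 with hw | hw
    · rw [min_eq_left (by nlinarith [norm_nonneg w])]
      have e1 : cut 0 L (x + w) = 1 := cut_eq_one hL (by rw [dist_zero_right]; linarith [norm_add_le x w])
      have e2 : cut 0 L (x - w) = 1 := cut_eq_one hL (by rw [dist_zero_right]; linarith [norm_sub_le x w])
      simp only [S, e1, e2, one_mul]
      rw [show h x - h (x + w) + (h x - h (x - w)) = 2 * h x - h (x + w) - h (x - w) by ring]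
      exact (FlatAux.abs_second_le ht x w).trans
        (mul_le_mul_of_nonneg_right (le_max_left _ _) (sq_nonneg _))
    · rw [min_eq_right (by nlinarith), mul_one]
      refine le_max_of_le_right ((abs_add_le _ _).trans ?_)
      have hb : ∀ a b, |cut (0 : Spc n) L a * (h x - h b)| ≤ 2 * B := fun a b => by
        rw [abs_mul]
        refine (mul_le_of_le_one_left (abs_nonneg _) (abs_cut_le_one _ _ _)).trans ?_
        linarith [abs_sub (h x) (h b), (ht.bd x).1, (ht.bd b).1]
      linarith [hb (x + w) (x + w), hb (x - w) (x - w)]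
  have hk : kr n r w ≤ (‖w‖ ^ (n + 1))⁻¹ := hk1
  rw [abs_mul, abs_mul, abs_mul, abs_of_nonneg hk0, abs_of_nonneg (cut_nonneg _ _ _),
    abs_of_pos (show (0:ℝ) < 1/2 by norm_num), Liouville.ker0, finrank_euclideanSpace_fin]
  have hm : 0 ≤ min (‖w‖ ^ 2) 1 := le_min (sq_nonneg _) zero_le_one
  have hC : 0 ≤ max (2 * Lp) (4 * B) := le_max_of_le_left (by linarith [ht.lp0])
  calc (1/2 : ℝ) * (cut 0 L x * kr n r w * |S|)
      ≤ 1 * (1 * (‖w‖ ^ (n + 1))⁻¹ * (max (2 * Lp) (4 * B) * min (‖w‖ ^ 2) 1)) := by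
        gcongr
        · have := cut_nonneg (0 : Spc n) L x; positivity
        · norm_num
        · exact cut_le_one _ _ _
    _ = _ := by ring

lemma tendsto_Gop (hn : 1 ≤ n) (ht : FlatAux.Test h R Lp B) (x : Spc n) :
    Tendsto (fun m : ℕ => Gop h m ((m : ℝ)⁻¹) x) atTop (𝓝 (fracLap h x)) := by
  have : Nonempty (Fin n) := ⟨⟨0, hn⟩⟩
  have hc := ht.diff.continuous
  have hev : ∀ᶠ m : ℕ in atTop, ‖x‖ + 1 ≤ (m : ℝ) :=
    tendsto_natCast_atTop_atTop.eventually (eventually_ge_atTop _)
  have key : Tendsto (fun m : ℕ => ∫ w, (1/2 : ℝ) * (cut 0 (m : ℝ) x * kr n ((m : ℝ)⁻¹) w *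
      (cut 0 (m : ℝ) (x + w) * (h x - h (x + w)) + cut 0 (m : ℝ) (x - w) * (h x - h (x - w)))))
      atTop (𝓝 (∫ w, (1/2 : ℝ) * ((2 * h x - h (x + w) - h (x - w)) / ‖w‖ ^ (n + 1)))) := by
    refine tendsto_integral_filter_of_dominated_convergence _ ?_
      (hev.mono fun m hm => Eventually.of_forall fun w => abs_sym_le ht hm w)
      ((Liouville.integrable_ker0 (V := Spc n)).const_mul _) (Eventually.of_forall fun w => ?_)
    · refine hev.mono fun m hm => ?_
      have hk := continuous_kr (n := n) (d := n)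
        (show (0:ℝ) < (m : ℝ)⁻¹ from inv_pos.2 (by linarith [norm_nonneg x]))
      exact (by fun_prop : Continuous _).aestronglyMeasurable
    rcases eq_or_ne w 0 with rfl | hw
    · refine tendsto_const_nhds.congr' (hev.mono fun m hm => ?_)
      simp [kr, ker]
    refine tendsto_const_nhds.congr' ?_
    filter_upwards [hev, tendsto_natCast_atTop_atTop.eventually
      (eventually_ge_atTop (max (‖x‖ + ‖w‖) (2 / ‖w‖)))] with m hm hm'
    have hm0 : (0:ℝ) < m := by linarith [norm_nonneg x]
    have g1 := (le_max_left _ _).trans hm'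
    have g2 : 2 / ‖w‖ ≤ (m : ℝ) := (le_max_right _ _).trans hm'
    rw [cut_eq_one hm0 (by rw [dist_zero_right]; linarith [norm_nonneg w]),
      cut_eq_one hm0 (by rw [dist_zero_right]; linarith [norm_add_le x w]),
      cut_eq_one hm0 (by rw [dist_zero_right]; linarith [norm_sub_le x w]),
      kr_eq_ker (inv_pos.2 hm0) (by
        rw [← div_eq_mul_inv, div_le_iff₀ hm0]
        have := (div_le_iff₀ (norm_pos_iff.2 hw)).1 g2
        linarith), ker]
    ring
  have hf : fracLap h x = ∫ w, (1/2 : ℝ) * ((2 * h x - h (x + w) - h (x - w)) / ‖w‖ ^ (n + 1)) := by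
    rw [fracLap, integral_const_mul]
  rw [hf]
  refine key.congr' (hev.mono fun m hm => ?_)
  have hm0 : (0:ℝ) < m := by linarith [norm_nonneg x]
  exact (Gop_eq hc hm0 (inv_pos.2 hm0) x).symm

lemma abs_Gop_le (hn : 1 ≤ n) (ht : FlatAux.Test h R Lp B) (hmean : ∫ z, h z = 0) :
    ∃ Cg, ∀ L r : ℝ, 2 * R + 5 ≤ L → 0 < r → r ≤ 1 → ∀ x,
      |Gop h L r x| ≤ Cg * Liouville.wt x := by
  have : Nonempty (Fin n) := ⟨⟨0, hn⟩⟩
  have hR := ht.one_le
  have hB := ht.B_nonneg
  have hc := ht.diff.continuous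
  have hs : HasCompactSupport h := HasCompactSupport.intro (isCompact_closedBall (0 : Spc n) R)
    fun z hz => by
      rw [mem_closedBall, dist_zero_right, not_le] at hz
      exact (ht.out z hz.le).1
  have hi : Integrable h := hc.integrable_of_hasCompactSupport hs
  set I0 := ∫ w : Spc n, Liouville.ker0 w
  set C1 := max (2 * Lp) (4 * B) * I0 * (2 * R + 5) ^ (n + 2)
  set C2 := (n + 1) * R * 4 ^ (n + 2) * ∫ z, |h z|
  refine ⟨max C1 C2, fun L r hL hr hr1 x => ?_⟩
  have hL0 : 0 < L := by linarith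
  rcases le_or_gt ‖x‖ (2 * R + 4) with hx | hx
  · rw [Gop_eq hc hL0 hr, Liouville.wt, finrank_euclideanSpace_fin]
    have hC : 0 ≤ max (2 * Lp) (4 * B) * I0 :=
      mul_nonneg (le_max_of_le_left (by linarith [ht.lp0])) (integral_nonneg Liouville.ker0_nonneg)
    refine (norm_integral_le_of_norm_le
      ((Liouville.integrable_ker0 (V := Spc n)).const_mul (max (2 * Lp) (4 * B)))
      (Eventually.of_forall fun w => (Real.norm_eq_abs _).trans_le
        (abs_sym_le ht (show ‖x‖ + 1 ≤ L by linarith) w))).trans ?_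
    rw [integral_const_mul, ← div_eq_mul_inv, le_div_iff₀ (by positivity)]
    refine le_trans (mul_le_mul_of_nonneg_left (pow_le_pow_left₀ (by positivity) (by linarith) _) hC)
      (le_max_left C1 C2)
  · have hhx : h x = 0 := (ht.out x (by linarith)).1
    have e : ∀ z, cut 0 L x * cut 0 L z * (h x - h z) * kr n r (x - z) =
        -cut 0 L x * (h z * ker n (x - z)) := by
      intro z
      by_cases hz : h z = 0
      · simp [hhx, hz]
      have hzR : ‖z‖ < R := lt_of_not_ge fun hh => hz (ht.out z hh).1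
      rw [cut_eq_one hL0 (x := z) (by rw [dist_zero_right]; linarith), hhx,
        kr_eq_ker hr (by linarith [norm_sub_norm_le x z])]
      ring
    have hdiff : ∀ z, |h z * (ker n (x - z) - ker n x)| ≤
        |h z| * ((n + 1) * R / (‖x‖ / 2) ^ (n + 2)) := by
      intro z
      rw [abs_mul]
      by_cases hz : h z = 0
      · simp [hz]
      have hzR : ‖z‖ < R := lt_of_not_ge fun hh => hz (ht.out z hh).1
      refine mul_le_mul_of_nonneg_left ?_ (abs_nonneg _)
      refine (Liouville.inv_pow_sub_le (by linarith [norm_sub_norm_le x z]) (by linarith)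
        (show 0 < ‖x‖ / 2 by linarith) (by linarith [norm_sub_norm_le x z]) (by linarith)
        (n + 1)).trans ?_
      push_cast
      gcongr
      have := abs_norm_sub_norm_le (x - z) x
      rw [sub_sub_cancel_left, norm_neg] at this
      linarith
    have hkm : Measurable fun z : Spc n => ker n (x - z) - ker n x := by unfold ker; fun_prop
    have i1 : Integrable fun z => h z * (ker n (x - z) - ker n x) :=
      (hi.abs.mul_const _).mono' (hc.measurable.mul hkm).aestronglyMeasurable
        (Eventually.of_forall hdiff)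
    have hG : Gop h L r x = -cut 0 L x * ∫ z, h z * (ker n (x - z) - ker n x) := by
      rw [Gop, integral_congr_ae (Eventually.of_forall e), integral_const_mul]
      congr 1
      have e2 : (fun z => h z * ker n (x - z)) =
          fun z => h z * (ker n (x - z) - ker n x) + h z * ker n x := by funext z; ring
      rw [e2, integral_add i1 (hi.mul_const _), integral_mul_const, hmean, zero_mul, add_zero]
    rw [hG, abs_mul, abs_neg]
    refine (mul_le_of_le_one_left (abs_nonneg _) (abs_cut_le_one _ _ _)).trans ?_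
    refine (norm_integral_le_of_norm_le (hi.abs.mul_const ((n + 1) * R / (‖x‖ / 2) ^ (n + 2)))
      (Eventually.of_forall fun z => (Real.norm_eq_abs _).trans_le (hdiff z))).trans ?_
    rw [integral_mul_const]
    refine le_trans ?_ (mul_le_mul_of_nonneg_right (le_max_right C1 C2) (Liouville.wt_nonneg x))
    rw [Liouville.wt, finrank_euclideanSpace_fin]
    have h4 : ((1 + ‖x‖) / 4) ^ (n + 2) ≤ (‖x‖ / 2) ^ (n + 2) :=
      pow_le_pow_left₀ (by positivity) (by linarith) _
    have hI : 0 ≤ ∫ z, |h z| := integral_nonneg fun z => abs_nonneg _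
    calc (∫ z, |h z|) * ((n + 1) * R / (‖x‖ / 2) ^ (n + 2))
        ≤ (∫ z, |h z|) * ((n + 1) * R / ((1 + ‖x‖) / 4) ^ (n + 2)) := by gcongr
      _ = _ := by simp only [C2, div_pow]; field_simp

/-- passage to the limit in the windowed equation -/
lemma integral_fracLap_eq_zero_of_bound (hn : 1 ≤ n) (ht : FlatAux.Test h R Lp B)
    (hmean : ∫ z, h z = 0) {A : Spc n → ℝ} (hA : AEStronglyMeasurable A volume)
    (hAi : Integrable fun x => |A x| * Liouville.wt x) {L0 Q : ℝ}
    (hb : ∀ L r : ℝ, L0 ≤ L → 0 < r → r ≤ 1 →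
      |∫ x, A x * Gop h L r x| ≤ Q * (1 / Real.sqrt L + Real.sqrt r)) :
    ∫ x, A x * fracLap h x = 0 := by
  obtain ⟨Cg, hCg⟩ := abs_Gop_le hn ht hmean
  have hc := ht.diff.continuous
  have hev : ∀ᶠ m : ℕ in atTop, max (max L0 (2 * R + 5)) 1 ≤ (m : ℝ) :=
    tendsto_natCast_atTop_atTop.eventually (eventually_ge_atTop _)
  have hlim : Tendsto (fun m : ℕ => ∫ x, A x * Gop h m ((m : ℝ)⁻¹) x) atTop
      (𝓝 (∫ x, A x * fracLap h x)) := by
    refine tendsto_integral_filter_of_dominated_convergence (fun x => Cg * (|A x| * Liouville.wt x))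
      (hev.mono fun m hm => hA.mul (measurable_Gop hc (inv_pos.2 (lt_of_lt_of_le one_pos
        ((le_max_right _ _).trans hm))) _).aestronglyMeasurable)
      (hev.mono fun m hm => Eventually.of_forall fun x => ?_) (hAi.const_mul Cg)
      (Eventually.of_forall fun x => (tendsto_Gop hn ht x).const_mul (A x))
    have hm1 : (1:ℝ) ≤ m := (le_max_right _ _).trans hm
    rw [norm_mul, Real.norm_eq_abs, Real.norm_eq_abs]
    calc |A x| * |Gop h m ((m : ℝ)⁻¹) x| ≤ |A x| * (Cg * Liouville.wt x) :=
          mul_le_mul_of_nonneg_left (hCg _ _ (((le_max_right _ _).trans (le_max_left _ _)).trans hm)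
            (by positivity) (inv_le_one_of_one_le₀ hm1) x) (abs_nonneg _)
      _ = _ := by ring
  have hz : Tendsto (fun m : ℕ => Q * (1 / Real.sqrt m + Real.sqrt ((m : ℝ)⁻¹))) atTop (𝓝 0) := by
    have h1 : Tendsto (fun m : ℕ => Real.sqrt ((m : ℝ)⁻¹)) atTop (𝓝 0) := by
      simpa [Function.comp_def] using (Real.continuous_sqrt.tendsto 0).comp
        (tendsto_inv_atTop_nhds_zero_nat (𝕜 := ℝ))
    have h2 := ((h1.add h1).const_mul Q)
    simp only [add_zero, mul_zero] at h2
    refine h2.congr fun m => ?_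
    rw [Real.sqrt_inv, one_div]
  refine tendsto_nhds_unique hlim (squeeze_zero_norm' ?_ hz)
  filter_upwards [hev] with m hm
  have hm1 : (1:ℝ) ≤ m := (le_max_right _ _).trans hm
  exact hb _ _ (((le_max_left _ _).trans (le_max_left _ _)).trans hm) (by positivity)
    (inv_le_one_of_one_le₀ hm1)

end Vale.Agent.P120.Improve
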