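import Mathlib
import Vale.Agent.P120.Improve.Calc

/-!
Splitting of the scalar pairing kernel into a continuous far part and a small near part.
-/

noncomputable section

open MeasureTheory Metric Set Filter Topology
open scoped ENNReal NNReal RealInnerProductSpace

namespace Vale.Agent.P120.Improve

variable {n d : ℕ}

/-- the continuous far kernel of a test function -/
def pk (n : ℕ) (L r : ℝ) (φ : Spc d → ℝ) (p : Spc d × Spc d) : ℝ :=
  cut 0 L p.1 * cut 0 L p.2 * (φ p.1 - φ p.2) * kr n r (p.1 - p.2)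

lemma pk_swap (L r : ℝ) (φ : Spc d → ℝ) (p : Spc d × Spc d) :
    pk n L r φ p.swap = -pk n L r φ p := by
  simp only [pk, Prod.fst_swap, Prod.snd_swap, kr_sub_comm r p.2 p.1]; ring

lemma continuous_pk {L r : ℝ} (hr : 0 < r) {φ : Spc d → ℝ} (hφ : Continuous φ) :
    Continuous (pk n L r φ) := by
  have := continuous_kr (n := n) (d := d) hr
  unfold pk; fun_prop

lemma pk_eq_zero {L r : ℝ} (hL : 0 < L) (φ : Spc d → ℝ) {p : Spc d × Spc d}
    (hp : p ∉ closedBall (0 : Spc d) (2 * L) ×ˢ closedBall (0 : Spc d) (2 * L)) :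
    pk n L r φ p = 0 := by
  rw [mem_prod, not_and_or] at hp
  rcases hp with hp | hp <;>
    simp [pk, cut_eq_zero hL (le_of_lt (not_le.1 fun h => hp (mem_closedBall.2 h)))]

lemma hasCompactSupport_pk {L r : ℝ} (hL : 0 < L) (φ : Spc d → ℝ) :
    HasCompactSupport (pk n L r φ) :=
  HasCompactSupport.intro ((isCompact_closedBall _ _).prod (isCompact_closedBall _ _))
    fun _ hp => pk_eq_zero hL φ hp

/-- the near remainder -/
def nearF (n : ℕ) (L r : ℝ) (u : Spc d) (b : ℝ) (φ : Spc d → ℝ) (p : Spc d × Spc d) : ℝ :=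
  cut 0 L p.1 * cut 0 L p.2 * (φ p.1 - φ p.2) * (aff u b p.1 - aff u b p.2) *
    (ker n (p.1 - p.2) - kr n r (p.1 - p.2))

variable {C D : ℝ} {μ : Measure (Spc d)} [IsLocallyFiniteMeasure μ] {u : Spc d} {b : ℝ}

lemma inner_pairW_split (hn : 1 ≤ n) (h : UpperReg n C μ) (u : Spc d) (b : ℝ) {φ : Spc d → ℝ}
    {Kφ : ℝ≥0} (hφ : LipschitzWith Kφ φ) {L r : ℝ} (hL : 0 < L) (hr : 0 < r) :
    ⟪u, pairW n μ (cut 0 L) φ⟫ = (∫ x, aff u b x * ∫ y, pk n L r φ (x, y) ∂μ ∂μ)
      + (1/2 : ℝ) * ∫ p, nearF n L r u b φ p ∂(μ.prod μ) := by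
  have hint : Integrable (fun p : Spc d × Spc d =>
      (cut 0 L p.1 * cut 0 L p.2 * (φ p.1 - φ p.2)) • riesz n (p.1 - p.2)) (μ.prod μ) := by
    refine integrable_pairKernel h hn hφ (W := fun p => cut 0 L p.1 * cut 0 L p.2)
      (by fun_prop) (a := 0) (show 0 < 2 * L by positivity) (fun p hp => ?_) (B := 1) (fun p => ?_)
    · rw [mem_prod, not_and_or] at hp
      rcases hp with hp | hp <;>
        simp [cut_eq_zero hL (le_of_lt (not_le.1 fun h => hp (mem_closedBall.2 h)))]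
    · rw [abs_of_nonneg (mul_nonneg (cut_nonneg _ _ _) (cut_nonneg _ _ _))]
      exact mul_le_one₀ (cut_le_one _ _ _) (cut_nonneg _ _ _) (cut_le_one _ _ _)
  set Fk : Spc d × Spc d → ℝ := fun p => aff u b p.1 * pk n L r φ p
  have hk := continuous_pk (n := n) (L := L) hr hφ.continuous
  have i1 : Integrable Fk (μ.prod μ) :=
    (by fun_prop : Continuous Fk).integrable_of_hasCompactSupport (hasCompactSupport_pk hL φ).mul_left
  have i2 : Integrable (fun p => Fk p.swap) (μ.prod μ) := i1.swap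
  have hpt : ∀ p : Spc d × Spc d,
      ⟪u, (cut 0 L p.1 * cut 0 L p.2 * (φ p.1 - φ p.2)) • riesz n (p.1 - p.2)⟫ =
        Fk p + Fk p.swap + nearF n L r u b φ p := by
    intro p
    simp only [inner_smul_riesz u b, Fk]
    rw [pk_swap]
    simp only [Prod.fst_swap, nearF, pk]
    ring
  have i12 : Integrable (fun p => Fk p + Fk p.swap) (μ.prod μ) := i1.add i2
  have i3 : Integrable (nearF n L r u b φ) (μ.prod μ) :=
    ((hint.const_inner u).sub i12).congr (Eventually.of_forall fun p => by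
      simp only [Pi.sub_apply, hpt p]; ring)
  simp only [pairW, real_inner_smul_right]
  rw [← integral_inner hint, integral_congr_ae (Eventually.of_forall hpt),
    integral_add i12 i3, integral_add i1 i2, integral_prod_swap, mul_add, integral_prod _ i1]
  simp only [Fk, integral_const_mul]
  ring

/-- the near part is of order `N √r` -/
lemma near_le (hn : 1 ≤ n) (hreg : Reg n C D μ) {N : ℝ} (hN : 0 < N) (u : Spc d) (b : ℝ)
    {φ : Spc d → ℝ} {Kφ : ℝ≥0} (hφ : LipschitzWith Kφ φ) {ρ S : ℝ} (hρ : 0 ≤ ρ) (hS : ρ + 2 ≤ S)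
    (hφs : tsupport φ ⊆ closedBall 0 ρ) {Q1 : ℝ} (hQ1 : 0 ≤ Q1)
    (hE : En n μ (fun y => cut 0 S y * aff u b y) ≤ ENNReal.ofReal (Q1 * N ^ 2))
    (L : ℝ) {r : ℝ} (hr : 0 < r) (hr1 : r ≤ 1) :
    |∫ p, nearF n L r u b φ p ∂(μ.prod μ)| ≤
      ((Kφ : ℝ) ^ 2 * (C * 2 ^ n * S ^ n * (2 ^ n * C * 3)) + Q1) / 2 * N * Real.sqrt r := by
  have hC := hreg.nonneg
  have hS0 : 0 < S := by linarith
  set p0 := N / Real.sqrt r
  have hsr : 0 < Real.sqrt r := Real.sqrt_pos.2 hr
  have hp0 : 0 < p0 := div_pos hN hsr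
  set w : Spc d → ℝ := fun y => cut 0 S y * aff u b y
  set E : Set (Spc d × Spc d) := {p | p.1 ∈ closedBall 0 S ∧ dist p.2 p.1 < 3 * r}
  have hEm : MeasurableSet E := (measurable_fst measurableSet_closedBall).inter
    (measurableSet_lt (measurable_snd.dist measurable_fst) measurable_const)
  set P1 : Spc d × Spc d → ℝ≥0∞ := E.indicator fun p =>
    ENNReal.ofReal (((dist p.2 p.1) ^ (n - 1))⁻¹)
  set P2 : Spc d × Spc d → ℝ≥0∞ := fun p =>
    ENNReal.ofReal ((w p.1 - w p.2) ^ 2 / ‖p.1 - p.2‖ ^ (n + 1))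
  have hpt : ∀ p, ‖nearF n L r u b φ p‖ₑ ≤
      ENNReal.ofReal (p0 / 2 * (Kφ : ℝ) ^ 2) * P1 p + ENNReal.ofReal (1 / (2 * p0)) * P2 p := by
    intro p
    by_cases hp : nearF n L r u b φ p = 0
    · simp [hp]
    simp only [nearF, mul_eq_zero, not_or] at hp
    obtain ⟨⟨⟨-, hφne⟩, -⟩, hk⟩ := hp
    have hd : ‖p.1 - p.2‖ < 2 * r := by
      refine lt_of_not_ge fun hh => hk ?_
      rw [kr_eq_ker hr hh, sub_self]
    have hd0 : 0 < ‖p.1 - p.2‖ := by
      refine norm_pos_iff.2 fun hh => hφne ?_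
      rw [sub_eq_zero.1 hh, sub_self]
    have hor : ‖p.1‖ ≤ ρ ∨ ‖p.2‖ ≤ ρ := by
      by_contra hh
      push Not at hh
      have z : ∀ x : Spc d, ρ < ‖x‖ → φ x = 0 := fun x hx =>
        image_eq_zero_of_notMem_tsupport fun hm => by
          have := mem_closedBall.1 (hφs hm)
          rw [dist_zero_right] at this; linarith
      exact hφne (by rw [z _ hh.1, z _ hh.2, sub_self])
    have hb : ‖p.1‖ ≤ S ∧ ‖p.2‖ ≤ S := by
      have h1 := norm_sub_norm_le p.1 p.2
      have h2 := norm_sub_norm_le p.2 p.1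
      rw [norm_sub_rev p.2 p.1] at h2
      rcases hor with hh | hh <;> constructor <;> linarith
    have hw : aff u b p.1 - aff u b p.2 = w p.1 - w p.2 := by
      simp only [w]
      rw [cut_eq_one hS0 (by rw [dist_zero_right]; exact hb.1),
        cut_eq_one hS0 (by rw [dist_zero_right]; exact hb.2), one_mul, one_mul]
    have hpE : p ∈ E := ⟨by simpa using hb.1, by rw [dist_comm, dist_eq_norm]; linarith⟩
    simp only [P1, P2]
    rw [indicator_of_mem hpE, ← ENNReal.ofReal_mul (by positivity),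
      ← ENNReal.ofReal_mul (by positivity), ← ENNReal.ofReal_add (by positivity) (by positivity),
      Real.enorm_eq_ofReal_abs]
    refine ENNReal.ofReal_le_ofReal ?_
    obtain ⟨hk0, hk1⟩ := kr_bounds (n := n) r (p.1 - p.2)
    set a := φ p.1 - φ p.2
    set c := w p.1 - w p.2
    set dd := ‖p.1 - p.2‖ with hdd
    have hkk : |ker n (p.1 - p.2) - kr n r (p.1 - p.2)| ≤ (dd ^ (n + 1))⁻¹ := by
      have : ker n (p.1 - p.2) = (dd ^ (n + 1))⁻¹ := rfl
      rw [abs_of_nonneg (by linarith)]; linarith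
    have hcc : |cut 0 L p.1 * cut 0 L p.2| ≤ 1 := by
      rw [abs_mul]; exact mul_le_one₀ (abs_cut_le_one _ _ _) (abs_nonneg _) (abs_cut_le_one _ _ _)
    have hac : |a * c| ≤ p0 / 2 * a ^ 2 + 1 / (2 * p0) * c ^ 2 := by
      rw [abs_mul, ← sq_abs a, ← sq_abs c]
      have := sq_nonneg (p0 * |a| - |c|)
      rw [show p0 / 2 * |a| ^ 2 + 1 / (2 * p0) * |c| ^ 2 = (p0 ^ 2 * |a| ^ 2 + |c| ^ 2) / (2 * p0) by
        field_simp, le_div_iff₀ (by positivity)]
      nlinarith
    have ha : |a| ≤ Kφ * dd := by simpa [Real.dist_eq, dist_eq_norm] using hφ.dist_le_mul p.1 p.2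
    have hd1 : (Kφ : ℝ) ^ 2 * ((dist p.2 p.1) ^ (n - 1))⁻¹ = (Kφ * dd) ^ 2 * (dd ^ (n + 1))⁻¹ := by
      rw [dist_comm, dist_eq_norm, ← hdd, show n + 1 = (n - 1) + 2 by omega, pow_add, mul_pow]
      field_simp
    calc |nearF n L r u b φ p|
        = |cut 0 L p.1 * cut 0 L p.2| * |a * c| * |ker n (p.1 - p.2) - kr n r (p.1 - p.2)| := by
          rw [nearF, hw, ← abs_mul, ← abs_mul]; congr 1; ring
      _ ≤ 1 * (p0 / 2 * a ^ 2 + 1 / (2 * p0) * c ^ 2) * (dd ^ (n + 1))⁻¹ := by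
          gcongr
      _ ≤ 1 * (p0 / 2 * (Kφ * dd) ^ 2 + 1 / (2 * p0) * c ^ 2) * (dd ^ (n + 1))⁻¹ := by
          have : a ^ 2 ≤ (Kφ * dd) ^ 2 := by rw [← sq_abs a]; exact pow_le_pow_left₀ (abs_nonneg _) ha 2
          gcongr
      _ = _ := by rw [mul_assoc (p0 / 2), hd1]; ring
  have hP1m : Measurable P1 := Measurable.indicator (by fun_prop) hEm
  have hP1 : ∫⁻ p, P1 p ∂(μ.prod μ) ≤ ENNReal.ofReal (C * 2 ^ n * S ^ n * (2 ^ n * C * (3 * r))) := by
    rw [lintegral_prod _ hP1m.aemeasurable]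
    calc ∫⁻ x, ∫⁻ y, P1 (x, y) ∂μ ∂μ
        ≤ ∫⁻ x, (closedBall (0 : Spc d) S).indicator
            (fun _ => ENNReal.ofReal (2 ^ n * C * (3 * r))) x ∂μ := by
          refine lintegral_mono fun x => ?_
          by_cases hx : x ∈ closedBall (0 : Spc d) S
          · rw [indicator_of_mem hx]
            refine le_trans (le_of_eq ?_) (hreg.upper.lintegral_near hn x (show 0 < 3 * r by linarith))
            rw [← lintegral_indicator measurableSet_ball]
            refine lintegral_congr fun y => ?_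
            by_cases hy : y ∈ ball x (3 * r)
            · rw [indicator_of_mem hy]; simp only [P1]
              rw [indicator_of_mem (show (x, y) ∈ E from ⟨hx, hy⟩)]
            · rw [indicator_of_notMem hy]; simp only [P1]
              rw [indicator_of_notMem (show (x, y) ∉ E from fun hh => hy hh.2)]
          · rw [indicator_of_notMem hx]
            refine le_of_eq ((lintegral_congr fun y => ?_).trans lintegral_zero)
            simp only [P1]
            rw [indicator_of_notMem (show (x, y) ∉ E from fun hh => hx hh.1)]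
      _ ≤ _ := by
          rw [lintegral_indicator_const measurableSet_closedBall, mul_comm,
            ENNReal.ofReal_mul (p := C * 2 ^ n * S ^ n) (by positivity)]
          exact mul_le_mul' (hreg.upper.closedBall_le 0 hS0) le_rfl
  have hP2 : ∫⁻ p, P2 p ∂(μ.prod μ) ≤ ENNReal.ofReal (Q1 * N ^ 2) := hE
  set Z := C * 2 ^ n * S ^ n * (2 ^ n * C * 3)
  have hbound : ∫⁻ p, ‖nearF n L r u b φ p‖ₑ ∂(μ.prod μ) ≤
      ENNReal.ofReal (((Kφ : ℝ) ^ 2 * Z + Q1) / 2 * N * Real.sqrt r) := by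
    refine (lintegral_mono hpt).trans ?_
    rw [lintegral_add_left (hP1m.const_mul _), lintegral_const_mul _ hP1m,
      lintegral_const_mul' _ _ ENNReal.ofReal_ne_top]
    refine (add_le_add (mul_le_mul' le_rfl hP1) (mul_le_mul' le_rfl hP2)).trans (le_of_eq ?_)
    rw [← ENNReal.ofReal_mul (by positivity), ← ENNReal.ofReal_mul (by positivity),
      ← ENNReal.ofReal_add (by positivity) (by positivity)]
    congr 1
    have hs2 : Real.sqrt r ^ 2 = r := Real.sq_sqrt hr.le
    simp only [p0, Z]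
    field_simp
    rw [hs2]
    ring
  have h1 : |∫ p, nearF n L r u b φ p ∂(μ.prod μ)| ≤
      (∫⁻ p, ‖nearF n L r u b φ p‖ₑ ∂(μ.prod μ)).toReal := by
    simpa [ofReal_norm, Real.enorm_eq_ofReal_abs] using
      norm_integral_le_lintegral_norm (μ := μ.prod μ) (nearF n L r u b φ)
  exact h1.trans (ENNReal.toReal_le_of_le_ofReal (by positivity) hbound)

end Vale.Agent.P120.Improve
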