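import Mathlib
import Vale.Agent.P120.Improve.Blow
import Vale.Agent.P120.Improve.Pair
import Vale.Agent.P120.Improve.FarLimit

/-!
The limiting equation for a normalised deviation coordinate, and its consequence by Liouville.
-/

noncomputable section

open MeasureTheory Metric Set Filter Topology
open scoped ENNReal NNReal RealInnerProductSpace

namespace Vale.Agent.P120.Improve

variable {n d : ℕ}

/-- the normal part of `e` with respect to the frame of `L` -/
def uVec (L : Plane n d) (e : Spc d) : Spc d := e - ∑ i, ⟪L.frame i, e⟫ • L.frame i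

lemma norm_uVec_le (L : Plane n d) (e : Spc d) : ‖uVec L e‖ ≤ ‖e‖ := by
  have h := norm_dev_le (⟨0, L.frame, L.orth⟩ : Plane n d) e (p := 0) ⟨0, by simp [Plane.param]⟩
  simpa [uVec, Plane.dev] using h

/-- the offset of the coordinate -/
def bOff (L : Plane n d) (e : Spc d) : ℝ := ⟪uVec L e, L.base⟫

lemma aff_uVec (L : Plane n d) (e y : Spc d) :
    aff (uVec L e) (bOff L e) y = ⟪e, L.dev y⟫ := by
  rw [aff, bOff, ← inner_sub_right, uVec, Plane.dev, inner_sub_left,
    inner_sub_right e (y - L.base), sum_inner, inner_sum]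
  congr 1
  refine Finset.sum_congr rfl fun i _ => ?_
  rw [real_inner_smul_left, real_inner_smul_right, real_inner_comm (L.frame i) e]
  ring

/-- a blow-up sequence with its limit plane -/
structure BlowLim (n : ℕ) (C C' K : ℝ) (μ : ℕ → Measure (Spc d)) (D M δ N : ℕ → ℝ)
    (L : ℕ → Plane n d) (U : Ultrafilter ℕ) (ν : Measure (Spc d)) (P : Plane n d) (θ : ℝ) :
    Prop where
  le_top : (U : Filter ℕ) ≤ atTop
  blow : Blow n C K μ D M δ N L
  K_nonneg : 0 ≤ K
  regTop : RegTop n C' ν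
  mem : (0 : Spc d) ∈ ν.support
  lim : IsLimit n U μ ν
  base : P.base = 0
  conv_base : Tendsto (fun j => (L j).base) U (𝓝 P.base)
  conv_frame : ∀ i, Tendsto (fun j => (L j).frame i) U (𝓝 (P.frame i))
  θ_pos : 0 < θ
  ν_eq : ν = ENNReal.ofReal θ • Measure.map P.param volume

variable {C C' K θ : ℝ} {μ : ℕ → Measure (Spc d)} {D M δ N : ℕ → ℝ} {L : ℕ → Plane n d}
  {U : Ultrafilter ℕ} {ν : Measure (Spc d)} {P : Plane n d}

lemma BlowLim.sqGrowth (h : BlowLim n C C' K μ D M δ N L U ν P θ) {e : Spc d} (he : ‖e‖ ≤ 1)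
    (j : ℕ) : SqGrowth n K (N j) (μ j) (aff (uVec (L j) e) (bOff (L j) e)) := by
  intro x hx
  have := h.blow.lf j
  refine le_trans ?_ (h.blow.growth j x hx)
  refine setIntegral_mono_on
    (((continuous_aff _ _).pow 2).continuousOn.integrableOn_compact (isCompact_closedBall _ x))
    (((continuous_dev _).norm.pow 2).continuousOn.integrableOn_compact (isCompact_closedBall _ x))
    measurableSet_closedBall fun y _ => ?_
  rw [aff_uVec, ← sq_abs]
  exact pow_le_pow_left₀ (abs_nonneg _) ((abs_real_inner_le_norm _ _).trans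
    (mul_le_of_le_one_left (norm_nonneg _) he)) 2

lemma norm_param_of_base {P : Plane n d} (hP : P.base = 0) (x : Spc n) : ‖P.param x‖ = ‖x‖ := by
  rw [param_eq, hP, zero_add, norm_lin]

lemma cut_param_of_base {P : Plane n d} (hP : P.base = 0) (R : ℝ) (x : Spc n) :
    cut (0 : Spc d) R (P.param x) = cut 0 R x := by
  simp only [cut, dist_zero_right, norm_param_of_base hP]

lemma kr_param (P : Plane n d) (r : ℝ) (x z : Spc n) :
    kr n r (P.param x - P.param z) = kr n r (x - z) := by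
  have : ‖P.param x - P.param z‖ = ‖x - z‖ := by
    rw [param_eq, param_eq, add_sub_add_left_eq_sub, ← map_sub, norm_lin]
  simp only [kr, ker, this]

/-- extension of a test function from the plane -/
def ext (P : Plane n d) (h : Spc n → ℝ) (R : ℝ) (y : Spc d) : ℝ := h (P.coord y) * cut 0 R y

lemma ext_spec {h : Spc n → ℝ} {R Lp B : ℝ} (ht : FlatAux.Test h R Lp B) {P : Plane n d}
    (hP : P.base = 0) :
    LipschitzWith (Real.toNNReal (2 * B)) (ext P h R) ∧
      tsupport (ext P h R) ⊆ closedBall 0 (2 * R) ∧ (∀ y, |ext P h R y| ≤ B) ∧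
      ∀ x, ext P h R (P.param x) = h x := by
  have hR := ht.one_le
  have hB := ht.B_nonneg
  have hhl : ∀ a b, |h a - h b| ≤ B * ‖a - b‖ := fun a b => by
    rw [← Real.norm_eq_abs]
    exact Convex.norm_image_sub_le_of_norm_fderiv_le (fun p _ => ht.diff p) (fun p _ => (ht.bd p).2)
      convex_univ (mem_univ b) (mem_univ a)
  refine ⟨LipschitzWith.of_dist_le_mul fun a b => ?_, ?_, fun y => ?_, fun x => ?_⟩
  · rw [Real.coe_toNNReal _ (by linarith), Real.dist_eq, dist_eq_norm]
    simp only [ext]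
    have h1 : |h (P.coord a) - h (P.coord b)| ≤ B * ‖a - b‖ :=
      (hhl _ _).trans (mul_le_mul_of_nonneg_left (norm_coord_sub_le P a b) hB)
    have h2 : |cut (0 : Spc d) R a - cut 0 R b| ≤ 1 * ‖a - b‖ := by
      have := (lipschitz_cut (0 : Spc d) (show 0 < R by linarith)).dist_le_mul a b
      rw [Real.coe_toNNReal _ (by positivity), Real.dist_eq, dist_eq_norm] at this
      exact this.trans (mul_le_mul_of_nonneg_right (inv_le_one_of_one_le₀ hR) (norm_nonneg _))
    calc |h (P.coord a) * cut 0 R a - h (P.coord b) * cut 0 R b|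
        = |(h (P.coord a) - h (P.coord b)) * cut 0 R a
            + h (P.coord b) * (cut 0 R a - cut 0 R b)| := by ring_nf
      _ ≤ |h (P.coord a) - h (P.coord b)| * |cut 0 R a|
            + |h (P.coord b)| * |cut 0 R a - cut 0 R b| := by
          rw [← abs_mul, ← abs_mul]; exact abs_add_le _ _
      _ ≤ B * ‖a - b‖ * 1 + B * (1 * ‖a - b‖) := by
          gcongr
          · exact abs_cut_le_one _ _ _
          · exact (ht.bd _).1
      _ = 2 * B * ‖a - b‖ := by ring
  · exact (tsupport_mul_subset_right).trans (tsupport_cut 0 (by linarith))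
  · rw [ext, abs_mul]
    exact (mul_le_of_le_one_right (abs_nonneg _) (abs_cut_le_one _ _ _)).trans (ht.bd _).1
  · rw [ext, coord_param, cut_param_of_base hP]
    by_cases hx : h x = 0
    · simp [hx]
    · rw [cut_eq_one (by linarith) (by
        rw [dist_zero_right]; exact (lt_of_not_ge fun hh => hx (ht.out x hh).1).le), mul_one]

lemma pk_sub (L0 r c : ℝ) (f g : Spc d → ℝ) (p : Spc d × Spc d) :
    pk n L0 r (fun y => f y - c * g y) p = pk n L0 r f p - c * pk n L0 r g p := by
  simp only [pk]; ring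

lemma BlowLim.far (h : BlowLim n C C' K μ D M δ N L U ν P θ) [IsLocallyFiniteMeasure ν]
    {e : Spc d} (he : ‖e‖ ≤ 1) {A : Spc n → ℝ}
    (hweak : ∀ ψ : Spc d → ℝ, Continuous ψ → HasCompactSupport ψ →
      Tendsto (fun j => ∫ y, ψ y * (aff (uVec (L j) e) (bOff (L j) e) y / N j) ∂(μ j)) U
        (𝓝 (θ * ∫ x, ψ (P.param x) * A x)))
    {g : Spc n → ℝ} {R Lp B : ℝ} (ht : FlatAux.Test g R Lp B)
    (hc : Tendsto (fun j => (∫ x, ext P g R x ∂(μ j)) / ∫ x, cut 0 1 x ∂(μ j)) U (𝓝 0))
    {L0 r : ℝ} (hL : 1 ≤ L0) (hr : 0 < r) :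
    Tendsto (fun j => (∫ x, aff (uVec (L j) e) (bOff (L j) e) x *
        ∫ y, pk n L0 r (corr (μ j) (ext P g R)) (x, y) ∂(μ j) ∂(μ j)) / N j) U
      (𝓝 (θ ^ 2 * ∫ x, A x * Gop g L0 r x)) := by
  set H := ext P g R
  have hH : Continuous H := (ext_spec ht h.base).1.continuous
  have hL0 : 0 < L0 := by linarith
  have main : ∀ F : Spc d → ℝ, Continuous F →
      Tendsto (fun j => ∫ x, aff (uVec (L j) e) (bOff (L j) e) x / N j *
        ∫ y, pk n L0 r F (x, y) ∂(μ j) ∂(μ j)) U
        (𝓝 (θ * ∫ x, (∫ y, pk n L0 r F (P.param x, y) ∂ν) * A x)) := by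
    intro F hF
    refine far_limit h.blow.lf h.blow.reg h.blow.N_pos (h.sqGrowth he) h.lim hweak
      (continuous_pk hr hF) (show 1 ≤ 2 * L0 by linarith) (fun x y hx => pk_eq_zero hL0 F ?_)
      (fun x y hy => pk_eq_zero hL0 F ?_)
    · simp [not_le.2 hx]
    · simp [not_le.2 hy]
  have h1 := (main H hH).sub (hc.mul (main _ (continuous_cut 0 1)))
  rw [zero_mul, sub_zero] at h1
  have e0 : θ * ∫ x, (∫ y, pk n L0 r H (P.param x, y) ∂ν) * A x
      = θ ^ 2 * ∫ x, A x * Gop g L0 r x := by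
    rw [pow_two, mul_assoc]
    congr 1
    rw [← integral_const_mul]
    refine integral_congr_ae (Eventually.of_forall fun x => ?_)
    have hm : Measurable fun y : Spc d => pk n L0 r H (P.param x, y) :=
      ((continuous_pk hr hH).comp (continuous_const.prodMk continuous_id)).measurable
    simp only
    rw [h.ν_eq, integral_smul_measure, integral_map (continuous_param P).aemeasurable
      hm.aestronglyMeasurable, ENNReal.toReal_ofReal h.θ_pos.le, smul_eq_mul, mul_right_comm,
      mul_assoc]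
    congr 2
    simp only [Gop, pk]
    refine integral_congr_ae (Eventually.of_forall fun z => ?_)
    simp only [cut_param_of_base h.base, kr_param, H, (ext_spec ht h.base).2.2.2]
  rw [e0] at h1
  refine h1.congr' (Eventually.of_forall fun j => ?_)
  have := h.blow.lf j
  set c := (∫ x, H x ∂(μ j)) / ∫ x, cut 0 1 x ∂(μ j)
  set a := fun x => aff (uVec (L j) e) (bOff (L j) e) x
  have hint : ∀ F : Spc d → ℝ, Continuous F → ∀ x,
      Integrable (fun y => pk n L0 r F (x, y)) (μ j) := fun F hF x =>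
    ((continuous_pk hr hF).comp (continuous_const.prodMk continuous_id)).integrable_of_hasCompactSupport
      (HasCompactSupport.intro (isCompact_closedBall (0 : Spc d) (2 * L0)) fun y hy =>
        pk_eq_zero hL0 F (fun hh => hy hh.2))
  have hpot : ∀ F : Spc d → ℝ, Continuous F →
      Integrable (fun x => a x / N j * ∫ y, pk n L0 r F (x, y) ∂(μ j)) (μ j) := by
    intro F hF
    have hcont : Continuous fun x => ∫ y, pk n L0 r F (x, y) ∂(μ j) :=
      continuous_potential (continuous_pk hr hF) (X := 2 * L0) fun x y hy =>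
        pk_eq_zero hL0 F (by simp [not_le.2 hy])
    refine (by fun_prop : Continuous _).integrable_of_hasCompactSupport ?_
    refine HasCompactSupport.intro (isCompact_closedBall (0 : Spc d) (2 * L0)) fun x hx => ?_
    have : ∀ y, pk n L0 r F (x, y) = 0 := fun y => pk_eq_zero hL0 F fun hh => hx hh.1
    simp [this]
  rw [← integral_const_mul, ← integral_sub (hpot H hH) ((hpot _ (continuous_cut 0 1)).const_mul c)]
  simp only
  rw [← integral_div]
  refine integral_congr_ae (Eventually.of_forall fun x => ?_)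
  have e1 : ∫ y, pk n L0 r (corr (μ j) H) (x, y) ∂(μ j) =
      (∫ y, pk n L0 r H (x, y) ∂(μ j)) - c * ∫ y, pk n L0 r (cut 0 1) (x, y) ∂(μ j) := by
    rw [← integral_const_mul, ← integral_sub (hint H hH x) ((hint _ (continuous_cut 0 1) x).const_mul c)]
    exact integral_congr_ae (Eventually.of_forall fun y => pk_sub L0 r c H (cut 0 1) (x, y))
  simp only [e1, a]
  ring

/-- the weak limit of a normalised coordinate solves the homogeneous equation -/
lemma BlowLim.equation (hE : EnergyStmt) (hn : 1 ≤ n) (hnd : n < d)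
    (h : BlowLim n C C' K μ D M δ N L U ν P θ) [IsLocallyFiniteMeasure ν]
    {e : Spc d} (he : ‖e‖ ≤ 1) {A : Spc n → ℝ} (hA : AEStronglyMeasurable A volume)
    (hAi : Integrable fun x => |A x| * Liouville.wt x)
    (hweak : ∀ ψ : Spc d → ℝ, Continuous ψ → HasCompactSupport ψ →
      Tendsto (fun j => ∫ y, ψ y * (aff (uVec (L j) e) (bOff (L j) e) y / N j) ∂(μ j)) U
        (𝓝 (θ * ∫ x, ψ (P.param x) * A x)))
    {g : Spc n → ℝ} {R Lp B : ℝ} (ht : FlatAux.Test g R Lp B) (hmean : ∫ x, g x = 0) :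
    ∫ x, A x * fracLap g x = 0 := by
  have hR := ht.one_le
  have hB := ht.B_nonneg
  set H := ext P g R
  obtain ⟨hHl, hHs, hHb, hHp⟩ := ext_spec ht h.base
  have hHm : ∫ y, H y ∂ν = 0 := by
    rw [h.ν_eq, integral_smul_measure, integral_map (continuous_param P).aemeasurable
      hHl.continuous.aestronglyMeasurable]
    simp only [hHp, hmean, smul_zero]
  have hHadm : Adm ν 0 (2 * R) H := ⟨⟨_, hHl⟩, hHs, hHm⟩
  obtain ⟨hc, hcorr, -⟩ := h.blow.corr_spec h.le_top h.regTop h.mem h.lim hHl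
    (show 2 ≤ 2 * R by linarith) hHadm
  obtain ⟨A0, hA0, hpb⟩ := h.blow.pairing_bound h.le_top hn (show 0 < 2 * R by linarith) hcorr
  obtain ⟨Qt, hQt, htail⟩ := tail_le (n := n) (d := d) hn C K (show 1 ≤ 2 * R by linarith)
  set S := 2 * R + 2 with hS
  obtain ⟨Qe, hQe, hen⟩ := energy_le hE hn hnd C K (show 1 ≤ S by linarith)
  set Z := (((Real.toNNReal (2 * B) + 1 : ℝ≥0) : ℝ) ^ 2 *
    (C * 2 ^ n * S ^ n * (2 ^ n * C * 3)) + Qe) / 2
  set Q := max ((B + 1) * Qt) (1/2 * Z) / θ ^ 2
  refine integral_fracLap_eq_zero_of_bound hn ht hmean hA hAi (L0 := 4 * R) (Q := Q)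
    fun L0 r hL hr hr1 => ?_
  have hlimT := (h.far he hweak ht hc (show 1 ≤ L0 by linarith) hr).abs
  have hsd : Tendsto (fun j => Real.sqrt (δ j / N j ^ 2 * A0) + ((B + 1) * Qt / Real.sqrt L0
      + 1/2 * Z * Real.sqrt r)) U (𝓝 ((B + 1) * Qt / Real.sqrt L0 + 1/2 * Z * Real.sqrt r)) := by
    have := (((Real.continuous_sqrt.tendsto _).comp ((h.blow.δ_small.mul_const A0).mono_left
      h.le_top))).add_const ((B + 1) * Qt / Real.sqrt L0 + 1/2 * Z * Real.sqrt r)
    simpa using this
  have key : |θ ^ 2 * ∫ x, A x * Gop g L0 r x| ≤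
      (B + 1) * Qt / Real.sqrt L0 + 1/2 * Z * Real.sqrt r := by
    refine le_of_tendsto_of_tendsto hlimT hsd ?_
    have hδN : ∀ᶠ j in atTop, δ j ≤ N j ^ 2 := by
      filter_upwards [h.blow.δ_small.eventually (ge_mem_nhds (zero_lt_one' ℝ))] with j hj
      rwa [div_le_one (by have := h.blow.N_pos j; positivity)] at hj
    filter_upwards [hpb, hcorr, (hc.abs).eventually (ge_mem_nhds (show |(0:ℝ)| < 1 by simp)),
      Blow.eventually_D h.le_top h.blow S,
      h.le_top (h.blow.M_top.eventually (eventually_ge_atTop (2 * S))), h.le_top hδN]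
      with j hj1 hj2 hj3 hD hM hd
    have := h.blow.lf j
    set u := uVec (L j) e
    set b := bOff (L j) e
    set φ := corr (μ j) H
    have hu : ‖u‖ ≤ 1 := (norm_uVec_le _ _).trans he
    have hN := h.blow.N_pos j
    have hφb : ∀ x, |φ x| ≤ B + 1 := fun x => by
      refine (abs_sub _ _).trans (add_le_add (hHb x) ?_)
      rw [abs_mul]
      exact mul_le_one₀ hj3 (abs_nonneg _) (abs_cut_le_one _ _ _)
    have ht1 := htail (μ j) (D j) (N j) u b (h.blow.reg j) hN (h.sqGrowth he j) φ (B + 1) hj2.1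
      hφb L0 (by linarith)
    have he1 := hen (μ j) (D j) (N j) (M j) (δ j) u b (h.blow.reg j) (h.blow.mem j) hD hM hN hu
      (h.sqGrowth he j) (h.blow.osc j) (h.blow.δ_nonneg j) hd
    have hn1 := near_le hn (h.blow.reg j) hN u b hj2.2 (show 0 ≤ 2 * R by linarith)
      (show 2 * R + 2 ≤ S from le_rfl) hj2.1.supp hQe he1 L0 hr hr1
    have hp1 : |⟪u, pairing n (μ j) φ⟫| ≤ N j * Real.sqrt (δ j / N j ^ 2 * A0) := by
      refine (abs_real_inner_le_norm _ _).trans ((mul_le_of_le_one_left (norm_nonneg _) hu).trans ?_)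
      have e2 : N j * Real.sqrt (δ j / N j ^ 2 * A0) = Real.sqrt (δ j * A0) := by
        rw [show δ j * A0 = N j ^ 2 * (δ j / N j ^ 2 * A0) by field_simp,
          Real.sqrt_mul (sq_nonneg _), Real.sqrt_sq hN.le]
      rw [e2]
      exact Real.le_sqrt_of_sq_le hj1.2
    have hs := inner_pairW_split hn (h.blow.reg j).upper u b hj2.2 (show 0 < L0 by linarith) hr
    rw [abs_div, abs_of_pos hN, div_le_iff₀ hN]
    set T := ∫ x, aff u b x * ∫ y, pk n L0 r φ (x, y) ∂(μ j) ∂(μ j)
    set W := ∫ p, nearF n L0 r u b φ p ∂((μ j).prod (μ j))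
    have hT : |T| ≤ N j * Real.sqrt (δ j / N j ^ 2 * A0) + N j * (B + 1) * Qt / Real.sqrt L0
        + 1/2 * (Z * N j * Real.sqrt r) := by
      have hn2 : |W| ≤ Z * N j * Real.sqrt r := hn1
      rw [show T = ⟪u, pairW n (μ j) (cut 0 L0) φ⟫ - 1/2 * W by linarith]
      have h3 := abs_sub ⟪u, pairW n (μ j) (cut 0 L0) φ⟫ (1/2 * W)
      rw [abs_mul, abs_of_pos (show (0:ℝ) < 1/2 by norm_num)] at h3
      have h4 := abs_sub_abs_le_abs_sub ⟪u, pairW n (μ j) (cut 0 L0) φ⟫ ⟪u, pairing n (μ j) φ⟫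
      rw [abs_sub_comm] at h4
      linarith
    refine hT.trans (le_of_eq ?_)
    ring
  rw [abs_mul, abs_of_pos (by have := h.θ_pos; positivity)] at key
  rw [mul_comm, ← le_div_iff₀ (by have := h.θ_pos; positivity)] at key
  refine key.trans ?_
  rw [show Q * (1 / Real.sqrt L0 + Real.sqrt r) =
    max ((B + 1) * Qt) (1/2 * Z) * (1 / Real.sqrt L0 + Real.sqrt r) / θ ^ 2 by simp only [Q]; ring]
  refine div_le_div_of_nonneg_right ?_ (sq_nonneg θ)
  rw [mul_add, mul_one_div]
  exact add_le_add (div_le_div_of_nonneg_right (le_max_left _ _) (Real.sqrt_nonneg _))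
    (mul_le_mul_of_nonneg_right (le_max_right _ _) (Real.sqrt_nonneg _))

/-- every normalised coordinate converges weakly to an affine function on the plane -/
theorem BlowLim.scalar_limit (hE : EnergyStmt) (hLi : LiouvilleStmt) (hn : 1 ≤ n) (hnd : n < d)
    (h : BlowLim n C C' K μ D M δ N L U ν P θ) [IsLocallyFiniteMeasure ν]
    {e : Spc d} (he : ‖e‖ ≤ 1) :
    ∃ (a : ℝ) (v : Spc n), ∀ ψ : Spc d → ℝ, Continuous ψ → HasCompactSupport ψ →
      Tendsto (fun j => ∫ y, ψ y * (aff (uVec (L j) e) (bOff (L j) e) y / N j) ∂(μ j)) U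
        (𝓝 (θ * ∫ x, ψ (P.param x) * (a + ⟪v, x⟫))) := by
  obtain ⟨A, C1, hA, hgr, -, hweak⟩ := weak_limit h.blow.lf h.blow.reg h.K_nonneg h.blow.N_pos
    (h.sqGrowth he) h.lim P h.base h.θ_pos h.ν_eq
  obtain ⟨a, v, hav⟩ := hLi n hn A C1 hA hgr fun g hg hgs hgm => by
    obtain ⟨R, Lp, B, ht⟩ := FlatAux.exists_test hg hgs
    exact h.equation hE hn hnd he hA (Liouville.integrable_abs_mul_wt hA hgr) hweak ht hgm
  refine ⟨a, v, fun ψ hψ hψs => ?_⟩
  have e1 : ∫ x, ψ (P.param x) * (a + ⟪v, x⟫) = ∫ x, ψ (P.param x) * A x :=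
    integral_congr_ae (hav.mono fun x hx => by simp [hx])
  rw [e1]
  exact hweak ψ hψ hψs

end Vale.Agent.P120.Improve
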