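import Mathlib
import Vale.Agent.P120.Improve.Equation

/-!
The weak limit of a normalised coordinate is a strong limit in `L²` on balls.
-/

noncomputable section

open MeasureTheory Metric Set Filter Topology
open scoped ENNReal NNReal RealInnerProductSpace

namespace Vale.Agent.P120.Improve

variable {n d : ℕ}

lemma lipschitz_cut_mul {R : ℝ} (hR : 1 ≤ R) {f : Spc d → ℝ} {Kf : ℝ≥0} (hf : LipschitzWith Kf f) :
    ∃ K' : ℝ≥0, LipschitzWith K' fun y => cut 0 R y * f y := by
  set B := |f 0| + Kf * (2 * R)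
  have hB : 0 ≤ B := by positivity
  have hb : ∀ a : Spc d, ‖a‖ ≤ 2 * R → |f a| ≤ B := by
    intro a ha
    have h := hf.dist_le_mul a 0
    rw [Real.dist_eq, dist_zero_right] at h
    have := abs_sub_abs_le_abs_sub (f a) (f 0)
    have : (Kf : ℝ) * ‖a‖ ≤ Kf * (2 * R) := by gcongr
    linarith
  refine ⟨Real.toNNReal (B + Kf), LipschitzWith.of_dist_le_mul fun a b => ?_⟩
  rw [Real.coe_toNNReal _ (by positivity), Real.dist_eq]
  have hc : |cut (0 : Spc d) R a - cut 0 R b| ≤ 1 * dist a b := by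
    have := (lipschitz_cut (0 : Spc d) (show 0 < R by linarith)).dist_le_mul a b
    rw [Real.coe_toNNReal _ (by positivity), Real.dist_eq] at this
    exact this.trans (mul_le_mul_of_nonneg_right (inv_le_one_of_one_le₀ hR) dist_nonneg)
  have hfl : |f a - f b| ≤ Kf * dist a b := by rw [← Real.dist_eq]; exact hf.dist_le_mul a b
  have key : ∀ a b : Spc d, ‖a‖ ≤ 2 * R → |cut (0 : Spc d) R a - cut 0 R b| ≤ 1 * dist a b →
      |f a - f b| ≤ Kf * dist a b →
      |cut 0 R a * f a - cut 0 R b * f b| ≤ (B + Kf) * dist a b := by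
    intro a b ha h1 h2
    calc |cut 0 R a * f a - cut 0 R b * f b|
        = |(cut 0 R a - cut 0 R b) * f a + cut 0 R b * (f a - f b)| := by ring_nf
      _ ≤ |cut 0 R a - cut 0 R b| * |f a| + |cut 0 R b| * |f a - f b| := by
          rw [← abs_mul, ← abs_mul]; exact abs_add_le _ _
      _ ≤ 1 * dist a b * B + 1 * (Kf * dist a b) := by
          gcongr
          · exact hb a ha
          · exact abs_cut_le_one _ _ _
      _ = _ := by ring
  rcases le_or_gt ‖a‖ (2 * R) with ha | ha
  · exact key a b ha hc hfl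
  rcases le_or_gt ‖b‖ (2 * R) with hb' | hb'
  · rw [abs_sub_comm, dist_comm]
    exact key b a hb' (by rwa [abs_sub_comm, dist_comm]) (by rwa [abs_sub_comm, dist_comm])
  · rw [cut_eq_zero (by linarith) (by rw [dist_zero_right]; exact ha.le),
      cut_eq_zero (by linarith) (by rw [dist_zero_right]; exact hb'.le)]
    simp only [zero_mul, sub_self, abs_zero]; positivity

lemma En_sub_le {μ : Measure (Spc d)} {f g : Spc d → ℝ} (hf : Measurable f) (hg : Measurable g) :
    En n μ (fun y => f y - g y) ≤ 2 * En n μ f + 2 * En n μ g := by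
  have h2 : ∀ φ : Spc d → ℝ, Measurable φ → 2 * En n μ φ = ∫⁻ p : Spc d × Spc d,
      2 * ENNReal.ofReal ((φ p.1 - φ p.2) ^ 2 / ‖p.1 - p.2‖ ^ (n + 1)) ∂(μ.prod μ) := fun φ hφ => by
    rw [En, lintegral_const_mul _ (measurable_En_integrand hφ)]
  rw [h2 f hf, h2 g hg, ← lintegral_add_left ((measurable_En_integrand hf).const_mul _)]
  refine lintegral_mono fun p => ?_
  have e : ∀ z : ℝ, (2 : ℝ≥0∞) * ENNReal.ofReal z = ENNReal.ofReal (2 * z) := fun z => by
    rw [ENNReal.ofReal_mul (by norm_num), ENNReal.ofReal_ofNat]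
  simp only [e]
  rw [← ENNReal.ofReal_add (by positivity) (by positivity), ← mul_div_assoc, ← mul_div_assoc,
    ← add_div]
  refine ENNReal.ofReal_le_ofReal (div_le_div_of_nonneg_right ?_ (by positivity))
  nlinarith [sq_nonneg (f p.1 - f p.2 + (g p.1 - g p.2))]

/-- the smoothing weight -/
def smk (r : ℝ) (p : Spc d × Spc d) : ℝ := cut 0 r (p.1 - p.2)

@[fun_prop]
lemma continuous_smk (r : ℝ) : Continuous (smk r : Spc d × Spc d → ℝ) := by unfold smk; fun_prop

lemma smk_swap (r : ℝ) (p : Spc d × Spc d) : smk r p.swap = smk r p := by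
  simp only [smk, Prod.fst_swap, Prod.snd_swap, cut, dist_zero_right, norm_sub_rev p.2 p.1]

lemma norm_sub_lt_of_smk_ne {r : ℝ} (hr : 0 < r) {p : Spc d × Spc d} (h : smk r p ≠ 0) :
    ‖p.1 - p.2‖ < 2 * r :=
  lt_of_not_ge fun hh => h (cut_eq_zero hr (by rw [dist_zero_right]; exact hh))

lemma smk_integrable {μ : Measure (Spc d)} [IsLocallyFiniteMeasure μ] {r : ℝ} (hr : 0 < r)
    {w : Spc d → ℝ} (hws : HasCompactSupport w) {F : Spc d × Spc d → ℝ} (hF : Continuous F)
    (h0 : ∀ p, smk r p * w p.1 = 0 → smk r p * w p.2 = 0 → F p = 0) : Integrable F (μ.prod μ) := by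
  obtain ⟨X, hX⟩ := hws.isBounded.subset_closedBall (0 : Spc d)
  refine hF.integrable_of_hasCompactSupport (HasCompactSupport.intro
    ((isCompact_closedBall (0 : Spc d) (|X| + 2 * r)).prod
      (isCompact_closedBall (0 : Spc d) (|X| + 2 * r))) fun p hp => ?_)
  by_cases hΦ : smk r p = 0
  · exact h0 p (by simp [hΦ]) (by simp [hΦ])
  have hd := norm_sub_lt_of_smk_ne hr hΦ
  have h1 := norm_sub_norm_le p.1 p.2
  have h2 := norm_sub_norm_le p.2 p.1
  rw [norm_sub_rev p.2 p.1] at h2
  have hz : ∀ x : Spc d, |X| < ‖x‖ → w x = 0 := fun x hx =>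
    image_eq_zero_of_notMem_tsupport fun hm => by
      have := mem_closedBall.1 (hX hm)
      rw [dist_zero_right] at this
      linarith [le_abs_self X]
  rw [mem_prod, not_and_or, mem_closedBall, mem_closedBall, dist_zero_right, dist_zero_right,
    not_le, not_le] at hp
  refine h0 p (mul_eq_zero_of_right _ (hz _ ?_)) (mul_eq_zero_of_right _ (hz _ ?_)) <;>
    rcases hp with hp | hp <;> linarith

/-- smoothing against the energy -/
lemma smooth_energy {μ : Measure (Spc d)} [IsLocallyFiniteMeasure μ] {r : ℝ} (hr : 0 < r)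
    {w : Spc d → ℝ} (hwc : Continuous w) (hws : HasCompactSupport w) {E : ℝ} (hE0 : 0 ≤ E)
    (hE : En n μ w ≤ ENNReal.ofReal E) :
    ∫ p, smk r p * w p.1 ^ 2 ∂(μ.prod μ) ≤
      (∫ p, smk r p * (w p.1 * w p.2) ∂(μ.prod μ)) + (2 * r) ^ (n + 1) * E / 2 := by
  have i1 : Integrable (fun p => smk r p * w p.1 ^ 2) (μ.prod μ) :=
    smk_integrable hr hws (by fun_prop) fun p h1 _ => by rw [sq, ← mul_assoc, h1, zero_mul]
  have i2 : Integrable (fun p => smk r p * (w p.1 * w p.2)) (μ.prod μ) :=
    smk_integrable hr hws (by fun_prop) fun p h1 _ => by rw [← mul_assoc, h1, zero_mul]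
  have i1' : Integrable (fun p => smk r p * w p.2 ^ 2) (μ.prod μ) :=
    smk_integrable hr hws (by fun_prop) fun p _ h2 => by rw [sq, ← mul_assoc, h2, zero_mul]
  have i3 : Integrable (fun p => smk r p * (w p.1 - w p.2) ^ 2) (μ.prod μ) :=
    smk_integrable hr hws (by fun_prop) fun p h1 h2 => by
      rw [show smk r p * (w p.1 - w p.2) ^ 2 = (smk r p * w p.1 - smk r p * w p.2) * (w p.1 - w p.2)
        by ring, h1, h2, sub_self, zero_mul]
  have hsym : ∫ p, smk r p * w p.2 ^ 2 ∂(μ.prod μ) = ∫ p, smk r p * w p.1 ^ 2 ∂(μ.prod μ) := by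
    rw [← integral_prod_swap (fun p => smk r p * w p.1 ^ 2)]
    exact integral_congr_ae (Eventually.of_forall fun p => by simp only [smk_swap, Prod.fst_swap])
  have hexp : ∫ p, smk r p * (w p.1 - w p.2) ^ 2 ∂(μ.prod μ) =
      2 * (∫ p, smk r p * w p.1 ^ 2 ∂(μ.prod μ))
        - 2 * ∫ p, smk r p * (w p.1 * w p.2) ∂(μ.prod μ) := by
    have e : (fun p => smk r p * (w p.1 - w p.2) ^ 2) =
        fun p => (smk r p * w p.1 ^ 2 + smk r p * w p.2 ^ 2) - 2 * (smk r p * (w p.1 * w p.2)) := by
      funext p; ring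
    have i12 : Integrable (fun p => smk r p * w p.1 ^ 2 + smk r p * w p.2 ^ 2) (μ.prod μ) :=
      i1.add i1'
    rw [e, integral_sub i12 (i2.const_mul 2), integral_add i1 i1', integral_const_mul, hsym]
    ring
  have hEn : ∫ p, smk r p * (w p.1 - w p.2) ^ 2 ∂(μ.prod μ) ≤ (2 * r) ^ (n + 1) * E := by
    rw [integral_eq_lintegral_of_nonneg_ae
      (Eventually.of_forall fun p => mul_nonneg (show 0 ≤ smk r p from cut_nonneg _ _ _) (sq_nonneg _))
      i3.aestronglyMeasurable]
    refine ENNReal.toReal_le_of_le_ofReal (by positivity) ?_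
    rw [ENNReal.ofReal_mul (by positivity)]
    refine le_trans ?_ (mul_le_mul' le_rfl hE)
    rw [En, ← lintegral_const_mul _ (measurable_En_integrand hwc.measurable)]
    refine lintegral_mono fun p => ?_
    rw [← ENNReal.ofReal_mul (by positivity)]
    refine ENNReal.ofReal_le_ofReal ?_
    by_cases hΦ : smk r p = 0
    · rw [hΦ, zero_mul]; positivity
    have hd := norm_sub_lt_of_smk_ne hr hΦ
    rcases eq_or_ne p.1 p.2 with h | h
    · simp [h]
    calc smk r p * (w p.1 - w p.2) ^ 2 ≤ 1 * (w p.1 - w p.2) ^ 2 :=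
          mul_le_mul_of_nonneg_right (cut_le_one _ _ _) (sq_nonneg _)
      _ ≤ _ := by
          have : 0 < ‖p.1 - p.2‖ := norm_pos_iff.2 (sub_ne_zero.2 h)
          rw [one_mul, ← mul_div_assoc, le_div_iff₀ (by positivity), mul_comm]
          exact mul_le_mul_of_nonneg_right (pow_le_pow_left₀ (by positivity) hd.le _) (sq_nonneg _)
  linarith

lemma integrable_sq_cs {μ : Measure (Spc d)} [IsLocallyFiniteMeasure μ] {w : Spc d → ℝ}
    (hwc : Continuous w) (hws : HasCompactSupport w) : Integrable (fun x => w x ^ 2) μ := by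
  have h2 : HasCompactSupport fun x => w x ^ 2 :=
    hws.comp_left (g := fun t : ℝ => t ^ 2) (zero_pow two_ne_zero)
  have h3 : Continuous fun x => w x ^ 2 := hwc.pow 2
  exact h3.integrable_of_hasCompactSupport h2

/-- lower regularity turns smoothing into the square integral -/
lemma smooth_lower {C D : ℝ} {μ : Measure (Spc d)} [IsLocallyFiniteMeasure μ] (hreg : Reg n C D μ)
    {r : ℝ} (hr : 0 < r) (hrD : r ≤ D) {w : Spc d → ℝ} (hwc : Continuous w)
    (hws : HasCompactSupport w) :
    C⁻¹ * r ^ n * ∫ x, w x ^ 2 ∂μ ≤ ∫ p, smk r p * w p.1 ^ 2 ∂(μ.prod μ) := by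
  have i1 : Integrable (fun p => smk r p * w p.1 ^ 2) (μ.prod μ) :=
    smk_integrable hr hws (by fun_prop) fun p h1 _ => by rw [sq, ← mul_assoc, h1, zero_mul]
  have hsq : Integrable (fun x => w x ^ 2) μ := integrable_sq_cs hwc hws
  rw [integral_prod _ i1, ← integral_const_mul]
  refine integral_mono_ae (hsq.const_mul _) i1.integral_prod_left ?_
  filter_upwards [ae_mem_support μ] with x hx
  rw [integral_mul_const]
  refine mul_le_mul_of_nonneg_right ?_ (sq_nonneg _)
  have hi : Integrable (fun y => smk r (x, y)) μ :=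
    (by fun_prop : Continuous fun y => smk r (x, y)).integrable_of_hasCompactSupport
      (HasCompactSupport.intro (isCompact_closedBall x (2 * r)) fun y hy => by
        rw [mem_closedBall, not_le, dist_eq_norm, norm_sub_rev] at hy
        exact cut_eq_zero hr (by rw [dist_zero_right]; exact hy.le))
  calc C⁻¹ * r ^ n ≤ μ.real (ball x r) := hreg.le_ball_real hx hr hrD
    _ = ∫ _y in ball x r, (1 : ℝ) ∂μ := by rw [setIntegral_const, smul_eq_mul, mul_one]
    _ = ∫ y in ball x r, smk r (x, y) ∂μ := setIntegral_congr_fun measurableSet_ball fun y hy => by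
        rw [mem_ball, dist_eq_norm, norm_sub_rev] at hy
        exact (cut_eq_one hr (by rw [dist_zero_right]; exact hy.le)).symm
    _ ≤ _ := setIntegral_le_integral hi (Eventually.of_forall fun y => cut_nonneg _ _ _)

/-- smoothing at scale `r` controls the square integral -/
lemma sq_le_smooth {C D : ℝ} {μ : Measure (Spc d)} [IsLocallyFiniteMeasure μ] (hreg : Reg n C D μ)
    {r : ℝ} (hr : 0 < r) (hrD : r ≤ D) {w : Spc d → ℝ} (hwc : Continuous w)
    (hws : HasCompactSupport w) {E : ℝ} (hE0 : 0 ≤ E) (hE : En n μ w ≤ ENNReal.ofReal E) {a0 : ℝ}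
    (ha : ∀ x, w x ≠ 0 → |∫ y, cut 0 r (x - y) * w y ∂μ| ≤ a0) :
    ∫ x, w x ^ 2 ∂μ ≤ C * (r ^ n)⁻¹ * (a0 * ∫ x, |w x| ∂μ) + C * 2 ^ n * E * r := by
  have hC := hreg.one_le
  have i2 : Integrable (fun p => smk r p * (w p.1 * w p.2)) (μ.prod μ) :=
    smk_integrable hr hws (by fun_prop) fun p h1 _ => by rw [← mul_assoc, h1, zero_mul]
  have hwi : Integrable (fun x => |w x|) μ := (hwc.integrable_of_hasCompactSupport hws).abs
  have hwa : ∫ p, smk r p * (w p.1 * w p.2) ∂(μ.prod μ) ≤ a0 * ∫ x, |w x| ∂μ := by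
    rw [integral_prod _ i2, ← integral_const_mul]
    refine integral_mono i2.integral_prod_left (hwi.const_mul a0) fun x => ?_
    have e : ∫ y, smk r (x, y) * (w x * w y) ∂μ = w x * ∫ y, cut 0 r (x - y) * w y ∂μ := by
      rw [← integral_const_mul]
      exact integral_congr_ae (Eventually.of_forall fun y => by simp only [smk]; ring)
    simp only
    rw [e]
    by_cases hx : w x = 0
    · simp [hx]
    · rw [mul_comm a0]
      exact (le_abs_self _).trans
        (by rw [abs_mul]; exact mul_le_mul_of_nonneg_left (ha x hx) (abs_nonneg _))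
  have h1 := smooth_energy (n := n) hr hwc hws hE0 hE
  have h2 := smooth_lower hreg hr hrD hwc hws
  have hfin : C⁻¹ * r ^ n * ∫ x, w x ^ 2 ∂μ ≤
      a0 * (∫ x, |w x| ∂μ) + 2 ^ n * r ^ (n + 1) * E := by
    have : (2 * r) ^ (n + 1) * E / 2 = 2 ^ n * r ^ (n + 1) * E := by rw [mul_pow]; ring
    linarith
  rw [inv_mul_eq_div, div_mul_eq_mul_div, div_le_iff₀ (by linarith)] at hfin
  rw [← le_div_iff₀' (by positivity)] at hfin
  refine hfin.trans (le_of_eq ?_)
  rw [pow_succ]
  field_simp

variable {C C' K θ : ℝ} {μ : ℕ → Measure (Spc d)} {D M δ N : ℕ → ℝ} {L : ℕ → Plane n d}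
  {U : Ultrafilter ℕ} {ν : Measure (Spc d)} {P : Plane n d}

/-- strong convergence of a normalised coordinate -/
theorem BlowLim.strong_limit (hE : EnergyStmt) (hn : 1 ≤ n) (hnd : n < d)
    (h : BlowLim n C C' K μ D M δ N L U ν P θ) [IsLocallyFiniteMeasure ν]
    {e : Spc d} (he : ‖e‖ ≤ 1) {a : ℝ} {v : Spc n}
    (hweak : ∀ ψ : Spc d → ℝ, Continuous ψ → HasCompactSupport ψ →
      Tendsto (fun j => ∫ y, ψ y * (aff (uVec (L j) e) (bOff (L j) e) y / N j) ∂(μ j)) U
        (𝓝 (θ * ∫ x, ψ (P.param x) * (a + ⟪v, x⟫))))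
    {R : ℝ} (hR : 1 ≤ R) :
    Tendsto (fun j => ∫ y in closedBall 0 R,
      (aff (uVec (L j) e) (bOff (L j) e) y / N j - (a + ⟪v, P.coord y⟫)) ^ 2 ∂(μ j)) U (𝓝 0) := by
  set g : ℕ → Spc d → ℝ := fun j => aff (uVec (L j) e) (bOff (L j) e)
  set ℓ : Spc d → ℝ := fun y => a + ⟪v, P.coord y⟫
  have hℓl : LipschitzWith ‖v‖₊ ℓ := LipschitzWith.of_dist_le_mul fun x y => by
    rw [Real.dist_eq, dist_eq_norm, coe_nnnorm]
    simp only [ℓ, add_sub_add_left_eq_sub, ← inner_sub_right]
    exact (abs_real_inner_le_norm _ _).trans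
      (mul_le_mul_of_nonneg_left (norm_coord_sub_le P x y) (norm_nonneg _))
  have hℓc : Continuous ℓ := hℓl.continuous
  set w : ℕ → Spc d → ℝ := fun j y => cut 0 R y * (g j y / N j - ℓ y)
  have hwc : ∀ j, Continuous (w j) := fun j => by simp only [w, g]; fun_prop
  have hR0 : 0 < R := by linarith
  have hws : ∀ j, HasCompactSupport (w j) := fun j => (hasCompactSupport_cut 0 hR0).mul_right
  have hC := (h.blow.reg 0).nonneg
  -- the functions converge weakly to zero
  have hzero : ∀ ψ : Spc d → ℝ, Continuous ψ → HasCompactSupport ψ →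
      Tendsto (fun j => ∫ y, ψ y * (g j y / N j - ℓ y) ∂(μ j)) U (𝓝 0) := by
    intro ψ hψ hψs
    have h1 := (hweak ψ hψ hψs).sub (h.lim.integral (fun y => ψ y * ℓ y) (hψ.mul hℓc) hψs.mul_right)
    have e1 : ∫ y, ψ y * ℓ y ∂ν = θ * ∫ x, ψ (P.param x) * (a + ⟪v, x⟫) := by
      have hm : Continuous fun y => ψ y * ℓ y := hψ.mul hℓc
      rw [h.ν_eq, integral_smul_measure, integral_map (continuous_param P).aemeasurable
        hm.aestronglyMeasurable, ENNReal.toReal_ofReal h.θ_pos.le, smul_eq_mul]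
      simp only [ℓ, coord_param]
    rw [e1, sub_self] at h1
    refine h1.congr fun j => ?_
    have := h.blow.lf j
    rw [← integral_sub]
    · exact integral_congr_ae (Eventually.of_forall fun y => by simp only [g]; ring)
    · exact (hψ.mul (by fun_prop)).integrable_of_hasCompactSupport hψs.mul_right
    · exact (hψ.mul hℓc).integrable_of_hasCompactSupport hψs.mul_right
  -- the local `L¹` size
  set G := (K * (2 * R) ^ (n + 3) + C * 2 ^ n * (2 * R) ^ n) / 2
    + (|a| + ‖v‖ * (2 * R)) * (C * 2 ^ n * (2 * R) ^ n)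
  have hw1 : ∀ j, ∫ y, |w j y| ∂(μ j) ≤ G := by
    intro j
    have := h.blow.lf j
    have hN := h.blow.N_pos j
    set X := 2 * R with hX
    have hi : IntegrableOn (fun y => |g j y| / N j + (|a| + ‖v‖ * X)) (closedBall 0 X) (μ j) :=
      ((integrableOn_aff _ _ X).div_const _).add (integrableOn_const measure_closedBall_lt_top.ne)
    calc ∫ y, |w j y| ∂(μ j) ≤ ∫ y, (closedBall (0 : Spc d) X).indicator
          (fun y => |g j y| / N j + (|a| + ‖v‖ * X)) y ∂(μ j) := by
          refine integral_mono ((hwc j).integrable_of_hasCompactSupport (hws j)).abs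
            ((integrable_indicator_iff measurableSet_closedBall).2 hi) fun y => ?_
          by_cases hy : y ∈ closedBall (0 : Spc d) X
          · rw [indicator_of_mem hy]
            have hℓb : |ℓ y| ≤ |a| + ‖v‖ * X := by
              refine (abs_add_le _ _).trans (add_le_add le_rfl ((abs_real_inner_le_norm _ _).trans
                (mul_le_mul_of_nonneg_left ?_ (norm_nonneg _))))
              have h0 : P.coord 0 = 0 := by ext i; simp [coord_apply, h.base]
              have := norm_coord_sub_le P y 0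
              rw [h0, sub_zero, sub_zero] at this
              exact this.trans (by simpa using hy)
            simp only [w, abs_mul]
            refine (mul_le_of_le_one_left (abs_nonneg _) (abs_cut_le_one _ _ _)).trans
              ((abs_sub _ _).trans (add_le_add (le_of_eq ?_) hℓb))
            rw [abs_div, abs_of_pos hN]
          · rw [indicator_of_notMem hy]
            rw [mem_closedBall, not_le] at hy
            simp [w, cut_eq_zero hR0 hy.le]
      _ = (∫ y in closedBall 0 X, |g j y| ∂(μ j)) / N j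
            + (μ j).real (closedBall 0 X) * (|a| + ‖v‖ * X) := by
          rw [integral_indicator measurableSet_closedBall,
            integral_add ((integrableOn_aff _ _ X).div_const _)
              (integrableOn_const measure_closedBall_lt_top.ne), integral_div, setIntegral_const,
            smul_eq_mul]
      _ ≤ _ := by
          refine add_le_add ?_ ?_
          · rw [div_le_iff₀ hN]
            refine (abs_integral_le (h.blow.reg j) hN (h.sqGrowth he j) (show (1:ℝ) ≤ X by rw [hX]; linarith)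
              one_pos).trans (le_of_eq ?_)
            rw [hX]; ring
          · rw [mul_comm (|a| + ‖v‖ * X)]
            exact mul_le_mul_of_nonneg_right ((h.blow.reg j).closedBall_real_le 0 (by rw [hX]; linarith))
              (by positivity)
  have hG : 0 ≤ G := (integral_nonneg fun y => abs_nonneg _).trans (hw1 0)
  -- the energy
  obtain ⟨Qe, hQe, hen⟩ := energy_le hE hn hnd C K hR
  obtain ⟨Kℓ, hKℓ⟩ := lipschitz_cut_mul hR hℓl
  set E1 := 2 * (2 ^ n * C + 16 * (2 ^ (n + 1) * C)) * (C * 2 ^ n) * (Kℓ : ℝ) ^ 2 * (2 * R) ^ (n + 1)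
  set E := 2 * Qe + 2 * E1
  have hEw : ∀ᶠ j in (U : Filter ℕ), En n (μ j) (w j) ≤ ENNReal.ofReal E := by
    have hδN : ∀ᶠ j in atTop, δ j ≤ N j ^ 2 := by
      filter_upwards [h.blow.δ_small.eventually (ge_mem_nhds (zero_lt_one' ℝ))] with j hj
      rwa [div_le_one (by have := h.blow.N_pos j; positivity)] at hj
    filter_upwards [Blow.eventually_D h.le_top h.blow R,
      h.le_top (h.blow.M_top.eventually (eventually_ge_atTop (2 * R))), h.le_top hδN] with j hD hM hd
    have := h.blow.lf j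
    have hN := h.blow.N_pos j
    have he1 := hen (μ j) (D j) (N j) (M j) (δ j) (uVec (L j) e) (bOff (L j) e) (h.blow.reg j)
      (h.blow.mem j) hD hM hN ((norm_uVec_le _ _).trans he) (h.sqGrowth he j) (h.blow.osc j)
      (h.blow.δ_nonneg j) hd
    have h1 : En n (μ j) (fun y => (N j)⁻¹ * (cut 0 R y * g j y)) ≤ ENNReal.ofReal Qe := by
      rw [En_const_mul _ (by fun_prop)]
      refine (mul_le_mul' le_rfl he1).trans (le_of_eq ?_)
      rw [← ENNReal.ofReal_mul (sq_nonneg _)]
      congr 1; field_simp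
    have h2 : En n (μ j) (fun y => cut 0 R y * ℓ y) ≤ ENNReal.ofReal E1 :=
      En_le_of_lipschitz (h.blow.reg j).upper hn hKℓ (show 0 < 2 * R by linarith)
        (tsupport_mul_subset_left.trans (tsupport_cut 0 hR0))
    have e2 : w j = fun y => (N j)⁻¹ * (cut 0 R y * g j y) - cut 0 R y * ℓ y := by
      funext y; simp only [w]; ring
    rw [e2]
    refine (En_sub_le (by fun_prop) (by fun_prop)).trans ?_
    refine (add_le_add (mul_le_mul' le_rfl h1) (mul_le_mul' le_rfl h2)).trans (le_of_eq ?_)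
    have e3 : ∀ z : ℝ, (2 : ℝ≥0∞) * ENNReal.ofReal z = ENNReal.ofReal (2 * z) := fun z => by
      rw [ENNReal.ofReal_mul (by norm_num), ENNReal.ofReal_ofNat]
    rw [e3, e3, ← ENNReal.ofReal_add (by positivity) (by positivity)]
  have hE0 : 0 ≤ E := by positivity
  -- conclusion
  refine Metric.tendsto_nhds.2 fun ε hε => ?_
  obtain ⟨r, hr, hrε⟩ : ∃ r > 0, C * 2 ^ n * E * r < ε / 2 := by
    refine ⟨ε / 2 / (C * 2 ^ n * E + 1), by positivity, ?_⟩
    rw [← mul_div_assoc, div_lt_iff₀ (by positivity)]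
    nlinarith
  set q := ε / 2 / (C * (r ^ n)⁻¹ * G + 1) with hq
  have hq0 : 0 < q := by positivity
  set A : ℕ → Spc d → ℝ := fun j x => ∫ y, cut 0 r (x - y) * w j y ∂(μ j)
  have hpt : ∀ x ∈ closedBall (0 : Spc d) (2 * R), Tendsto (fun j => A j x) U (𝓝 0) := by
    intro x _
    refine (hzero (fun y => cut 0 r (x - y) * cut 0 R y) (by fun_prop)
      (hasCompactSupport_cut 0 hR0).mul_left).congr fun j => ?_
    exact integral_congr_ae (Eventually.of_forall fun y => by simp only [w]; ring)
  have heq : ∀ ε' > 0, ∃ δ' > 0, ∀ᶠ j in (U : Filter ℕ), ∀ x ∈ closedBall (0 : Spc d) (2 * R),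
      ∀ y ∈ closedBall (0 : Spc d) (2 * R), dist x y < δ' → |A j x - A j y| ≤ ε' := by
    intro ε' hε'
    refine ⟨ε' * r / (G + 1), by positivity, Eventually.of_forall fun j x _ y _ hxy => ?_⟩
    have := h.blow.lf j
    have hi : ∀ x : Spc d, Integrable (fun z => cut 0 r (x - z) * w j z) (μ j) := fun x =>
      (by fun_prop : Continuous _).integrable_of_hasCompactSupport (hws j).mul_left
    simp only [A]
    rw [← integral_sub (hi x) (hi y), ← Real.norm_eq_abs]
    refine (norm_integral_le_of_norm_le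
      (((hwc j).integrable_of_hasCompactSupport (hws j)).abs.const_mul (r⁻¹ * dist x y))
      (Eventually.of_forall fun z => ?_)).trans ?_
    · rw [← sub_mul, Real.norm_eq_abs, abs_mul]
      refine mul_le_mul_of_nonneg_right ?_ (abs_nonneg _)
      have := (lipschitz_cut (0 : Spc d) hr).dist_le_mul (x - z) (y - z)
      rwa [Real.coe_toNNReal _ (by positivity), Real.dist_eq, dist_sub_right] at this
    · rw [integral_const_mul]
      refine (mul_le_mul_of_nonneg_left (hw1 j) (by positivity)).trans ?_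
      rw [inv_mul_eq_div, div_mul_eq_mul_div, div_le_iff₀ hr]
      rw [lt_div_iff₀ (by positivity)] at hxy
      nlinarith [dist_nonneg (x := x) (y := y)]
  filter_upwards [eventually_abs_le_of_equicontinuous (isCompact_closedBall (0 : Spc d) (2 * R))
    hpt heq hq0, hEw, Blow.eventually_D h.le_top h.blow r] with j hj hjE hD
  have := h.blow.lf j
  have hmain := sq_le_smooth (h.blow.reg j) hr hD (hwc j) (hws j) hE0 hjE (a0 := q) fun x hx =>
    hj x (tsupport_cut (0 : Spc d) hR0 (subset_tsupport _ fun hh => hx (by simp [w, hh])))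
  have hsq : Integrable (fun x => w j x ^ 2) (μ j) := integrable_sq_cs (hwc j) (hws j)
  rw [Real.dist_eq, sub_zero, abs_of_nonneg (integral_nonneg fun y => sq_nonneg _)]
  have hle : ∫ y in closedBall (0 : Spc d) R, (g j y / N j - ℓ y) ^ 2 ∂(μ j) ≤ ∫ y, w j y ^ 2 ∂(μ j) := by
    rw [← setIntegral_congr_fun measurableSet_closedBall fun y hy =>
      show w j y ^ 2 = (g j y / N j - ℓ y) ^ 2 by
        simp only [w]; rw [cut_eq_one hR0 (mem_closedBall.1 hy), one_mul]]
    exact setIntegral_le_integral hsq (Eventually.of_forall fun y => sq_nonneg _)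
  refine lt_of_le_of_lt (hle.trans hmain) ?_
  have hfin : C * (r ^ n)⁻¹ * (q * ∫ x, |w j x| ∂(μ j)) ≤ ε / 2 := by
    calc C * (r ^ n)⁻¹ * (q * ∫ x, |w j x| ∂(μ j)) ≤ C * (r ^ n)⁻¹ * (q * G) := by
          gcongr; exact hw1 j
      _ = (C * (r ^ n)⁻¹ * G) / (C * (r ^ n)⁻¹ * G + 1) * (ε / 2) := by rw [hq]; ring
      _ ≤ 1 * (ε / 2) := mul_le_mul_of_nonneg_right
          ((div_le_one (by positivity)).2 (by linarith)) (by positivity)
      _ = _ := one_mul _
  linarith

end Vale.Agent.P120.Improve
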