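import Mathlib
import Vale.Agent.P120.Improve.Strong
import Vale.Agent.P120.Improve.Growth

/-!
The tilted planes: flatness of the blow-up sequence at a fixed scale is `o(N²)`.
-/

noncomputable section

open MeasureTheory Metric Set Filter Topology
open scoped ENNReal NNReal RealInnerProductSpace

namespace Vale.Agent.P120.Improve

variable {n d : ℕ}

/-- the linear map with rows `v` -/
def rows (v : Fin d → Spc n) : Spc n →ₗ[ℝ] Spc d where
  toFun x := WithLp.toLp 2 fun i => ⟪v i, x⟫
  map_add' x y := by ext i; simp [inner_add_right]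
  map_smul' c x := by ext i; simp [real_inner_smul_right]

/-- the tilted plane beats the old one wherever the normalised deviation is affine -/
lemma exists_tilted (L : Plane n d) (N : ℝ) (a : Fin d → ℝ) (v : Fin d → Spc n)
    (hN : |N| * ‖LinearMap.toContinuousLinearMap (rows v)‖ < 1) :
    ∃ L' : Plane n d, ∀ y, ‖L'.dev y‖ ^ 2 ≤
      ∑ i, (⟪EuclideanSpace.single i (1 : ℝ), L.dev y⟫ - N * (a i + ⟪v i, L.coord y⟫)) ^ 2 := by
  set B := rows v
  set T : Spc n →ₗ[ℝ] Spc d := lin L + N • B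
  have hT : Function.Injective T := by
    rw [injective_iff_map_eq_zero]
    intro x hx
    have h1 : ‖lin L x‖ = ‖N • B x‖ := by
      have : lin L x = -(N • B x) := eq_neg_of_add_eq_zero_left (by simpa [T] using hx)
      rw [this, norm_neg]
    rw [norm_lin, norm_smul, Real.norm_eq_abs] at h1
    have h2 : ‖B x‖ ≤ ‖LinearMap.toContinuousLinearMap B‖ * ‖x‖ :=
      (LinearMap.toContinuousLinearMap B).le_opNorm x
    by_contra hx0
    have h3 : 0 < ‖x‖ := norm_pos_iff.2 hx0
    have h4 : ‖x‖ ≤ |N| * ‖LinearMap.toContinuousLinearMap B‖ * ‖x‖ := by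
      rw [mul_assoc]; exact h1.le.trans (mul_le_mul_of_nonneg_left h2 (abs_nonneg _))
    nlinarith
  set α : Spc d := WithLp.toLp 2 a
  obtain ⟨L', hL'⟩ := exists_plane_of_affine (L.base + N • α) T hT
  refine ⟨L', fun y => ?_⟩
  refine (pow_le_pow_left₀ (norm_nonneg _) (norm_dev_le L' y (hL' (L.coord y))) 2).trans (le_of_eq ?_)
  rw [EuclideanSpace.norm_sq_eq]
  refine Finset.sum_congr rfl fun i _ => ?_
  have e : y - (L.base + N • α + T (L.coord y)) = L.dev y - N • (α + B (L.coord y)) := by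
    simp only [T, dev_eq, LinearMap.add_apply, LinearMap.smul_apply, smul_add]
    abel
  rw [e, EuclideanSpace.inner_single_left, Real.norm_eq_abs, sq_abs]
  simp [α, B, rows, mul_add]

variable {C C' K θ : ℝ} {μ : ℕ → Measure (Spc d)} {D M δ N : ℕ → ℝ} {L : ℕ → Plane n d}
  {U : Ultrafilter ℕ} {ν : Measure (Spc d)} {P : Plane n d}

lemma BlowLim.coord_close (h : BlowLim n C C' K μ D M δ N L U ν P θ) (R : ℝ) {ε : ℝ} (hε : 0 < ε) :
    ∀ᶠ j in (U : Filter ℕ), ∀ y ∈ closedBall (0 : Spc d) R, ‖(L j).coord y - P.coord y‖ ≤ ε := by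
  have := eventually_abs_le_of_equicontinuous (isCompact_closedBall (0 : Spc d) R)
    (f := fun j y => ‖(L j).coord y - P.coord y‖) (F := (U : Filter ℕ)) (fun y _ => ?_)
    (fun e he => ⟨e / 2, half_pos he, Eventually.of_forall fun j x _ y _ hxy => ?_⟩) hε
  · filter_upwards [this] with j hj y hy using (le_abs_self _).trans (hj y hy)
  · have := ((tendsto_coord h.conv_base h.conv_frame (z := fun _ => y) tendsto_const_nhds).sub_const
      (P.coord y)).norm
    simpa using this
  · refine (abs_norm_sub_norm_le _ _).trans ?_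
    rw [sub_sub_sub_comm]
    refine (norm_sub_le _ _).trans ?_
    rw [dist_eq_norm] at hxy
    linarith [norm_coord_sub_le (L j) x y, norm_coord_sub_le P x y]

/-- flatness at a fixed scale is `o(N²)` along the ultrafilter -/
theorem BlowLim.beta_small (hE : EnergyStmt) (hLi : LiouvilleStmt) (hn : 1 ≤ n) (hnd : n < d)
    (h : BlowLim n C C' K μ D M δ N L U ν P θ) [IsLocallyFiniteMeasure ν] {Λ : ℝ} (hΛ : 1 ≤ Λ)
    {κ : ℝ} (hκ : 0 < κ) :
    ∀ᶠ j in (U : Filter ℕ), betaSq n (μ j) Λ 0 1 ≤ κ * N j ^ 2 := by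
  have he : ∀ i : Fin d, ‖EuclideanSpace.single i (1 : ℝ)‖ ≤ 1 := fun i => by simp
  choose a v hw using fun i : Fin d => h.scalar_limit hE hLi hn hnd (he i)
  have hC := (h.blow.reg 0).nonneg
  set V := ∑ i, ‖v i‖ ^ 2
  have hV : 0 ≤ V := Finset.sum_nonneg fun i _ => sq_nonneg _
  set Z := C * 2 ^ n * Λ ^ n
  have hZ : 0 ≤ Z := by positivity
  set ε := Real.sqrt (κ / (4 * (V * Z + 1)))
  have hε : 0 < ε := Real.sqrt_pos.2 (by positivity)
  have hsum : Tendsto (fun j => ∑ i, ∫ y in closedBall 0 Λ,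
      (aff (uVec (L j) (EuclideanSpace.single i (1 : ℝ))) (bOff (L j) (EuclideanSpace.single i (1 : ℝ))) y
        / N j - (a i + ⟪v i, P.coord y⟫)) ^ 2 ∂(μ j)) U (𝓝 0) := by
    simpa using tendsto_finsetSum (Finset.univ : Finset (Fin d)) fun i _ =>
      h.strong_limit hE hn hnd (he i) (hw i) hΛ
  have hBv : ∀ᶠ j in (U : Filter ℕ),
      |N j| * ‖LinearMap.toContinuousLinearMap (rows v)‖ < 1 := by
    have := ((h.blow.N_zero.mono_left h.le_top).abs).mul_const
      ‖LinearMap.toContinuousLinearMap (rows v)‖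
    rw [abs_zero, zero_mul] at this
    exact this.eventually (gt_mem_nhds one_pos)
  filter_upwards [hBv, h.coord_close Λ hε, hsum.eventually (ge_mem_nhds (show (0:ℝ) < κ / 4 by positivity))]
    with j hj1 hj2 hj3
  have := h.blow.lf j
  have hN := h.blow.N_pos j
  obtain ⟨L', hL'⟩ := exists_tilted (L j) (N j) a v hj1
  refine (betaSq_le (μ j) Λ 0 one_pos L').trans ?_
  rw [one_pow, div_one, mul_one]
  set f : Fin d → Spc d → ℝ := fun i y =>
    (aff (uVec (L j) (EuclideanSpace.single i (1 : ℝ))) (bOff (L j) (EuclideanSpace.single i (1 : ℝ))) y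
        / N j - (a i + ⟪v i, P.coord y⟫)) ^ 2
  have hfi : ∀ i, IntegrableOn (f i) (closedBall 0 Λ) (μ j) := fun i =>
    (by simp only [f]; fun_prop : Continuous (f i)).continuousOn.integrableOn_compact
      (isCompact_closedBall _ _)
  have hbound : ∀ y ∈ closedBall (0 : Spc d) Λ,
      ‖L'.dev y‖ ^ 2 ≤ N j ^ 2 * (2 * (∑ i, f i y) + 2 * V * ε ^ 2) := by
    intro y hy
    refine (hL' y).trans ?_
    rw [show N j ^ 2 * (2 * (∑ i, f i y) + 2 * V * ε ^ 2)
        = ∑ i, N j ^ 2 * (2 * f i y + 2 * ‖v i‖ ^ 2 * ε ^ 2) by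
      rw [← Finset.mul_sum, Finset.sum_add_distrib, ← Finset.mul_sum]
      simp only [V, Finset.sum_mul, Finset.mul_sum]]
    refine Finset.sum_le_sum fun i _ => ?_
    simp only [f]
    rw [aff_uVec]
    set g := ⟪EuclideanSpace.single i (1 : ℝ), (L j).dev y⟫
    set s := ⟪v i, (L j).coord y - P.coord y⟫
    have hs : s ^ 2 ≤ ‖v i‖ ^ 2 * ε ^ 2 := by
      rw [← sq_abs, ← mul_pow]
      exact pow_le_pow_left₀ (abs_nonneg _) ((abs_real_inner_le_norm _ _).trans
        (mul_le_mul_of_nonneg_left (hj2 y hy) (norm_nonneg _))) 2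
    calc (g - N j * (a i + ⟪v i, (L j).coord y⟫)) ^ 2
        = N j ^ 2 * ((g / N j - (a i + ⟪v i, P.coord y⟫)) - s) ^ 2 := by
          simp only [s, inner_sub_right]; field_simp; ring
      _ ≤ _ := by
          refine mul_le_mul_of_nonneg_left ?_ (sq_nonneg _)
          nlinarith [sq_nonneg (g / N j - (a i + ⟪v i, P.coord y⟫) + s)]
  have hsi : IntegrableOn (fun y => ∑ i, f i y) (closedBall 0 Λ) (μ j) :=
    integrable_finsetSum _ fun i _ => hfi i
  calc devSq (μ j) L' 0 Λ ≤ ∫ y in closedBall 0 Λ,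
        N j ^ 2 * (2 * (∑ i, f i y) + 2 * V * ε ^ 2) ∂(μ j) :=
        setIntegral_mono_on (integrableOn_dev_sq (μ j) L' 0 Λ)
          (by exact (Integrable.const_mul ((hsi.const_mul 2).add (integrableOn_const (C := 2 * V * ε ^ 2)
            measure_closedBall_lt_top.ne)) (N j ^ 2)))
          measurableSet_closedBall hbound
    _ = N j ^ 2 * (2 * (∑ i, ∫ y in closedBall 0 Λ, f i y ∂(μ j))
          + (μ j).real (closedBall 0 Λ) * (2 * V * ε ^ 2)) := by
        rw [integral_const_mul, integral_add (hsi.const_mul 2)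
          (integrableOn_const measure_closedBall_lt_top.ne), integral_const_mul,
          integral_finsetSum _ fun i _ => hfi i, setIntegral_const, smul_eq_mul]
    _ ≤ N j ^ 2 * (2 * (κ / 4) + Z * (2 * V * ε ^ 2)) := by
        refine mul_le_mul_of_nonneg_left (add_le_add (mul_le_mul_of_nonneg_left hj3 zero_le_two)
          (mul_le_mul_of_nonneg_right ((h.blow.reg j).closedBall_real_le 0 (by linarith))
            (by positivity))) (sq_nonneg _)
    _ ≤ N j ^ 2 * κ := by
        refine mul_le_mul_of_nonneg_left ?_ (sq_nonneg _)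
        rw [show ε ^ 2 = κ / (4 * (V * Z + 1)) from Real.sq_sqrt (by positivity)]
        have h1 : Z * (2 * V * (κ / (4 * (V * Z + 1)))) ≤ κ / 2 := by
          rw [show Z * (2 * V * (κ / (4 * (V * Z + 1)))) = κ / 2 * (V * Z / (V * Z + 1)) by
            field_simp; ring]
          exact mul_le_of_le_one_right (by positivity) ((div_le_one (by positivity)).2 (by linarith))
        linarith
    _ = _ := mul_comm _ _

end Vale.Agent.P120.Improve
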